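import Vale.Agent.P027Z.Basic

/-! The descent map for the isogeny `1 + i` on `y ^ 2 = x ^ 3 - d x`. -/

set_option linter.all false

namespace Vale.Agent.P027Z.A1p

open WeierstrassCurve WeierstrassCurve.Affine

variable {k : Type*} [Field k] [DecidableEq k] {d : k}

/-- the class of a first coordinate -/
def cl (d x : k) : k := if x = 0 then -d else x

/-- the descent map -/
def al : (W d).Point → k
  | .zero => 1
  | .some x _ _ => cl d x

@[simp] lemma al_zero : al (0 : (W d).Point) = 1 := rfl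
@[simp] lemma al_some {x y : k} (h : (W d).Nonsingular x y) : al (.some x y h) = cl d x := rfl

lemma cl_ne (hd : d ≠ 0) (x : k) : cl d x ≠ 0 := by
  unfold cl; split_ifs with h
  · exact neg_ne_zero.2 hd
  · exact h

lemma al_ne (hd : d ≠ 0) (Q : (W d).Point) : al Q ≠ 0 := by
  rcases Q with _ | ⟨x, y, h⟩
  · exact one_ne_zero
  · exact cl_ne hd x

lemma al_neg (Q : (W d).Point) : al (-Q) = al Q := by
  rcases Q with _ | ⟨x, y, h⟩ <;> rfl

lemma cl_three (hd : d ≠ 0) {a b c l e : k} (h3 : a * b * c = e ^ 2)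
    (h2 : a * b + a * c + b * c = -d - 2 * l * e) : ∃ s, cl d a * cl d b * cl d c = s ^ 2 := by
  by_cases he : e = 0
  · subst he
    refine ⟨d, ?_⟩
    unfold cl
    by_cases ha : a = 0
    · have hb : b ≠ 0 := by rintro rfl; apply hd; rw [ha] at h2; linear_combination h2
      have hc : c ≠ 0 := by rintro rfl; apply hd; rw [ha] at h2; linear_combination h2
      rw [if_pos ha, if_neg hb, if_neg hc]; rw [ha] at h2; linear_combination -d * h2
    · by_cases hb : b = 0
      · have hc : c ≠ 0 := by rintro rfl; apply hd; rw [hb] at h2; linear_combination h2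
        rw [if_neg ha, if_pos hb, if_neg hc]; rw [hb] at h2; linear_combination -d * h2
      · have hc : c = 0 := by
          have : a * b * c = 0 := by rw [h3]; ring
          simpa [ha, hb] using this
        rw [if_neg ha, if_neg hb, if_pos hc]; rw [hc] at h2; linear_combination -d * h2
  · have h0 : a * b * c ≠ 0 := by rw [h3]; exact pow_ne_zero _ he
    have ha : a ≠ 0 := by rintro rfl; simp at h0
    have hb : b ≠ 0 := by rintro rfl; simp at h0
    have hc : c ≠ 0 := by rintro rfl; simp at h0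
    exact ⟨e, by unfold cl; rw [if_neg ha, if_neg hb, if_neg hc, h3]⟩

/-- the descent map is a homomorphism modulo squares -/
theorem al_add (hd : d ≠ 0) (P Q : (W d).Point) : ∃ s, al P * al Q * al (P + Q) = s ^ 2 := by
  rcases P with _ | ⟨x₁, y₁, h₁⟩
  · refine ⟨al Q, ?_⟩
    show al (0 : (W d).Point) * al Q * al (0 + Q) = _
    rw [zero_add, al_zero]; ring
  rcases Q with _ | ⟨x₂, y₂, h₂⟩
  · refine ⟨cl d x₁, ?_⟩
    show al (.some x₁ y₁ h₁) * al (0 : (W d).Point) * al (.some x₁ y₁ h₁ + 0) = _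
    rw [add_zero, al_zero, al_some]; ring
  by_cases hxy : x₁ = x₂ ∧ y₁ = (W d).negY x₂ y₂
  · rw [Point.add_of_Y_eq hxy.1 hxy.2]
    refine ⟨cl d x₁, ?_⟩
    show cl d x₁ * cl d x₂ * 1 = _
    rw [← hxy.1]; ring
  · rw [Point.add_some hxy, al_some, al_some, al_some, W_addX]
    have e₁ := ((W_nonsingular d _ _).1 h₁).1
    have e₂ := ((W_nonsingular d _ _).1 h₂).1
    generalize hl : (W d).slope x₁ x₂ y₁ y₂ = l
    have ha : x₁ * x₂ + x₁ * (l ^ 2 - x₁ - x₂) + x₂ * (l ^ 2 - x₁ - x₂) =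
        -d - 2 * l * (y₁ - l * x₁) := by
      by_cases hx : x₁ = x₂
      · subst hx
        have hy : y₁ ≠ (W d).negY x₁ y₂ := fun h => hxy ⟨rfl, h⟩
        have hyy : y₁ = y₂ := Y_eq_of_Y_ne h₁.1 h₂.1 rfl hy
        subst hyy
        rw [slope_of_Y_ne rfl hy] at hl
        simp only [W_a₁, W_a₂, W_a₄, W_negY] at hl hy
        have h0 : y₁ - -y₁ ≠ 0 := sub_ne_zero.2 hy
        rw [div_eq_iff h0] at hl
        linear_combination -hl
      · rw [slope_of_X_ne hx] at hl
        have h0 : x₁ - x₂ ≠ 0 := sub_ne_zero.2 hx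
        rw [div_eq_iff h0] at hl
        apply mul_left_cancel₀ h0
        linear_combination e₁ - e₂ - (y₁ + y₂ + l * (x₂ - x₁)) * hl
    exact cl_three hd (l := l) (e := y₁ - l * x₁) (by linear_combination x₁ * ha - e₁) ha

/-- the prime over two -/
def lam : GaussianInt := ⟨1, 1⟩

section Gauss
variable {i : k} (hi : i ^ 2 = -1)
include hi

lemma gs_lam (R : (W d).Point) : gs hi lam R = R + J hi R := by simp [gs, lam]

lemma J_some {x y : k} (h : (W d).Nonsingular x y) :
    ∃ h', J hi (.some x y h) = .some (-x) (i * y) h' := by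
  have h' : (W d).Nonsingular (-x) (i * y) := by
    have := tmap_nonsingular (RingHom.id k) (neg_i_ne hi) (i_four hi d) h
    convert this using 1
    · simp only [RingHom.id_apply]; linear_combination -x * hi
    · simp only [RingHom.id_apply]; linear_combination i * y * hi
  refine ⟨h', point_ext ?_ ?_ ?_⟩
  · rw [J_eq_zero]
    exact ⟨fun e => absurd e (Point.some_ne_zero _), fun e => absurd e (Point.some_ne_zero _)⟩
  · rw [xc_J]; rfl
  · rw [yc_J]; rfl

/-- multiples of `1 + i` have square class -/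
theorem al_lam (hd : d ≠ 0) (R : (W d).Point) : ∃ s, al (gs hi lam R) = s ^ 2 := by
  rw [gs_lam]
  obtain ⟨s, hs⟩ := al_add hd R (J hi R)
  have h : ∃ t, t ≠ 0 ∧ al R * al (J hi R) = t ^ 2 := by
    rcases R with _ | ⟨x, y, h⟩
    · refine ⟨1, one_ne_zero, ?_⟩
      show al (0 : (W d).Point) * al (J hi 0) = _
      rw [map_zero, al_zero]; ring
    · obtain ⟨h', e⟩ := J_some hi h
      rw [e, al_some, al_some]
      unfold cl
      by_cases hx : x = 0
      · exact ⟨d, hd, by rw [if_pos hx, if_pos (by simp [hx])]; ring⟩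
      · refine ⟨i * x, mul_ne_zero (neg_ne_zero.1 (neg_i_ne hi)) hx, ?_⟩
        rw [if_neg hx, if_neg (by simpa using hx)]
        linear_combination -x ^ 2 * hi
  obtain ⟨t, ht, h⟩ := h
  refine ⟨s / t, ?_⟩
  rw [div_pow, ← hs, h]
  field_simp

/-- points of square class are multiples of `1 + i` -/
theorem lam_of_sq (h2 : (2 : k) ≠ 0) (hd : d ≠ 0) (hns : ∀ s : k, s ^ 2 ≠ -d) (Q : (W d).Point)
    {t : k} (ht : al Q = t ^ 2) : ∃ R, Q = gs hi lam R := by
  rcases Q with _ | ⟨x, y, h⟩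
  · exact ⟨0, (gs_zero_right hi _).symm⟩
  have e := ((W_nonsingular d _ _).1 h).1
  rw [al_some] at ht
  unfold cl at ht
  have hx : x ≠ 0 := by
    intro hx
    rw [if_pos hx] at ht
    exact hns t ht.symm
  rw [if_neg hx] at ht
  have ht0 : t ≠ 0 := by rintro rfl; apply hx; rw [ht]; ring
  have hi0 : i ≠ 0 := neg_ne_zero.1 (neg_i_ne hi)
  have hi1 : 1 + i ≠ 0 := by
    intro h0
    apply h2
    linear_combination (1 - i) * h0 + hi
  obtain ⟨w, hw⟩ : ∃ w, w = y / t := ⟨_, rfl⟩
  have hw2 : w ^ 2 = x ^ 2 - d := by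
    rw [hw, div_pow, ← ht, e]; field_simp
  obtain ⟨x', hx'⟩ : ∃ x', x' = i * x + i * w := ⟨_, rfl⟩
  have hq : x' ^ 2 - 2 * i * x * x' - d = 0 := by
    rw [hx']; linear_combination (w ^ 2 - x ^ 2) * hi - hw2
  have hx0 : x' ≠ 0 := by rintro rfl; apply hd; linear_combination -hq
  have hy0 : x' * (1 + i) * t ≠ 0 := mul_ne_zero (mul_ne_zero hx0 hi1) ht0
  have hR : (W d).Nonsingular x' (x' * (1 + i) * t) := by
    rw [W_nonsingular]
    refine ⟨?_, Or.inr (mul_ne_zero h2 hy0)⟩
    linear_combination -x' * hq - 2 * i * x' ^ 2 * ht + x' ^ 2 * t ^ 2 * hi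
  obtain ⟨h', e'⟩ := J_some hi hR
  have hne : x' ≠ -x' := by
    intro h0
    apply mul_ne_zero h2 hx0
    linear_combination h0
  have hs : gs hi lam (.some _ _ hR) = .some x y h ∨ gs hi lam (.some _ _ hR) = -.some x y h := by
    rw [gs_lam, e', Point.add_of_X_ne hne]
    apply Point.X_eq_iff.1
    rw [W_addX, slope_of_X_ne hne]
    have h0 : x' - -x' ≠ 0 := sub_ne_zero.2 hne
    have : (x' * (1 + i) * t - i * (x' * (1 + i) * t)) / (x' - -x') = t := by
      rw [div_eq_iff h0]; linear_combination -x' * t * hi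
    rw [this, ht]; ring
  rcases hs with hs | hs
  · exact ⟨_, hs.symm⟩
  · refine ⟨-.some _ _ hR, ?_⟩
    rw [gs_lam] at hs ⊢
    rw [map_neg, ← neg_add, hs, neg_neg]

omit hi in
lemma ns_T (hd : d ≠ 0) : (W d).Nonsingular 0 0 := by
  rw [W_nonsingular]; exact ⟨by ring, Or.inl (by simpa using hd)⟩

lemma lam_T (hd : d ≠ 0) : gs hi lam (.some 0 0 (ns_T hd)) = 0 := by
  obtain ⟨h', e⟩ := J_some hi (ns_T hd)
  rw [gs_lam, e]
  exact Point.add_of_Y_eq (by simp) (by simp)

/-- the kernel of `1 + i` -/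
theorem lam_ker (h2 : (2 : k) ≠ 0) (hd : d ≠ 0) (R : (W d).Point) (h : gs hi lam R = 0) :
    R = 0 ∨ R = .some 0 0 (ns_T hd) := by
  rcases R with _ | ⟨x, y, hR⟩
  · exact Or.inl rfl
  right
  obtain ⟨h', e⟩ := J_some hi hR
  rw [gs_lam, e] at h
  have hx : x = 0 := by
    by_contra hx
    have hne : x ≠ -x := by
      intro h0
      apply mul_ne_zero h2 hx
      linear_combination h0
    rw [Point.add_of_X_ne hne] at h
    exact Point.some_ne_zero _ h
  subst hx
  have hy : y = 0 := by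
    have e := ((W_nonsingular d _ _).1 hR).1
    exact pow_eq_zero_iff (n := 2) (by norm_num) |>.1 (by rw [e]; ring)
  subst hy
  rfl

end Gauss

end Vale.Agent.P027Z.A1p
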