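import Vale.Agent.P027Z.Basic

/-! The approximate parallelogram law on `y ^ 2 = x ^ 3 - d x`, and quadratic growth. -/

set_option linter.all false

namespace Vale.Agent.P027Z.A1p

open WeierstrassCurve WeierstrassCurve.Affine Height

section
variable {k : Type*} [Field k] [DecidableEq k] {d : k}

lemma isElliptic (h2 : (2 : k) ≠ 0) (hd : d ≠ 0) : (W d).IsElliptic := by
  refine ⟨?_⟩
  have h : (W d).Δ = 2 ^ 6 * d ^ 3 := by
    simp [WeierstrassCurve.Δ, WeierstrassCurve.b₂, WeierstrassCurve.b₄, WeierstrassCurve.b₆,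
      WeierstrassCurve.b₈]
    ring
  rw [h]
  exact isUnit_iff_ne_zero.2 (mul_ne_zero (pow_ne_zero _ h2) (pow_ne_zero _ hd))

lemma eval_addSub (v : Fin 3 → k) :
    (fun i => (WeierstrassCurve.addSubMap (W d) i).eval v) =
      ![(v 0 + d * v 2) ^ 2, 2 * v 1 * (v 0 - d * v 2), v 1 ^ 2 - 4 * v 0 * v 2] := by
  funext i
  fin_cases i <;>
  simp [WeierstrassCurve.addSubMap, WeierstrassCurve.b₂, WeierstrassCurve.b₄,
    WeierstrassCurve.b₆, WeierstrassCurve.b₈] <;> ring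

lemma sym_self (h2 : (2 : k) ≠ 0) (hd : d ≠ 0) {x y : k} (h : (W d).Nonsingular x y) :
    ∃ c : k, c ≠ 0 ∧ ![(x * x + d) ^ 2, 2 * (x + x) * (x * x - d), 0] =
      c • (Point.some x y h + Point.some x y h).sym2x 0 := by
  have e := ((W_nonsingular d _ _).1 h).1
  by_cases hy : y = (W d).negY x y
  · rw [Point.add_self_of_Y_eq hy, Point.sym2x_zero_zero]
    rw [W_negY] at hy
    have hy0 : y = 0 := by
      apply mul_left_cancel₀ h2; linear_combination hy
    subst hy0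
    refine ⟨(x * x + d) ^ 2, pow_ne_zero _ fun h0 => ?_, ?_⟩
    · have : x * (2 * d) = 0 := by linear_combination x * h0 + e
      rcases mul_eq_zero.1 this with h1 | h1
      · apply hd; rw [h1] at h0; linear_combination h0
      · exact mul_ne_zero h2 hd h1
    · funext i
      fin_cases i
      · simp
      · simp only [Fin.mk_one, Matrix.cons_val_one, Matrix.cons_val_zero, Pi.smul_apply,
          smul_eq_mul, mul_zero]
        linear_combination -4 * e
      · simp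
  · rw [Point.add_self_of_Y_ne hy, Point.sym2x_some_zero, W_addX, slope_of_Y_ne rfl hy]
    simp only [W_a₁, W_a₂, W_a₄, W_negY] at hy ⊢
    have h0 : y - -y ≠ 0 := sub_ne_zero.2 hy
    refine ⟨(y - -y) ^ 2, pow_ne_zero _ h0, ?_⟩
    funext i
    fin_cases i
    · simp only [Fin.zero_eta, Matrix.cons_val_zero, Pi.smul_apply, smul_eq_mul]
      rw [mul_sub, mul_sub, ← mul_pow, mul_div_cancel₀ _ h0]
      linear_combination 8 * x * e
    · simp only [Fin.mk_one, Matrix.cons_val_one, Matrix.cons_val_zero, Pi.smul_apply,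
        smul_eq_mul]
      linear_combination -4 * e
    · simp

theorem sym_map (h2 : (2 : k) ≠ 0) (hd : d ≠ 0) (V U : (W d).Point) : ∃ c : k, c ≠ 0 ∧
    (fun i => (WeierstrassCurve.addSubMap (W d) i).eval (V.sym2x U)) =
      c • (V + U).sym2x (V - U) := by
  rw [eval_addSub]
  rcases V with _ | ⟨x₁, y₁, h₁⟩
  · refine ⟨1, one_ne_zero, ?_⟩
    rw [← Point.zero_def, zero_add, zero_sub, Point.sym2x_neg_right, one_smul]
    rcases U with _ | ⟨x, y, h⟩
    · rw [← Point.zero_def, Point.sym2x_zero_zero]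
      funext i; fin_cases i <;> simp
    · rw [Point.sym2x_zero_some, Point.sym2x_some_some]
      funext i; fin_cases i <;> simp <;> ring
  rcases U with _ | ⟨x₂, y₂, h₂⟩
  · refine ⟨1, one_ne_zero, ?_⟩
    rw [← Point.zero_def, add_zero, sub_zero, one_smul, Point.sym2x_some_zero,
      Point.sym2x_some_some]
    funext i; fin_cases i <;> simp <;> ring
  rw [Point.sym2x_some_some]
  by_cases hx : x₁ = x₂
  · obtain ⟨c, hc, e⟩ := sym_self h2 hd h₁
    refine ⟨c, hc, ?_⟩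
    have e' : ![(x₁ * x₂ + d * 1) ^ 2, 2 * (x₁ + x₂) * (x₁ * x₂ - d * 1),
        (x₁ + x₂) ^ 2 - 4 * (x₁ * x₂) * 1] = ![(x₁ * x₁ + d) ^ 2, 2 * (x₁ + x₁) * (x₁ * x₁ - d), 0] := by
      rw [← hx]; funext i; fin_cases i <;> simp; ring
    refine e'.trans (e.trans ?_)
    rcases (Point.X_eq_iff (h₁ := h₂) (h₂ := h₁)).1 hx.symm with h | h
    · rw [h, sub_self]
    · rw [h, add_neg_cancel, sub_neg_eq_add, Point.sym2x_comm]
  · have e₁ := ((W_nonsingular d _ _).1 h₁).1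
    have e₂ := ((W_nonsingular d _ _).1 h₂).1
    have h0 : x₁ - x₂ ≠ 0 := sub_ne_zero.2 hx
    rw [sub_eq_add_neg (Point.some x₁ y₁ h₁), Point.neg_some, Point.add_of_X_ne hx, Point.add_of_X_ne hx,
      Point.sym2x_some_some, W_addX, W_addX, slope_of_X_ne hx, slope_of_X_ne hx, W_negY]
    refine ⟨(x₁ - x₂) ^ 2, pow_ne_zero _ h0, ?_⟩
    have a1 : (x₁ - x₂) ^ 2 * (((y₁ - y₂) / (x₁ - x₂)) ^ 2 - x₁ - x₂) =
        (x₁ + x₂) * (x₁ * x₂ - d) - 2 * y₁ * y₂ := by
      rw [mul_sub, mul_sub, ← mul_pow, mul_div_cancel₀ _ h0]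
      linear_combination e₁ + e₂
    have a2 : (x₁ - x₂) ^ 2 * (((y₁ - -y₂) / (x₁ - x₂)) ^ 2 - x₁ - x₂) =
        (x₁ + x₂) * (x₁ * x₂ - d) + 2 * y₁ * y₂ := by
      rw [mul_sub, mul_sub, ← mul_pow, mul_div_cancel₀ _ h0]
      linear_combination e₁ + e₂
    generalize ((y₁ - y₂) / (x₁ - x₂)) ^ 2 - x₁ - x₂ = p at a1 ⊢
    generalize ((y₁ - -y₂) / (x₁ - x₂)) ^ 2 - x₁ - x₂ = q at a2 ⊢
    funext i
    fin_cases i
    · simp only [Fin.zero_eta, Matrix.cons_val_zero, Pi.smul_apply, smul_eq_mul]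
      show (x₁ * x₂ + d * 1) ^ 2 = _
      apply mul_left_cancel₀ (pow_ne_zero 2 h0)
      linear_combination -((x₁ - x₂) ^ 2 * q) * a1 -
        ((x₁ + x₂) * (x₁ * x₂ - d) - 2 * y₁ * y₂) * a2 + 4 * y₂ ^ 2 * e₁ +
        4 * (x₁ ^ 3 - d * x₁) * e₂
    · simp only [Fin.mk_one, Matrix.cons_val_one, Matrix.cons_val_zero, Pi.smul_apply,
        smul_eq_mul]
      show 2 * (x₁ + x₂) * (x₁ * x₂ - d * 1) = _
      linear_combination -a1 - a2
    · simp
      ring

variable [AdmissibleAbsValues k]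

/-- logarithmic height of a point -/
noncomputable def lh (V : (W d).Point) : ℝ := logHeight₁ (xc V)

lemma lh_eq (V : (W d).Point) : lh V = logHeight V.xRep := by
  rcases V with _ | ⟨x, y, h⟩
  · show logHeight₁ (0 : k) = logHeight ![1, 0]
    rw [← logHeight_swap, ← logHeight₁_eq_logHeight]
  · exact logHeight₁_eq_logHeight x

/-- the approximate parallelogram law -/
theorem parallelogram (h2 : (2 : k) ≠ 0) (hd : d ≠ 0) : ∃ C : ℝ, ∀ V U : (W d).Point,
    |lh (V + U) + lh (V - U) - 2 * (lh V + lh U)| ≤ C := by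
  have := isElliptic h2 hd
  obtain ⟨C₁, h₁⟩ := WeierstrassCurve.abs_logHeight_addSubMap_sub_two_mul_logHeight_le (W d)
  obtain ⟨C₂, h₂⟩ := Height.abs_logHeight_sym2_sub_le k
  have hsym : ∀ V U : (W d).Point, |logHeight (V.sym2x U) - (lh V + lh U)| ≤ C₂ := by
    intro V U
    have hV := V.xRep_ne_zero
    have hW := U.xRep_ne_zero
    have eV : V.xRep = ![V.xRep 0, V.xRep 1] := by
      funext i; fin_cases i <;> rfl
    have eW : U.xRep = ![U.xRep 0, U.xRep 1] := by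
      funext i; fin_cases i <;> rfl
    have := h₂ (a := V.xRep 0) (b := V.xRep 1) (c := U.xRep 0) (d := U.xRep 1)
      (by rw [← eV]; exact hV) (by rw [← eW]; exact hW)
    rw [← eV, ← eW, ← lh_eq, ← lh_eq] at this
    exact this
  refine ⟨C₁ + 3 * C₂, fun V U => ?_⟩
  obtain ⟨c, hc, hmap⟩ := sym_map h2 hd V U
  have h3 := h₁ (V.sym2x U)
  rw [hmap, logHeight_smul_eq_logHeight _ hc] at h3
  have h4 := hsym V U
  have h5 := hsym (V + U) (V - U)
  rw [abs_le] at *
  constructor <;> linarith only [h3, h4, h5]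

omit [AdmissibleAbsValues k] in
lemma fiber_finite (x : k) : (xc (d := d) ⁻¹' {x}).Finite := by
  by_cases h : ∃ y, (W d).Nonsingular x y
  · obtain ⟨y, h⟩ := h
    refine (Set.toFinite {0, Point.some x y h, -Point.some x y h}).subset ?_
    rintro (_ | ⟨x', y', h'⟩) hV
    · exact Or.inl rfl
    · exact Or.inr (Point.X_eq_iff.1 hV)
  · refine (Set.toFinite {0}).subset ?_
    rintro (_ | ⟨x', y', h'⟩) hV
    · rfl
    · obtain rfl : x' = x := hV
      exact absurd ⟨y', h'⟩ h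

instance [Northcott (logHeight₁ (K := k))] : Northcott (lh (d := d)) where
  finite_le B := (Northcott.finite_le (h := logHeight₁ (K := k)) B).preimage'
    (fun x _ => fiber_finite x)

end

/-- quadratic growth from the approximate parallelogram law and finiteness -/
theorem growth (f : GaussianInt → ℝ) (C : ℝ) (h0 : ∀ b, 0 ≤ f b)
    (hp : ∀ a b, |f (a + b) + f (a - b) - 2 * (f a + f b)| ≤ C)
    (hN : ∀ B, {b | f b ≤ B}.Finite) : ∃ C' : ℝ, ∀ b : GaussianInt, (b.norm : ℝ) ≤ C' * (1 + f b) := by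
  have hC : 0 ≤ C := (abs_nonneg _).trans (hp 0 0)
  obtain ⟨R, hR⟩ : ∃ R, R = f 0 + f ⟨1, 0⟩ + f ⟨0, 1⟩ + f ⟨1, 1⟩ := ⟨_, rfl⟩
  have hR0 : 0 ≤ R := by rw [hR]; have := h0 0; have := h0 ⟨1, 0⟩; have := h0 ⟨0, 1⟩
                         have := h0 ⟨1, 1⟩; linarith
  obtain ⟨K, hK⟩ : ∃ K, K = R + C := ⟨_, rfl⟩
  have hK0 : 0 ≤ K := by linarith
  obtain ⟨B₀, hB₀⟩ := ((hN (K + 1)).image (fun b => b.norm)).bddAbove
  have hB : ∀ b : GaussianInt, B₀ < b.norm → 1 ≤ f b - K := by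
    intro b hb
    by_contra h
    have : b.norm ≤ B₀ := hB₀ ⟨b, by show f b ≤ K + 1; linarith, rfl⟩
    omega
  have hdbl : ∀ c, 4 * f c - f 0 - C ≤ f (c + c) := by
    intro c
    have := hp c c
    rw [sub_self, abs_le] at this
    linarith [this.1]
  obtain ⟨B₁, hB₁⟩ : ∃ B₁ : ℤ, B₁ = 8 * |B₀| + 4 := ⟨_, rfl⟩
  have hab := le_abs_self B₀
  have hab0 := abs_nonneg B₀
  have hB₁0 : (0 : ℝ) ≤ B₁ := by exact_mod_cast (show 0 ≤ B₁ by omega)
  have main : ∀ n : ℕ, ∀ b : GaussianInt, b.norm < n → B₀ < b.norm →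
      (b.norm : ℝ) ≤ B₁ * (f b - K) := by
    intro n
    induction n with
    | zero => intro b hb; have := GaussianInt.norm_nonneg b; omega
    | succ n ih =>
      intro b hb hb0
      by_cases hle : b.norm ≤ B₁
      · have h1 := hB b hb0
        have h2 : (b.norm : ℝ) ≤ B₁ := by exact_mod_cast hle
        nlinarith
      obtain ⟨x, y⟩ := b
      obtain ⟨u, e, he, rfl⟩ : ∃ u e : ℤ, (e = 0 ∨ e = 1) ∧ x = 2 * u + e :=
        ⟨x / 2, x % 2, by omega, by omega⟩
      obtain ⟨v, e', he', rfl⟩ : ∃ v e' : ℤ, (e' = 0 ∨ e' = 1) ∧ y = 2 * v + e' :=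
        ⟨y / 2, y % 2, by omega, by omega⟩
      have hr : f ⟨e, e'⟩ + f 0 ≤ 2 * R := by
        have := h0 0; have := h0 ⟨1, 0⟩; have := h0 ⟨0, 1⟩; have := h0 ⟨1, 1⟩
        rcases he with rfl | rfl <;> rcases he' with rfl | rfl
        · show f 0 + f 0 ≤ _
          linarith
        all_goals linarith
      have h1 := hp ⟨2 * u + e, 2 * v + e'⟩ ⟨e, e'⟩
      have e1 : (⟨2 * u + e, 2 * v + e'⟩ + ⟨e, e'⟩ : GaussianInt) =
          ⟨u + e, v + e'⟩ + ⟨u + e, v + e'⟩ := by ext <;> simp <;> ring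
      have e2 : (⟨2 * u + e, 2 * v + e'⟩ - ⟨e, e'⟩ : GaussianInt) = ⟨u, v⟩ + ⟨u, v⟩ := by
        ext <;> simp <;> ring
      rw [e1, e2, abs_le] at h1
      have d1 := hdbl ⟨u + e, v + e'⟩
      have d2 := hdbl ⟨u, v⟩
      simp only [Zsqrtd.norm_def] at hb hb0 hle ⊢
      have hee : e * e = e ∧ e' * e' = e' ∧ 0 ≤ e ∧ e ≤ 1 ∧ 0 ≤ e' ∧ e' ≤ 1 := by
        rcases he with rfl | rfl <;> rcases he' with rfl | rfl <;> norm_num
      obtain ⟨q1, q2, q3, q4, q5, q6⟩ := hee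
      have i1 := ih ⟨u + e, v + e'⟩
        (by simp only [Zsqrtd.norm_def]; push_cast at hb
            nlinarith [sq_nonneg (2 * u), sq_nonneg (2 * v)])
        (by simp only [Zsqrtd.norm_def]
            nlinarith [sq_nonneg (2 * u + 3 * e), sq_nonneg (2 * v + 3 * e')])
      have i2 := ih ⟨u, v⟩
        (by simp only [Zsqrtd.norm_def]; push_cast at hb
            nlinarith [sq_nonneg (2 * u + 2 * e), sq_nonneg (2 * v + 2 * e')])
        (by simp only [Zsqrtd.norm_def]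
            nlinarith [sq_nonneg (2 * u - e), sq_nonneg (2 * v - e')])
      simp only [Zsqrtd.norm_def] at i1 i2
      have h3 : (2 * u + e) * (2 * u + e) - -1 * (2 * v + e') * (2 * v + e') ≤
          2 * (((u + e) * (u + e) - -1 * (v + e') * (v + e')) + (u * u - -1 * v * v)) := by
        nlinarith
      have h4 : (((2 * u + e) * (2 * u + e) - -1 * (2 * v + e') * (2 * v + e') : ℤ) : ℝ) ≤
          2 * ((((u + e) * (u + e) - -1 * (v + e') * (v + e') : ℤ) : ℝ) +
            ((u * u - -1 * v * v : ℤ) : ℝ)) := by exact_mod_cast h3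
      have h5 : 2 * ((f ⟨u + e, v + e'⟩ - K) + (f ⟨u, v⟩ - K)) ≤
          f ⟨2 * u + e, 2 * v + e'⟩ - K := by linarith [h1.2]
      have h6 := mul_le_mul_of_nonneg_left h5 hB₁0
      linarith
  refine ⟨B₁, fun b => ?_⟩
  have hf := h0 b
  by_cases hb : B₀ < b.norm
  · have h1 := main (b.norm.toNat + 1) b (by have := GaussianInt.norm_nonneg b; omega) hb
    nlinarith
  · have h2 : (b.norm : ℝ) ≤ B₁ := by exact_mod_cast (show b.norm ≤ B₁ by omega)
    nlinarith

end Vale.Agent.P027Z.A1p
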