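import Vale.Agent.P027Z.A1Num
import Vale.Agent.P027Z.A1Alg
import Vale.Agent.P027Z.A1Ht

/-! Block `A1`: rank one over the Gaussian integers and the growth of the heights. -/

set_option linter.all false

namespace Vale.Agent.P027Z

namespace A1p

open WeierstrassCurve WeierstrassCurve.Affine Height

lemma lam_not_unit : ¬ IsUnit lam := by
  rw [← Zsqrtd.norm_eq_one_iff]
  decide

lemma lam_cases (a : GaussianInt) : lam ∣ a ∨ ∃ b, a = 1 + lam * b := by
  obtain ⟨x, y⟩ := a
  rcases Int.emod_two_eq_zero_or_one (x + y) with h | h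
  · left
    refine ⟨⟨(x + y) / 2, (y - x) / 2⟩, ?_⟩
    ext <;> simp [lam] <;> omega
  · right
    refine ⟨⟨(x - 1 + y) / 2, (y - x + 1) / 2⟩, ?_⟩
    ext <;> simp [lam] <;> omega

section Mod
variable {M : Type*} [AddCommGroup M] [Module GaussianInt M]

lemma finiteIndex {α : M → Fin 4} (h4 : ∀ P Q, α P = α Q → ∃ R, P - Q = lam • R) :
    (nsmulAddMonoidHom (α := M) 2).range.FiniteIndex := by
  classical
  have hr : ∀ P : M, ∃ R, P - Function.invFun α (α P) = lam • R := fun P =>
    h4 _ _ (Function.invFun_eq ⟨P, rfl⟩).symm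
  choose r hr using hr
  let β : M → Fin 4 × Fin 4 := fun P => (α P, α (r P))
  have hβ : ∀ P Q, β P = β Q → (QuotientAddGroup.mk P :
      M ⧸ (nsmulAddMonoidHom (α := M) 2).range) = QuotientAddGroup.mk Q := by
    intro P Q h
    obtain ⟨h1, h2⟩ := Prod.ext_iff.1 h
    obtain ⟨R, hR⟩ := h4 _ _ h2.symm
    rw [QuotientAddGroup.eq]
    refine ⟨(⟨0, 1⟩ : GaussianInt) • R, ?_⟩
    have e1 := hr P
    have e2 := hr Q
    have h1' : α P = α Q := h1
    rw [h1'] at e1
    have e3 : -P + Q = lam • (r Q - r P) := by rw [smul_sub, ← e1, ← e2]; abel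
    rw [e3, hR, smul_smul, nsmulAddMonoidHom_apply, ← Nat.cast_smul_eq_nsmul GaussianInt,
      smul_smul]
    rfl
  have : Finite (M ⧸ (nsmulAddMonoidHom (α := M) 2).range) := by
    refine Finite.of_surjective (fun c => QuotientAddGroup.mk (Function.invFun β c)) ?_
    intro q
    obtain ⟨P, rfl⟩ := QuotientAddGroup.mk_surjective q
    exact ⟨β P, hβ _ _ (Function.invFun_eq ⟨P, rfl⟩)⟩
  exact AddSubgroup.finiteIndex_of_finite_quotient

theorem rank_one [Module.Finite GaussianInt M] {α : M → Fin 4}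
    (h4 : ∀ P Q, α P = α Q → ∃ R, P - Q = lam • R) {T P : M} (hT : lam • T = 0)
    (hker : ∀ R : M, lam • R = 0 → R = 0 ∨ R = T) (n1 : ∀ R, T ≠ lam • R) (n2 : ∀ R, P ≠ lam • R)
    (n3 : ∀ R, P - T ≠ lam • R) : ∃ (P₀ : M) (m : ℕ),
      (∀ Q : M, ∃ b : GaussianInt, m • Q = b • (m • P₀)) ∧
      ∀ b : GaussianInt, b • (m • P₀) = 0 → b = 0 := by
  classical
  have hlam : lam ≠ 0 := by decide
  -- `P` is not a torsion point
  have hpow : ∀ (n : ℕ) (R : M), lam ^ n • R = 0 → R = 0 ∨ R = T := by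
    intro n
    induction n with
    | zero => intro R h; left; simpa using h
    | succ n ih =>
      intro R h
      rw [pow_succ, mul_smul] at h
      rcases ih _ h with h | h
      · exact hker R h
      · exact absurd h.symm (n1 R)
  have hP : P ∉ Submodule.torsion GaussianInt M := by
    rintro ⟨⟨a, ha⟩, h⟩
    obtain ⟨n, b, hb, rfl⟩ := WfDvdMonoid.max_power_factor'
      (nonZeroDivisors.ne_zero ha) lam_not_unit
    obtain ⟨c, rfl⟩ := (lam_cases b).resolve_left hb
    have h' : lam ^ n • ((1 + lam * c) • P) = 0 := by rw [← mul_smul]; exact h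
    rcases hpow n _ h' with h1 | h1
    · apply n2 (-(c • P))
      rw [add_smul, one_smul, mul_smul] at h1
      rw [smul_neg]
      exact eq_neg_of_add_eq_zero_left h1
    · apply n3 (-(c • P))
      rw [add_smul, one_smul, mul_smul] at h1
      rw [smul_neg, ← h1]
      abel
  have hTt : T ∈ Submodule.torsion GaussianInt M :=
    ⟨⟨lam, mem_nonZeroDivisors_of_ne_zero hlam⟩, hT⟩
  -- the quotient by the torsion
  let N := Submodule.torsion GaussianInt M
  have : Module.Free GaussianInt (M ⧸ N) := Module.free_of_finite_type_torsion_free'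
  let bas := Module.finBasis GaussianInt (M ⧸ N)
  have hr0 : Module.finrank GaussianInt (M ⧸ N) ≠ 0 := by
    intro h
    have : Subsingleton (M ⧸ N) := Module.finrank_zero_iff.1 h
    exact hP ((Submodule.Quotient.mk_eq_zero N).1 (Subsingleton.elim _ _))
  have hr2 : Module.finrank GaussianInt (M ⧸ N) < 2 := by
    by_contra hge
    let j₀ : Fin (Module.finrank GaussianInt (M ⧸ N)) := ⟨0, by omega⟩
    let j₁ : Fin (Module.finrank GaussianInt (M ⧸ N)) := ⟨1, by omega⟩
    have hj : j₀ ≠ j₁ := by simp [j₀, j₁]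
    obtain ⟨P₀, h₀⟩ := N.mkQ_surjective (bas j₀)
    obtain ⟨P₁, h₁⟩ := N.mkQ_surjective (bas j₁)
    let φ : Fin (Module.finrank GaussianInt (M ⧸ N)) → M →ₗ[GaussianInt] GaussianInt :=
      fun j => (bas.coord j).comp N.mkQ
    have a00 : φ j₀ P₀ = 1 := by simp [φ, h₀]
    have a01 : φ j₀ P₁ = 0 := by simp [φ, h₁, hj, hj.symm]
    have a10 : φ j₁ P₀ = 0 := by simp [φ, h₀, hj, hj.symm]
    have a11 : φ j₁ P₁ = 1 := by simp [φ, h₁]
    have aT : ∀ j, φ j T = 0 := fun j => by
      have : N.mkQ T = 0 := (Submodule.Quotient.mk_eq_zero N).2 hTt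
      simp only [φ, LinearMap.comp_apply, this, map_zero]
    have key : ∀ j (V R : M), V = lam • R → φ j V ≠ 1 ∧ φ j V ≠ -1 := by
      rintro j V R rfl
      rw [map_smul, smul_eq_mul]
      refine ⟨fun h => lam_not_unit (IsUnit.of_mul_eq_one _ h), fun h => lam_not_unit ?_⟩
      exact IsUnit.of_mul_eq_one (-φ j R) (by rw [mul_neg, h, neg_neg])
    let e : Fin 5 → M := ![0, P₀, P₁, P₀ + P₁, T]
    obtain ⟨s, t, hst, h⟩ := Fintype.exists_ne_map_eq_of_card_lt (fun s => α (e s)) (by simp)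
    obtain ⟨R, hR⟩ := h4 _ _ h
    have k0 := key j₀ _ _ hR
    have k1 := key j₁ _ _ hR
    have nT := n1 R
    have nT' := n1 (-R)
    rw [smul_neg, ← hR] at nT'
    rw [← hR] at nT
    fin_cases s <;> fin_cases t <;>
      simp [e, a00, a01, a10, a11, aT] at hst k0 k1 nT nT'
  have hr1 : Module.finrank GaussianInt (M ⧸ N) = 1 := by omega
  have : Unique (Fin (Module.finrank GaussianInt (M ⧸ N))) := by rw [hr1]; infer_instance
  obtain ⟨P₀, h₀⟩ := N.mkQ_surjective (bas default)
  obtain ⟨a, ha, ha0⟩ := Submodule.annihilator_top_inter_nonZeroDivisors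
    (Submodule.torsion_isTorsion (R := GaussianInt) (M := M))
  have ha0' : a ≠ 0 := nonZeroDivisors.ne_zero ha0
  have hm : ((a.norm.natAbs : ℕ) : GaussianInt) = star a * a := by
    rw [mul_comm, ← Zsqrtd.norm_eq_mul_conj, ← GaussianInt.abs_natCast_norm]
    simp
  have hkill : ∀ V ∈ N, a.norm.natAbs • V = 0 := by
    intro V hV
    have h1 : a • (⟨V, hV⟩ : N) = 0 := (Submodule.mem_annihilator.1 ha) _ Submodule.mem_top
    have h2 : a • V = 0 := congrArg Subtype.val h1
    rw [← Nat.cast_smul_eq_nsmul GaussianInt, hm, mul_smul, h2, smul_zero]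
  refine ⟨P₀, a.norm.natAbs, fun Q => ⟨bas.repr (N.mkQ Q) default, ?_⟩, fun b hb => ?_⟩
  · have h1 := bas.sum_repr (N.mkQ Q)
    rw [Finset.univ_unique, Finset.sum_singleton, ← h₀, ← map_smul] at h1
    have h2 := hkill _ ((Submodule.Quotient.eq N).1 h1.symm)
    rw [smul_sub, sub_eq_zero] at h2
    rw [h2, smul_comm]
  · have h1 := congrArg (fun V => bas.repr (N.mkQ V) default) hb
    simp only [← Nat.cast_smul_eq_nsmul GaussianInt, map_smul, h₀, map_zero, hm,
      Module.Basis.repr_self, Finsupp.smul_apply, Finsupp.single_eq_same, smul_eq_mul, mul_one,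
      Finsupp.zero_apply] at h1
    exact (mul_eq_zero.1 h1).resolve_right (mul_ne_zero (star_ne_zero.2 ha0') ha0')

end Mod

lemma d_ne : d₁ ≠ 0 := by
  intro h
  have := d_mul
  rw [h, zero_mul] at this
  norm_num at this

lemma exists_alpha : ∃ α : (W d₁).Point → Fin 4, ∀ P Q, α P = α Q →
    ∃ R, P - Q = gs hi lam R := by
  obtain ⟨η, hη, h⟩ := classes
  have h1 : ∀ P : (W d₁).Point, ∃ (j : Fin 4) (s : L),
      al P = ![1, η, -d₁, -d₁ * η] j * s ^ 2 := by
    rintro (_ | ⟨x, y, hxy⟩)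
    · exact ⟨0, 1, by show (1 : L) = 1 * 1 ^ 2; ring⟩
    · rw [al_some]
      unfold cl
      split_ifs with hx
      · exact ⟨2, 1, by simp⟩
      · obtain ⟨s, hs⟩ := h x y hx ((W_nonsingular _ _ _).1 hxy).1
        rcases hs with hs | hs | hs | hs
        · exact ⟨0, s, by simpa using hs⟩
        · exact ⟨1, s, by simpa using hs⟩
        · exact ⟨2, s, by simpa using hs⟩
        · exact ⟨3, s, by simpa using hs⟩
  choose α s hs using h1
  refine ⟨α, fun P Q hPQ => ?_⟩
  obtain ⟨t, ht⟩ := al_add d_ne P (-Q)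
  have hP := al_ne d_ne P
  have hQ := al_ne d_ne Q
  rw [al_neg, ← sub_eq_add_neg] at ht
  have eP := hs P
  have eQ := hs Q
  rw [hPQ] at eP
  generalize ![1, η, -d₁, -d₁ * η] (α Q) = c at eP eQ
  have hc : c ≠ 0 := by rintro rfl; apply hP; rw [eP]; ring
  have hsP : s P ≠ 0 := by intro h0; apply hP; rw [eP, h0]; ring
  have hsQ : s Q ≠ 0 := by intro h0; apply hQ; rw [eQ, h0]; ring
  refine lam_of_sq hi two_ne_zero d_ne ns_d _ (t := t / (c * s P * s Q)) ?_
  rw [div_pow, ← ht, eP, eQ]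
  field_simp

lemma x₀_ne : x₀ ≠ 0 := fun h => ns_x 0 (by rw [h]; ring)

lemma ns_P : (W d₁).Nonsingular x₀ ((ζ - ζ ^ 3) * x₀) := by
  have h2 : (ζ - ζ ^ 3) ^ 2 = 2 := by linear_combination (ζ ^ 2 - 2) * ζ_four
  rw [W_nonsingular]
  refine ⟨?_, Or.inr (mul_ne_zero two_ne_zero (mul_ne_zero ?_ x₀_ne))⟩
  · have h3 : d₁ = x₀ * (x₀ - 2) := by unfold d₁ x₀; linear_combination -ζ_four
    rw [h3]; linear_combination x₀ ^ 2 * h2
  · intro h
    rw [h] at h2
    norm_num at h2

end A1p

open A1p WeierstrassCurve WeierstrassCurve.Affine Height in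
theorem a1 : A1 := by
  letI := gmod hi d₁
  obtain ⟨α, hα⟩ := exists_alpha
  obtain ⟨C, hC⟩ := parallelogram (d := d₁) two_ne_zero d_ne
  have hfg : AddGroup.FG (W d₁).Point :=
    AddCommGroup.fg_of_descent' (h := lh) (finiteIndex (α := α) hα)
      (fun _ => zero_le_logHeight₁ _) hC
  have hZ : Module.Finite ℤ (W d₁).Point := Module.Finite.iff_addGroup_fg.2 hfg
  have hG : Module.Finite GaussianInt (W d₁).Point :=
    Module.Finite.of_restrictScalars_finite ℤ _ _
  obtain ⟨P₀, m, h1, h2⟩ := rank_one (α := α) hα (T := .some 0 0 (ns_T d_ne))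
    (P := .some _ _ ns_P) (lam_T hi d_ne) (lam_ker hi two_ne_zero d_ne)
    (fun R h => by
      obtain ⟨s, hs⟩ := al_lam hi d_ne R
      rw [show gs hi lam R = _ from h.symm, al_some, cl, if_pos rfl] at hs
      exact ns_d s hs.symm)
    (fun R h => by
      obtain ⟨s, hs⟩ := al_lam hi d_ne R
      rw [show gs hi lam R = _ from h.symm, al_some, cl, if_neg x₀_ne] at hs
      exact ns_x s hs.symm)
    (fun R h => by
      obtain ⟨s, hs⟩ := al_lam hi d_ne R
      rw [show gs hi lam R = _ from h.symm] at hs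
      obtain ⟨t, ht⟩ := al_add d_ne (.some _ _ ns_P) (-.some 0 0 (ns_T d_ne))
      rw [al_neg, ← sub_eq_add_neg, hs, al_some, al_some, cl, cl, if_neg x₀_ne, if_pos rfl] at ht
      have hs0 : s ≠ 0 := by
        rintro rfl
        exact al_ne d_ne _ (hs.trans (by ring))
      apply ns_dx (t / s)
      rw [div_pow, ← ht]
      field_simp)
  have hinj : Function.Injective (fun b : GaussianInt => gs hi b (m • P₀)) := by
    intro a b hab
    have : (a - b) • (m • P₀) = 0 := by rw [sub_smul]; exact sub_eq_zero.2 hab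
    exact sub_eq_zero.1 (h2 _ this)
  obtain ⟨C', hC'⟩ := growth (fun b => lh (gs hi b (m • P₀))) C (fun _ => zero_le_logHeight₁ _)
    (fun a b => by
      have := hC (a • (m • P₀)) (b • (m • P₀))
      rw [← add_smul, ← sub_smul] at this
      exact this)
    (fun B => (Northcott.finite_le (h := lh (d := d₁)) B).preimage hinj.injOn)
  exact ⟨P₀, m, C', h1, h2, hC'⟩

end Vale.Agent.P027Z
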