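import Vale.Agent.P027Z.Form

/-! Reduction of points is a homomorphism. -/

set_option linter.all false

namespace Vale.Agent.P027Z

open WeierstrassCurve WeierstrassCurve.Affine

variable {k κ : Type*} [Field k] [DecidableEq k] [Field κ] [DecidableEq κ]
  {O : ValuationSubring k} {ρ : O →+* κ} {d : O}

lemma red_nonsing (hd : ρ (2 * d) ≠ 0) {x y : O} (h : (W (d : k)).Nonsingular x y) :
    (W (ρ d)).Nonsingular (ρ x) (ρ y) := by
  rw [W_nonsingular] at h ⊢
  have e : y ^ 2 = x ^ 3 - d * x := by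
    apply Subtype.ext
    push_cast
    exact h.1
  have e' := congrArg ρ e
  simp only [map_pow, map_sub, map_mul] at e'
  refine ⟨e', ?_⟩
  rw [map_mul, map_ofNat] at hd
  have h2 : (2 : κ) ≠ 0 := left_ne_zero_of_mul hd
  have h3 : ρ d ≠ 0 := right_ne_zero_of_mul hd
  by_contra hc
  push Not at hc
  obtain ⟨c1, c2⟩ := hc
  have hy : ρ y = 0 := (mul_eq_zero.1 c2).resolve_left h2
  have : ρ x * (ρ x ^ 2 - ρ d) = 0 := by rw [hy] at e'; linear_combination -e'
  rcases mul_eq_zero.1 this with h0 | h0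
  · apply h3; rw [h0] at c1; linear_combination -c1
  · apply hd; linear_combination c1 - 3 * h0

open Classical in
/-- reduction of points -/
noncomputable def redFun (hd : ρ (2 * d) ≠ 0) : (W (d : k)).Point → (W (ρ d)).Point
  | .zero => 0
  | .some x y h => if hx : x ∈ O then
      .some (ρ ⟨x, hx⟩) (ρ ⟨y, y_mem O d.2 ((W_nonsingular _ _ _).1 h).1 hx⟩) (red_nonsing hd h)
    else 0

variable (hd : ρ (2 * d) ≠ 0)

lemma redFun_zero : redFun hd 0 = 0 := rfl

lemma redFun_some {x y : O} (h : (W (d : k)).Nonsingular x y) :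
    redFun hd (.some x y h) = .some (ρ x) (ρ y) (red_nonsing hd h) := by
  simp only [redFun, dif_pos x.2]

lemma redFun_eq_zero (Q : (W (d : k)).Point) : redFun hd Q = 0 ↔ Ker O Q := by
  rcases Q with _ | ⟨x, y, h⟩
  · exact ⟨fun _ => Or.inl rfl, fun _ => rfl⟩
  · rw [ker_some]
    by_cases hx : x ∈ O
    · simp only [redFun, dif_pos hx]
      exact ⟨fun e => absurd e (Point.some_ne_zero _), fun e => absurd hx e⟩
    · simp only [redFun, dif_neg hx]
      exact ⟨fun _ => hx, fun _ => trivial⟩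

/-- a point outside the kernel has integral coordinates -/
lemma exists_int {Q : (W (d : k)).Point} (hQ : ¬ Ker O Q) :
    ∃ (x y : O) (h : (W (d : k)).Nonsingular x y), Q = .some x y h := by
  rcases Q with _ | ⟨x, y, h⟩
  · exact absurd (Or.inl rfl) hQ
  · rw [ker_some, not_not] at hQ
    exact ⟨⟨x, hQ⟩, ⟨y, y_mem O d.2 ((W_nonsingular _ _ _).1 h).1 hQ⟩, h, rfl⟩

lemma redFun_neg (Q : (W (d : k)).Point) : redFun hd (-Q) = -redFun hd Q := by
  by_cases hQ : Ker O Q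
  · rw [(redFun_eq_zero hd Q).2 hQ, (redFun_eq_zero hd (-Q)).2 ((ker_neg O).2 hQ), neg_zero]
  · obtain ⟨x, y, h, rfl⟩ := exists_int hQ
    have h' : (W (d : k)).Nonsingular x ((-y : O) : k) := by
      have := (nonsingular_neg (W' := W (d : k)) _ _).2 h
      rwa [W_negY] at this
    have e : -(Point.some (x : k) (y : k) h) = .some (x : k) ((-y : O) : k) h' := by
      rw [Point.neg_some]
      congr 1
      rw [W_negY]; rfl
    rw [e, redFun_some, redFun_some, Point.neg_some]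
    congr 1
    rw [W_negY, map_neg]

lemma div_mem_of (hρ : ∀ c : O, ρ c = 0 ↔ (c : k) ∈ O.nonunits) {l : k} {a b : O}
    (hb : ρ b ≠ 0) (h : l * b = a) : l ∈ O := by
  rw [Ne, hρ, O.mem_nonunits_iff, not_lt] at hb
  have hb1 : O.valuation (b : k) = 1 := le_antisymm ((O.valuation_le_one_iff _).2 b.2) hb
  have ha := (O.valuation_le_one_iff _).2 a.2
  rw [← h, map_mul, hb1, mul_one] at ha
  exact (O.valuation_le_one_iff _).1 ha

lemma redFun_add_int (hρ : ∀ c : O, ρ c = 0 ↔ (c : k) ∈ O.nonunits)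
    {P Q : (W (d : k)).Point} (hP : ¬ Ker O P) (hQ : ¬ Ker O Q) :
    redFun hd (P + Q) = redFun hd P + redFun hd Q := by
  obtain ⟨x₁, y₁, h₁, rfl⟩ := exists_int hP
  obtain ⟨x₂, y₂, h₂, rfl⟩ := exists_int hQ
  rw [redFun_some, redFun_some]
  by_cases hxy : (x₁ : k) = x₂ ∧ (y₁ : k) = (W (d : k)).negY x₂ y₂
  · rw [Point.add_of_Y_eq hxy.1 hxy.2, redFun_zero]
    have e1 : x₁ = x₂ := Subtype.ext hxy.1
    have e2 : y₁ = -y₂ := Subtype.ext (by rw [hxy.2, W_negY]; rfl)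
    rw [Point.add_of_Y_eq (by rw [e1]) (by rw [W_negY, e2, map_neg])]
  obtain ⟨hl, hk⟩ := slope_rel h₁ h₂ hxy
  set l := (W (d : k)).slope x₁ x₂ y₁ y₂ with hldef
  have red2 : ∀ hlO : l ∈ O, ρ y₁ - ρ y₂ = ρ ⟨l, hlO⟩ * (ρ x₁ - ρ x₂) ∧
      ρ ⟨l, hlO⟩ * (ρ y₁ + ρ y₂) = ρ x₁ ^ 2 + ρ x₁ * ρ x₂ + ρ x₂ ^ 2 - ρ d := by
    intro hlO
    have a1 : y₁ - y₂ = (⟨l, hlO⟩ : O) * (x₁ - x₂) := Subtype.ext (by push_cast; exact hl)
    have a2 : (⟨l, hlO⟩ : O) * (y₁ + y₂) = x₁ ^ 2 + x₁ * x₂ + x₂ ^ 2 - d :=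
      Subtype.ext (by push_cast; exact hk)
    have b1 := congrArg ρ a1
    have b2 := congrArg ρ a2
    simp only [map_sub, map_mul, map_add, map_pow] at b1 b2
    exact ⟨b1, b2⟩
  by_cases hxy' : ρ x₁ = ρ x₂ ∧ ρ y₁ = (W (ρ d)).negY (ρ x₂) (ρ y₂)
  · rw [Point.add_of_Y_eq hxy'.1 hxy'.2, redFun_eq_zero, Point.add_some hxy, ker_some, W_addX]
    intro h3
    have hlO : l ∈ O := by
      have h4 : l ^ 2 ∈ O := by
        have : l ^ 2 = (l ^ 2 - x₁ - x₂) + x₁ + x₂ := by ring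
        rw [this]
        exact O.add_mem _ _ (O.add_mem _ _ h3 x₁.2) x₂.2
      rw [← O.valuation_le_one_iff] at h4 ⊢
      rw [map_pow] at h4
      exact (pow_le_one_iff (by norm_num)).1 h4
    obtain ⟨b1, b2⟩ := red2 hlO
    obtain ⟨c1, c2⟩ := hxy'
    rw [W_negY] at c2
    rcases ((W_nonsingular _ _ _).1 (red_nonsing hd h₂)).2 with h5 | h5
    · apply h5
      rw [c1, c2] at b2
      linear_combination -b2
    · apply h5
      rw [c1, c2] at b1
      linear_combination -b1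
  · have hne : ρ x₁ - ρ x₂ ≠ 0 ∨ ρ y₁ + ρ y₂ ≠ 0 := by
      by_contra hc
      push Not at hc
      exact hxy' ⟨sub_eq_zero.1 hc.1, by rw [W_negY]; linear_combination hc.2⟩
    have hlO : l ∈ O := by
      rcases hne with h5 | h5
      · rw [← map_sub] at h5
        exact div_mem_of hρ (a := y₁ - y₂) h5 (by push_cast; exact hl.symm)
      · rw [← map_add] at h5
        exact div_mem_of hρ (a := x₁ ^ 2 + x₁ * x₂ + x₂ ^ 2 - d) h5 (by push_cast; exact hk)
    obtain ⟨b1, b2⟩ := red2 hlO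
    obtain ⟨c1, c2⟩ := slope_rel (red_nonsing hd h₁) (red_nonsing hd h₂) hxy'
    have hm : (W (ρ d)).slope (ρ x₁) (ρ x₂) (ρ y₁) (ρ y₂) = ρ ⟨l, hlO⟩ := by
      rcases hne with h5 | h5
      · apply mul_right_cancel₀ h5
        rw [← c1, ← b1]
      · apply mul_right_cancel₀ h5
        rw [c2, b2]
    rw [Point.add_some hxy, Point.add_some hxy']
    set L : O := ⟨l, hlO⟩ with hL
    have ex : (W (d : k)).addX x₁ x₂ l = ((L ^ 2 - x₁ - x₂ : O) : k) := by
      rw [W_addX]; push_cast; rfl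
    have ey : (W (d : k)).addY x₁ x₂ y₁ l = ((-(L * (L ^ 2 - x₁ - x₂ - x₁) + y₁) : O) : k) := by
      rw [W_addY]; push_cast; rfl
    have h3 := nonsingular_add h₁ h₂ hxy
    rw [← hldef, ex, ey] at h3
    have e3 : Point.some ((W (d : k)).addX x₁ x₂ l) ((W (d : k)).addY x₁ x₂ y₁ l)
        (nonsingular_add h₁ h₂ hxy) = .some _ _ h3 := by
      congr 1
    rw [e3, redFun_some]
    congr 1
    · rw [hm, W_addX]; simp only [map_sub, map_pow]
    · rw [hm, W_addY]; simp only [map_sub, map_pow, map_neg, map_add, map_mul]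

lemma redFun_add_ker (hρ : ∀ c : O, ρ c = 0 ↔ (c : k) ∈ O.nonunits)
    {P Q : (W (d : k)).Point} (hP : ¬ Ker O P) (hQ : Ker O Q) :
    redFun hd (P + Q) = redFun hd P := by
  have hS : ¬ Ker O (P + Q) := by
    intro h
    apply hP
    have := ker_add' O d.2 h ((ker_neg O).2 hQ)
    rwa [add_neg_cancel_right] at this
  have h := redFun_add_int hd hρ hS (fun h => hP ((ker_neg O).1 h))
  rw [add_neg_cancel_comm, (redFun_eq_zero hd Q).2 hQ, redFun_neg] at h
  exact add_neg_eq_zero.1 h.symm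

lemma redFun_add (hρ : ∀ c : O, ρ c = 0 ↔ (c : k) ∈ O.nonunits) (P Q : (W (d : k)).Point) :
    redFun hd (P + Q) = redFun hd P + redFun hd Q := by
  by_cases hP : Ker O P
  · by_cases hQ : Ker O Q
    · rw [(redFun_eq_zero hd P).2 hP, (redFun_eq_zero hd Q).2 hQ,
        (redFun_eq_zero hd _).2 (ker_add' O d.2 hP hQ), add_zero]
    · rw [add_comm, redFun_add_ker hd hρ hQ hP, (redFun_eq_zero hd P).2 hP, zero_add]
  · by_cases hQ : Ker O Q
    · rw [redFun_add_ker hd hρ hP hQ, (redFun_eq_zero hd Q).2 hQ, add_zero]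
    · exact redFun_add_int hd hρ hP hQ

theorem red : Red := by
  intro k _ _ O κ _ _ ρ hρ d hd
  refine ⟨⟨⟨redFun hd, redFun_zero hd⟩, redFun_add hd hρ⟩, redFun_eq_zero hd,
    fun x y h => ⟨red_nonsing hd h, redFun_some hd h⟩,
    fun x y h hx => y_mem O d.2 ((W_nonsingular _ _ _).1 h).1 hx⟩

end Vale.Agent.P027Z
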