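import Vale.Agent.P027Z.A2b
import Vale.Agent.P027Z.Red

/-! The orders of points on the two conjugate curves are coprime away from two. -/

set_option linter.all false

namespace Vale.Agent.P027Z.A2p

open WeierstrassCurve WeierstrassCurve.Affine

/-- the standard basis of the Gaussian integers -/
noncomputable def gbasis : Module.Basis (Fin 2) ℤ GaussianInt :=
  Module.Basis.ofEquivFun
    { toFun := fun z => ![z.re, z.im]
      invFun := fun v => ⟨v 0, v 1⟩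
      map_add' := fun a b => by ext j; fin_cases j <;> simp
      map_smul' := fun n a => by ext j; fin_cases j <;> simp
      left_inv := fun z => rfl
      right_inv := fun v => by ext j; fin_cases j <;> rfl }

lemma gbasis_repr (z : GaussianInt) : gbasis.repr z 0 = z.re ∧ gbasis.repr z 1 = z.im :=
  ⟨rfl, rfl⟩

lemma gbasis_zero : gbasis 0 = 1 := by
  apply gbasis.repr.injective
  ext j
  fin_cases j <;> simp [gbasis_repr]

lemma gbasis_one : gbasis 1 = ⟨0, 1⟩ := by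
  apply gbasis.repr.injective
  ext j
  fin_cases j <;> simp [gbasis_repr]

lemma gauss_card (a : GaussianInt) :
    Nat.card (GaussianInt ⧸ Ideal.span {a}) = a.norm.natAbs := by
  haveI : Module.Free ℤ GaussianInt := Module.Free.of_basis gbasis
  haveI : Module.Finite ℤ GaussianInt := Module.Finite.of_basis gbasis
  have h := Ideal.absNorm_span_singleton a
  rw [Ideal.absNorm_apply, Submodule.cardQuot_apply] at h
  rw [h, Algebra.norm_eq_matrix_det gbasis, Matrix.det_fin_two]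
  simp only [Algebra.leftMulMatrix_eq_repr_mul, gbasis_zero, gbasis_one, gbasis_repr]
  congr 1
  simp [Zsqrtd.norm_def]

lemma gauss_odd {a : GaussianInt} (h : ¬ (⟨1, 1⟩ : GaussianInt) ∣ a) : a.norm % 2 = 1 := by
  by_contra h'
  apply h
  rw [Zsqrtd.norm_def] at h'
  have h2 : (a.re + a.im) % 2 = 0 := by
    rcases Int.emod_two_eq_zero_or_one a.re with h1 | h1 <;>
      rcases Int.emod_two_eq_zero_or_one a.im with h2 | h2 <;>
      simp [Int.add_emod, Int.mul_emod, h1, h2] at h' ⊢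
  obtain ⟨m, hm⟩ := Int.dvd_of_emod_eq_zero h2
  refine ⟨⟨m, m - a.re⟩, ?_⟩
  ext <;> simp <;> omega

lemma gauss_five {a : GaussianInt} (h : a.norm % 2 = 1) (hu : ¬ IsUnit a) : 5 ≤ a.norm.natAbs := by
  have h1 : a.norm ≠ 1 := fun e => hu ((Zsqrtd.norm_eq_one_iff' (by norm_num) a).1 e)
  have h0 : 0 ≤ a.norm := GaussianInt.norm_nonneg a
  have h3 : a.norm ≠ 3 := by
    intro e
    rw [Zsqrtd.norm_def] at e
    have b1 : -2 < a.re := by nlinarith [mul_self_nonneg a.im]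
    have b2 : a.re < 2 := by nlinarith [mul_self_nonneg a.im]
    have b3 : -2 < a.im := by nlinarith [mul_self_nonneg a.re]
    have b4 : a.im < 2 := by nlinarith [mul_self_nonneg a.re]
    generalize a.re = x at *
    generalize a.im = y at *
    interval_cases x <;> interval_cases y <;> omega
  omega

section
variable {k : Type} [Field k] [DecidableEq k] {d i : k} (hi : i ^ 2 = -1)

lemma two_torsion {Q : (W d).Point} (h : yc Q = 0) : Q + Q = 0 := by
  rcases Q with _ | ⟨x, y, hxy⟩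
  · rfl
  · have h' : y = 0 := h
    exact Point.add_self_of_Y_eq (by rw [W_negY, h', neg_zero])

lemma yc_of_two_torsion (h2 : (2 : k) ≠ 0) {Q : (W d).Point} (h : Q + Q = 0) : yc Q = 0 := by
  have := congrArg yc (eq_neg_of_add_eq_zero_left h)
  rw [yc_neg] at this
  apply mul_left_cancel₀ h2
  linear_combination this

lemma yc_sq (Q : (W d).Point) : yc Q ^ 2 = xc Q ^ 3 - d * xc Q := by
  rcases Q with _ | ⟨x, y, h⟩
  · show (0 : k) ^ 2 = 0 ^ 3 - d * 0
    simp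
  · exact ((W_nonsingular d _ _).1 h).1

lemma gs_comm (a b : GaussianInt) (Q : (W d).Point) :
    gs hi a (gs hi b Q) = gs hi b (gs hi a Q) := by
  rw [← gs_mul, ← gs_mul, mul_comm]

lemma gs_sub (a b : GaussianInt) (Q : (W d).Point) :
    gs hi (a - b) Q = gs hi a Q - gs hi b Q := by
  rw [eq_sub_iff_add_eq, ← gs_add, sub_add_cancel]

lemma odd_kill {a : GaussianInt} (ha : a.norm % 2 = 1) {Q : (W d).Point} (h1 : gs hi a Q = 0)
    (h2 : Q + Q = 0) : Q = 0 := by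
  have h3 : gs hi ((a.norm : ℤ) : GaussianInt) Q = 0 := by
    rw [Zsqrtd.norm_eq_mul_conj, mul_comm, gs_mul, h1, gs_zero_right]
  rw [gs_intCast] at h3
  have h4 : a.norm = (a.norm / 2) * 2 + 1 := by omega
  rw [h4, add_smul, mul_smul, two_smul, h2, smul_zero, zero_add, one_smul] at h3
  exact h3

/-- the points killed by an odd Gaussian integer contain no two independent points -/
lemma torsion_cyclic (hR : Red) (h2 : 2 * d ≠ 0) {a : GaussianInt} (ha : a.norm % 2 = 1)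
    (hu : ¬ IsUnit a) (T₁ T₂ : (W d).Point) (h₁ : ∀ b, gs hi b T₁ = 0 ↔ a ∣ b)
    (h₂ : ∀ b, gs hi b T₂ = 0 ↔ a ∣ b)
    (h₃ : ∀ b c, gs hi b T₁ = gs hi c T₂ → yc (gs hi b T₁) = 0) : False := by
  classical
  have h2' : (2 : k) ≠ 0 := left_ne_zero_of_mul h2
  have hd : d ≠ 0 := right_ne_zero_of_mul h2
  have a0 : a ≠ 0 := by rintro rfl; simp at ha
  have k₁ := (h₁ a).2 dvd_rfl
  have k₂ := (h₂ a).2 dvd_rfl
  have t1 : T₁ ≠ 0 := fun e => hu (isUnit_of_dvd_one ((h₁ 1).1 (by rw [gs_one, e])))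
  have h0 : (W d).Nonsingular 0 0 := by
    rw [W_nonsingular]; exact ⟨by simp, Or.inl (by simpa using hd)⟩
  set T₀ : (W d).Point := Point.some 0 0 h0 with hT₀
  have t0 : T₀ + T₀ = 0 := two_torsion rfl
  have hS : yc (T₁ + T₀) ≠ 0 := by
    intro e
    have := two_torsion e
    rw [add_add_add_comm, t0, add_zero] at this
    exact t1 (odd_kill hi ha k₁ this)
  have hS' : gs hi a (T₁ + T₀) ≠ 0 := by
    rw [gs_add_right, k₁, zero_add]
    exact fun e => Point.some_ne_zero h0 (odd_kill hi ha e t0)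
  have hc := gauss_card a
  have h5 := gauss_five ha hu
  haveI : Finite (GaussianInt ⧸ Ideal.span {a}) := Nat.finite_of_card_ne_zero (by omega)
  haveI := Fintype.ofFinite (GaussianInt ⧸ Ideal.span {a})
  let φ : (GaussianInt ⧸ Ideal.span {a}) × (GaussianInt ⧸ Ideal.span {a}) → (W d).Point :=
    fun z => gs hi z.1.out T₁ + gs hi z.2.out T₂
  have hq : ∀ z w : GaussianInt ⧸ Ideal.span {a}, a ∣ z.out - w.out → z = w := by
    intro z w h
    rw [← Ideal.Quotient.mk_out z, ← Ideal.Quotient.mk_out w]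
    exact Ideal.Quotient.eq.2 (Ideal.mem_span_singleton.2 h)
  have inj : Function.Injective φ := by
    rintro ⟨z₁, z₂⟩ ⟨w₁, w₂⟩ h
    have h' : gs hi z₁.out T₁ + gs hi z₂.out T₂ = gs hi w₁.out T₁ + gs hi w₂.out T₂ := h
    have e : gs hi (z₁.out - w₁.out) T₁ = gs hi (w₂.out - z₂.out) T₂ := by
      rw [gs_sub, gs_sub, sub_eq_sub_iff_add_eq_add, h', add_comm]
    have e0 : gs hi (z₁.out - w₁.out) T₁ = 0 :=
      odd_kill hi ha (by rw [gs_comm, k₁, gs_zero_right]) (two_torsion (h₃ _ _ e))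
    have e1 : gs hi (w₂.out - z₂.out) T₂ = 0 := by rw [← e, e0]
    rw [hq _ _ ((h₁ _).1 e0), hq _ _ ((h₂ _).1 e1)]
  have hcard := torsion_card hR h2 hi a _ hS hS' (Finset.univ.image φ) fun Q hQ => by
    obtain ⟨z, -, rfl⟩ := Finset.mem_image.1 hQ
    have e : gs hi a (φ z) = 0 := by
      show gs hi a (_ + _) = 0
      rw [gs_add_right, gs_comm, k₁, gs_comm hi a, k₂, gs_zero_right, gs_zero_right, add_zero]
    by_cases hy : yc (φ z) = 0
    · exact Or.inl (odd_kill hi ha e (two_torsion hy))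
    · exact Or.inr ⟨hy, e⟩
  rw [Finset.card_image_of_injective _ inj, Finset.card_univ, Fintype.card_prod,
    ← Nat.card_eq_fintype_card, hc] at hcard
  nlinarith

/-- no odd common torsion on the two curves -/
lemma no_common_odd (hR : Red) {δ₁ δ₂ : k} (n₁ : 2 * δ₁ ≠ 0) (n₂ : δ₂ ≠ 0)
    (hsq : ¬ IsSquare (δ₁ * δ₂)) {a : GaussianInt} (ha : a.norm % 2 = 1) (hu : ¬ IsUnit a)
    (T₁ : (W δ₁).Point) (T₂ : (W δ₂).Point) (h₁ : ∀ b, gs hi b T₁ = 0 ↔ a ∣ b)
    (h₂ : ∀ b, gs hi b T₂ = 0 ↔ a ∣ b) : False := by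
  classical
  set f := algebraMap k (AlgebraicClosure k) with hf
  obtain ⟨u, hu4⟩ := IsAlgClosed.exists_pow_nat_eq (f (δ₁ / δ₂)) (n := 4) (by norm_num)
  have u0 : u ≠ 0 := by
    rintro rfl
    have : f (δ₁ / δ₂) ≠ 0 := (map_ne_zero f).2 (div_ne_zero (right_ne_zero_of_mul n₁) n₂)
    exact this (by rw [← hu4]; simp)
  have e₁ : f δ₁ = (1 : AlgebraicClosure k) ^ 4 * f δ₁ := by simp
  have e₂ : f δ₁ = u ^ 4 * f δ₂ := by rw [hu4, ← map_mul, div_mul_cancel₀ _ n₂]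
  have hi' : (f i) ^ 2 = -1 := by rw [← map_pow, hi]; simp
  refine torsion_cyclic hi' hR (d := f δ₁) ?_ ha hu (tmap f one_ne_zero e₁ T₁) (tmap f u0 e₂ T₂)
    (fun b => ?_) (fun b => ?_) (fun b c h => ?_)
  · rw [← map_ofNat f 2, ← map_mul]
    exact (map_ne_zero f).2 n₁
  · rw [← tmap_gs f one_ne_zero e₁ hi hi' rfl, tmap_eq_zero, h₁]
  · rw [← tmap_gs f u0 e₂ hi hi' rfl, tmap_eq_zero, h₂]
  · rw [h]
    rw [← tmap_gs f one_ne_zero e₁ hi hi' rfl, ← tmap_gs f u0 e₂ hi hi' rfl] at h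
    rw [← tmap_gs f u0 e₂ hi hi' rfl]
    generalize gs hi b T₁ = Q₁ at *
    generalize gs hi c T₂ = Q₂ at *
    have hx := congrArg xc h
    rw [xc_tmap, xc_tmap, one_pow, one_mul] at hx
    by_cases x0 : xc Q₂ = 0
    · have := yc_sq Q₂
      rw [x0] at this
      have y0 : yc Q₂ = 0 := pow_eq_zero_iff (two_ne_zero) |>.1 (by rw [this]; ring)
      rw [yc_tmap, y0, map_zero, mul_zero]
    · exfalso
      apply hsq
      refine ⟨xc Q₁ / xc Q₂ * δ₂, f.injective ?_⟩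
      have : f (xc Q₂) ≠ 0 := (map_ne_zero f).2 x0
      simp only [map_mul, map_div₀]
      rw [e₂, hx]
      field_simp

/-- a point of order two that is not killed by `1 + i` -/
lemma sq_of_two (h2 : (2 : k) ≠ 0) (T : (W d).Point)
    (h : ∀ b, gs hi b T = 0 ↔ (2 : GaussianInt) ∣ b) : IsSquare d := by
  have h1 : T + T = 0 := by
    have := (h 2).2 dvd_rfl
    rwa [show (2 : GaussianInt) = 1 + 1 by norm_num, gs_add, gs_one] at this
  have y0 := yc_of_two_torsion h2 h1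
  by_cases x0 : xc T = 0
  · exfalso
    have hJ : J hi T = T := point_ext (J_eq_zero hi T) (by rw [xc_J, x0, neg_zero])
      (by rw [yc_J, y0, mul_zero])
    have : gs hi ⟨1, 1⟩ T = 0 := by simp [gs, hJ, h1]
    obtain ⟨c, hc⟩ := (h _).1 this
    have := congrArg Zsqrtd.re hc
    simp at this
    omega
  · have := yc_sq T
    rw [y0] at this
    refine ⟨xc T, mul_left_cancel₀ x0 ?_⟩
    linear_combination this

/-- the annihilator of a point over a finite field -/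
lemma exists_ann [Finite k] (P : (W d).Point) :
    ∃ a : GaussianInt, a ≠ 0 ∧ ∀ b, gs hi b P = 0 ↔ a ∣ b := by
  haveI : Finite (W d).Point := Finite.of_injective
    (fun Q : (W d).Point => ((Q = 0 : Prop), xc Q, yc Q)) fun Q Q' h => by
      simp only [Prod.mk.injEq, eq_iff_iff] at h
      exact point_ext h.1 h.2.1 h.2.2
  let I : Ideal GaussianInt :=
    { carrier := {b | gs hi b P = 0}
      add_mem' := fun {a b} ha hb => by
        show gs hi (a + b) P = 0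
        rw [gs_add, ha, hb, add_zero]
      zero_mem' := gs_zero_left hi P
      smul_mem' := fun c b hb => by
        show gs hi (c * b) P = 0
        rw [gs_mul, hb, gs_zero_right] }
  have h : ∀ b, gs hi b P = 0 ↔ Submodule.IsPrincipal.generator I ∣ b := fun b =>
    Submodule.IsPrincipal.mem_iff_generator_dvd I (x := b)
  refine ⟨_, fun h0 => ?_, h⟩
  have h1 : gs hi (((Nat.card (W d).Point : ℕ) : ℤ) : GaussianInt) P = 0 := by
    rw [gs_intCast, natCast_zsmul, card_nsmul_eq_zero']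
  have h2 := (h _).1 h1
  rw [h0, zero_dvd_iff] at h2
  have h3 : 0 < Nat.card (W d).Point := Nat.card_pos
  have : Nat.card (W d).Point = 0 := by exact_mod_cast h2
  omega

lemma ann_div {P : (W d).Point} {a g : GaussianInt} (a0 : a ≠ 0)
    (h : ∀ b, gs hi b P = 0 ↔ a ∣ b) (hg : g ∣ a) :
    ∃ T : (W d).Point, ∀ b, gs hi b T = 0 ↔ g ∣ b := by
  obtain ⟨c, rfl⟩ := hg
  refine ⟨gs hi c P, fun b => ?_⟩
  rw [← gs_mul, h, mul_dvd_mul_iff_right (right_ne_zero_of_mul a0)]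

/-- the statement over the finite field -/
lemma finite_field_case [Finite k] (hR : Red) {δ₁ δ₂ : k} (n₁ : 2 * δ₁ ≠ 0) (n₂ : δ₂ ≠ 0)
    (hsq : ¬ IsSquare (δ₁ * δ₂)) (P₁ : (W δ₁).Point) (P₂ : (W δ₂).Point) :
    ∃ a₁ a₂ g₁ g₂ : GaussianInt, g₁ * a₁ + g₂ * a₂ = 2 ∧ a₁ ≠ 0 ∧ a₂ ≠ 0 ∧
      gs hi a₁ P₁ = 0 ∧ gs hi a₂ P₂ = 0 := by
  classical
  obtain ⟨a₁, z₁, h₁⟩ := exists_ann hi P₁
  obtain ⟨a₂, z₂, h₂⟩ := exists_ann hi P₂
  have h2 : (2 : k) ≠ 0 := left_ne_zero_of_mul n₁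
  have odd : ∀ g : GaussianInt, g ∣ a₁ → g ∣ a₂ → ¬ IsUnit g → (⟨1, 1⟩ : GaussianInt) ∣ g := by
    intro g g₁ g₂ hu
    by_contra h
    obtain ⟨T₁, t₁⟩ := ann_div hi z₁ h₁ g₁
    obtain ⟨T₂, t₂⟩ := ann_div hi z₂ h₂ g₂
    exact no_common_odd hi hR n₁ n₂ hsq (gauss_odd h) hu T₁ T₂ t₁ t₂
  have two : ¬ ((2 : GaussianInt) ∣ a₁ ∧ (2 : GaussianInt) ∣ a₂) := by
    rintro ⟨g₁, g₂⟩
    obtain ⟨T₁, t₁⟩ := ann_div hi z₁ h₁ g₁
    obtain ⟨T₂, t₂⟩ := ann_div hi z₂ h₂ g₂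
    exact hsq ((sq_of_two hi h2 T₁ t₁).mul (sq_of_two hi h2 T₂ t₂))
  have hg : EuclideanDomain.gcd a₁ a₂ ∣ 2 := by
    have g₁ := EuclideanDomain.gcd_dvd_left a₁ a₂
    have g₂ := EuclideanDomain.gcd_dvd_right a₁ a₂
    generalize EuclideanDomain.gcd a₁ a₂ = g at *
    by_cases hu : IsUnit g
    · exact hu.dvd
    obtain ⟨g', rfl⟩ := odd g g₁ g₂ hu
    by_cases hu' : IsUnit g'
    · rw [IsUnit.mul_right_dvd hu']
      exact ⟨⟨1, -1⟩, by decide⟩
    obtain ⟨g'', rfl⟩ := odd g' ((Dvd.intro_left _ rfl).trans g₁) ((Dvd.intro_left _ rfl).trans g₂)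
      hu'
    have : (2 : GaussianInt) ∣ ⟨1, 1⟩ * (⟨1, 1⟩ * g'') := by
      rw [← mul_assoc]
      exact Dvd.dvd.mul_right ⟨⟨0, 1⟩, by decide⟩ _
    exact absurd ⟨this.trans g₁, this.trans g₂⟩ two
  obtain ⟨c, hc⟩ := hg
  refine ⟨a₁, a₂, EuclideanDomain.gcdA a₁ a₂ * c, EuclideanDomain.gcdB a₁ a₂ * c, ?_, z₁, z₂,
    (h₁ _).2 dvd_rfl, (h₂ _).2 dvd_rfl⟩
  rw [hc, EuclideanDomain.gcd_eq_gcd_ab]
  ring

end

lemma ζ_mem (O : ValuationSubring L) : ζ ∈ O := by
  rcases O.mem_or_inv_mem ζ with h | h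
  · exact h
  · have h0 : ζ ≠ 0 := by
      intro e
      have := ζ_four
      rw [e] at this
      norm_num at this
    have : ζ = -(ζ⁻¹) ^ 3 := by
      field_simp
      exact ζ_four
    rw [this]
    exact neg_mem (pow_mem h 3)

lemma two_nonsq : ¬ IsSquare (2 : ZMod 3) := by decide

lemma three_nonsq (q : ℕ) [Fact q.Prime] (h : q % 24 = 17) : ¬ IsSquare ((3 : ℕ) : ZMod q) := by
  haveI : Fact (Nat.Prime 3) := ⟨Nat.prime_three⟩
  rw [ZMod.exists_sq_eq_prime_iff_of_mod_four_eq_one (p := q) (q := 3) (by omega) (by norm_num)]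
  have : (q : ZMod 3) = 2 := by
    rw [← ZMod.natCast_mod q 3, show q % 3 = 2 by omega]; rfl
  rw [this]
  exact two_nonsq

theorem a2_of (hR : Red) : A2 := by
  classical
  intro q hq h24 O hqO hres P₁ P₂
  haveI : Fact q.Prime := ⟨hq⟩
  set ρ := IsLocalRing.residue O with hρdef
  have hρ : ∀ c : O, ρ c = 0 ↔ (c : L) ∈ O.nonunits := fun c => by
    rw [hρdef, IsLocalRing.residue_eq_zero_iff, ValuationSubring.coe_mem_nonunits_iff]
  haveI : CharP (IsLocalRing.ResidueField O) q := by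
    refine (CharP.charP_iff_prime_eq_zero hq).2 ?_
    rw [← map_natCast ρ, hρ]
    simpa using hqO
  set ψ := ZMod.castHom (dvd_refl q) (IsLocalRing.ResidueField O) with hψ
  have hsurj : Function.Surjective ψ := by
    intro z
    obtain ⟨c, rfl⟩ := IsLocalRing.residue_surjective z
    obtain ⟨u, hu⟩ := hres c c.2
    refine ⟨(u : ZMod q), ?_⟩
    have : ρ (c - u) = 0 := (hρ _).2 (by simpa using hu)
    rw [map_sub, map_intCast, sub_eq_zero] at this
    rw [map_intCast, ← this]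
  haveI : Finite (IsLocalRing.ResidueField O) := Finite.of_surjective ψ hsurj
  have hz := ζ_mem O
  have hiO : ζ ^ 2 ∈ O := pow_mem hz 2
  have two : (2 : L) ∈ O := by exact_mod_cast natCast_mem O 2
  have m₁ : d₁ ∈ O := add_mem (add_mem (neg_mem two) hiO) (mul_mem two (pow_mem hz 3))
  have m₂ : d₂ ∈ O := sub_mem (add_mem (neg_mem two) hiO) (mul_mem two (pow_mem hz 3))
  have hι : (ρ ⟨_, hiO⟩) ^ 2 = -1 := by
    rw [← map_pow, ← map_one ρ, ← map_neg]
    congr 1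
    exact Subtype.ext hi
  have h3 : ρ ⟨_, m₁⟩ * ρ ⟨_, m₂⟩ = ψ ((3 : ℕ) : ZMod q) := by
    rw [← map_mul, map_natCast, ← map_natCast ρ]
    congr 1
    exact Subtype.ext (d_mul.trans (map_natCast O.subtype 3).symm)
  have hsq : ¬ IsSquare (ρ ⟨_, m₁⟩ * ρ ⟨_, m₂⟩) := by
    rintro ⟨s, hs⟩
    obtain ⟨t, rfl⟩ := hsurj s
    rw [h3, ← map_mul] at hs
    exact three_nonsq q h24 ⟨t, ψ.injective hs⟩
  have h0 : ρ ⟨_, m₁⟩ * ρ ⟨_, m₂⟩ ≠ 0 := fun e => hsq (e ▸ IsSquare.zero)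
  have h2 : (2 : IsLocalRing.ResidueField O) ≠ 0 := by
    intro e
    have : q ∣ 2 := (CharP.cast_eq_zero_iff (IsLocalRing.ResidueField O) q 2).1
      (by exact_mod_cast e)
    have := Nat.le_of_dvd (by norm_num) this
    omega
  have n₁ := mul_ne_zero h2 (left_ne_zero_of_mul h0)
  have n₂ := mul_ne_zero h2 (right_ne_zero_of_mul h0)
  obtain ⟨red₁, r₁, -, s₁⟩ := red_gs hR L O _ ρ hρ m₁ rfl n₁ hi hiO hι rfl
  obtain ⟨red₂, r₂, -, s₂⟩ := red_gs hR L O _ ρ hρ m₂ rfl n₂ hi hiO hι rfl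
  obtain ⟨a₁, a₂, g₁, g₂, e, z₁, z₂, k₁, k₂⟩ := finite_field_case hι hR n₁
    (right_ne_zero_of_mul h0) hsq (red₁ P₁) (red₂ P₂)
  exact ⟨a₁, a₂, g₁, g₂, e, z₁, z₂, (r₁ _).1 (by rw [s₁, k₁]), (r₂ _).1 (by rw [s₂, k₂])⟩

end Vale.Agent.P027Z.A2p

theorem Vale.Agent.P027Z.a2 : Vale.Agent.P027Z.A2 := A2p.a2_of red
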