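import Vale.Agent.P027Z.Iface
import Vale.Agent.P027H.CM

/-! Block C1: the two-prime theorem. -/

namespace Vale.Agent.P027Z

theorem c1 : C1 := by
  intro s t hs ht s8 t8 ns
  obtain ⟨u, v, w, z, -, -, hw, hz, e1, e2⟩ := P027H.twoPrime s t ⟨hs, ht, s8, t8, ns⟩
  refine ⟨u, v, w, z, by exact_mod_cast hw.ne', by exact_mod_cast hz.ne', by exact_mod_cast e1, ?_⟩
  rw [sub_eq_iff_eq_add']
  exact_mod_cast e2

end Vale.Agent.P027Z
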