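import Vale.Agent.P027Z.Iface
import Vale.Agent.P027P.Pattern

/-! The two prime patterns. -/

set_option linter.all false

namespace Vale.Agent.P027Z

open Vale.Agent.P027P

/-- the six forms -/
def mat₁ (a : ℕ) : Fin 6 → Fin 3 → ℕ :=
  ![![1, 0, 0], ![0, 1, 0], ![0, 0, 1], ![a, a + 1, 0], ![a, 0, a + 1], ![0, a, a + 1]]

/-- the nine forms -/
def mat₂ (a : ℕ) : Fin 9 → Fin 4 → ℕ :=
  ![![1, 0, 0, 0], ![0, 1, 0, 0], ![a, 1, 0, 0], ![0, 0, 1, 0], ![0, 0, 0, 1], ![1, 0, 24, 0],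
    ![0, 1, 24, 0], ![0, 1, 0, 24], ![a, 1, 0, 24]]

theorem p1 : P1 := by
  intro a m r ha h24 hm hr hc
  have ha' : (a : ℤ) ≠ 0 := by exact_mod_cast ha.ne'
  have hb' : (a : ℤ) + 1 ≠ 0 := by positivity
  obtain ⟨x, h1, h2⟩ := pattern (mat₁ a) (by
      intro k
      fin_cases k
      · exact ⟨0, fun k' => by fin_cases k' <;> rfl⟩
      · exact ⟨1, fun k' => by fin_cases k' <;> rfl⟩
      · exact ⟨2, fun k' => by fin_cases k' <;> rfl⟩) (by
      intro i
      fin_cases i
      · refine ⟨![1, 0, 0], ![a + 1, -a, -a], ?_, ?_, fun j hj => ?_⟩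
        · simp [fz, mat₁, Fin.sum_univ_succ]
        · simpa [fz, mat₁, Fin.sum_univ_succ] using hb'
        · fin_cases j <;> first
            | exact absurd rfl hj
            | (left; simp [fz, mat₁, Fin.sum_univ_succ]; done)
            | (right; simp [fz, mat₁, Fin.sum_univ_succ]; ring)
      · refine ⟨![0, 1, 0], ![(a + 1) ^ 2, -(a * (a + 1)), a ^ 2], ?_, ?_, fun j hj => ?_⟩
        · simp [fz, mat₁, Fin.sum_univ_succ]
        · simpa [fz, mat₁, Fin.sum_univ_succ] using ⟨ha.ne', hb'⟩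
        · fin_cases j <;> first
            | exact absurd rfl hj
            | (left; simp [fz, mat₁, Fin.sum_univ_succ]; done)
            | (right; simp [fz, mat₁, Fin.sum_univ_succ]; ring)
      · refine ⟨![0, 0, 1], ![a + 1, a + 1, -a], ?_, ?_, fun j hj => ?_⟩
        · simp [fz, mat₁, Fin.sum_univ_succ]
        · simpa [fz, mat₁, Fin.sum_univ_succ] using ha.ne'
        · fin_cases j <;> first
            | exact absurd rfl hj
            | (left; simp [fz, mat₁, Fin.sum_univ_succ]; done)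
            | (right; simp [fz, mat₁, Fin.sum_univ_succ]; ring)
      · refine ⟨![0, 1, 0], ![1, 0, 0], ?_, ?_, fun j hj => ?_⟩
        · simpa [fz, mat₁, Fin.sum_univ_succ] using hb'
        · simpa [fz, mat₁, Fin.sum_univ_succ] using ha.ne'
        · fin_cases j <;> first
            | exact absurd rfl hj
            | (left; simp [fz, mat₁, Fin.sum_univ_succ]; done)
            | (right; simp [fz, mat₁, Fin.sum_univ_succ]; done)
      · refine ⟨![0, 0, 1], ![1, 0, 0], ?_, ?_, fun j hj => ?_⟩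
        · simpa [fz, mat₁, Fin.sum_univ_succ] using hb'
        · simpa [fz, mat₁, Fin.sum_univ_succ] using ha.ne'
        · fin_cases j <;> first
            | exact absurd rfl hj
            | (left; simp [fz, mat₁, Fin.sum_univ_succ]; done)
            | (right; simp [fz, mat₁, Fin.sum_univ_succ]; done)
      · refine ⟨![0, 0, 1], ![0, 1, 0], ?_, ?_, fun j hj => ?_⟩
        · simpa [fz, mat₁, Fin.sum_univ_succ] using hb'
        · simpa [fz, mat₁, Fin.sum_univ_succ] using ha.ne'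
        · fin_cases j <;> first
            | exact absurd rfl hj
            | (left; simp [fz, mat₁, Fin.sum_univ_succ]; done)
            | (right; simp [fz, mat₁, Fin.sum_univ_succ]; done))
    m hm (fun _ => r) (by
      have h : (a * r + (a + 1) * r).Coprime m := by
        rw [show a * r + (a + 1) * r = (2 * a + 1) * r by ring]
        exact Nat.Coprime.mul_left hc hr
      intro j
      fin_cases j <;> first
        | (simpa [fm, mat₁, Fin.sum_univ_succ] using hr)
        | (simpa [fm, mat₁, Fin.sum_univ_succ] using h)) (by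
      intro p hp _
      by_cases h : p ∣ 2 * a + 1
      · have k1 : ¬ p ∣ 1 := hp.one_lt.ne' ∘ Nat.dvd_one.1
        have k2 : ¬ p ∣ 2 := fun h2 => by
          rw [(Nat.prime_dvd_prime_iff_eq hp Nat.prime_two).1 h2] at h; omega
        have k3 : ¬ p ∣ 3 := fun h2 => by
          rw [(Nat.prime_dvd_prime_iff_eq hp Nat.prime_three).1 h2] at h; omega
        have k4 : ¬ p ∣ a + (a + 1) * 2 := fun h2 => k1 ((Nat.dvd_add_right (h.mul_left 3)).1
          (by rw [show 3 * (2 * a + 1) + 1 = 2 * (a + (a + 1) * 2) by ring]; exact h2.mul_left 2))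
        have k5 : ¬ p ∣ a + (a + 1) * 3 := fun h2 => k1 ((Nat.dvd_add_right (h.mul_left 2)).1
          (by rw [show 2 * (2 * a + 1) + 1 = a + (a + 1) * 3 by ring]; exact h2))
        have k6 : ¬ p ∣ a * 2 + (a + 1) * 3 := fun h2 => k1 ((Nat.dvd_add_right (h.mul_left 5)).1
          (by rw [show 5 * (2 * a + 1) + 1 = 2 * (a * 2 + (a + 1) * 3) by ring]
              exact h2.mul_left 2))
        refine ⟨![1, 2, 3], fun j => ?_⟩
        fin_cases j
        · simpa [fm, mat₁, Fin.sum_univ_succ] using k1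
        · simpa [fm, mat₁, Fin.sum_univ_succ] using k2
        · simpa [fm, mat₁, Fin.sum_univ_succ] using k3
        · simpa [fm, mat₁, Fin.sum_univ_succ] using k4
        · simpa [fm, mat₁, Fin.sum_univ_succ] using k5
        · simpa [fm, mat₁, Fin.sum_univ_succ] using k6
      · have k1 : ¬ p ∣ 1 := hp.one_lt.ne' ∘ Nat.dvd_one.1
        have k2 : ¬ p ∣ a + (a + 1) := by rwa [show a + (a + 1) = 2 * a + 1 by ring]
        refine ⟨fun _ => 1, fun j => ?_⟩
        fin_cases j <;> first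
          | (simpa [fm, mat₁, Fin.sum_univ_succ] using k1)
          | (simpa [fm, mat₁, Fin.sum_univ_succ] using k2)) 0
  refine ⟨x, fun i => ⟨?_, h1 i⟩, fun i j hij => ?_⟩
  · fin_cases i
    · simpa [fm, mat₁, Fin.sum_univ_succ] using (h2 0).1
    · simpa [fm, mat₁, Fin.sum_univ_succ] using (h2 1).1
    · simpa [fm, mat₁, Fin.sum_univ_succ] using (h2 2).1
  · fin_cases i <;> fin_cases j <;> first
      | exact absurd hij (by decide)
      | (simpa [fm, mat₁, Fin.sum_univ_succ] using (h2 3).1)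
      | (simpa [fm, mat₁, Fin.sum_univ_succ] using (h2 4).1)
      | (simpa [fm, mat₁, Fin.sum_univ_succ] using (h2 5).1)

lemma avoid (p : ℕ) (hp : p.Prime) (h24 : ¬ p ∣ 24) (c₁ c₂ : ℕ) :
    ∃ g : ℕ, ¬ p ∣ g ∧ ¬ p ∣ c₁ + 24 * g ∧ ¬ p ∣ c₂ + 24 * g := by
  haveI := Fact.mk hp
  have h5 : 5 ≤ p := by
    by_contra h
    have := hp.two_le
    have h4 : p ≠ 4 := by rintro rfl; exact absurd hp (by decide)
    interval_cases p <;> simp_all
  have h0 : (24 : ZMod p) ≠ 0 := by
    have : ((24 : ℕ) : ZMod p) ≠ 0 := by rwa [Ne, ZMod.natCast_eq_zero_iff]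
    exact_mod_cast this
  obtain ⟨g, _, hg⟩ := Finset.exists_mem_notMem_of_card_lt_card
    (s := ({0, -(c₁ : ZMod p) / 24, -(c₂ : ZMod p) / 24} : Finset (ZMod p))) (t := Finset.univ)
    (by rw [Finset.card_univ, ZMod.card]; exact lt_of_le_of_lt Finset.card_le_three (by omega))
  simp only [Finset.mem_insert, Finset.mem_singleton, not_or] at hg
  refine ⟨g.val, ?_, ?_, ?_⟩
  · rw [← ZMod.natCast_eq_zero_iff, ZMod.natCast_zmod_val]; exact hg.1
  · rw [← ZMod.natCast_eq_zero_iff]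
    push_cast
    rw [ZMod.natCast_zmod_val]
    intro h; apply hg.2.1; rw [eq_div_iff h0]; linear_combination h
  · rw [← ZMod.natCast_eq_zero_iff]
    push_cast
    rw [ZMod.natCast_zmod_val]
    intro h; apply hg.2.2; rw [eq_div_iff h0]; linear_combination h

theorem p2 : P2 := by
  intro a ha h24 X
  have ha' : (a : ℤ) ≠ 0 := by exact_mod_cast ha.ne'
  have hd : ∀ (i : Fin 9) (u v : Fin 4 → ℤ), fz (mat₂ a) i u ≠ 0 → fz (mat₂ a) i v ≠ 0 →
      (∀ j, j ≠ i → fz (mat₂ a) j u = 0 ∨ fz (mat₂ a) j v = 0) →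
      ∃ h₁ h₂ : Fin 4 → ℤ, fz (mat₂ a) i h₁ ≠ 0 ∧ fz (mat₂ a) i h₂ ≠ 0 ∧
        ∀ j, j ≠ i → fz (mat₂ a) j h₁ = 0 ∨ fz (mat₂ a) j h₂ = 0 :=
    fun i u v a1 a2 a3 => ⟨u, v, a1, a2, a3⟩
  obtain ⟨x, h1, h2⟩ := pattern (mat₂ a) (by
      intro k
      fin_cases k
      · exact ⟨0, fun k' => by fin_cases k' <;> rfl⟩
      · exact ⟨1, fun k' => by fin_cases k' <;> rfl⟩
      · exact ⟨3, fun k' => by fin_cases k' <;> rfl⟩
      · exact ⟨4, fun k' => by fin_cases k' <;> rfl⟩) (by
      intro i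
      fin_cases i
      on_goal 1 => refine hd _ ![1, 0, 0, 0] ![24, -(a * 24), -1, 0] ?_ ?_ fun j hj => ?_
      on_goal 4 => refine hd _ ![0, 24, 0, -1] ![24, -(a * 24), a, 0] ?_ ?_ fun j hj => ?_
      on_goal 7 => refine hd _ ![1, 0, 0, 0] ![0, 24, 0, -1] ?_ ?_ fun j hj => ?_
      on_goal 10 => refine hd _ ![0, 0, 1, 0] ![-24, -24, 1, 0] ?_ ?_ fun j hj => ?_
      on_goal 13 => refine hd _ ![0, 0, 0, 1] ![0, -24, 0, 1] ?_ ?_ fun j hj => ?_
      on_goal 16 => refine hd _ ![0, 0, 1, 0] ![1, 0, 0, 0] ?_ ?_ fun j hj => ?_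
      on_goal 19 => refine hd _ ![0, 0, 1, 0] ![0, 1, 0, 0] ?_ ?_ fun j hj => ?_
      on_goal 22 => refine hd _ ![0, 0, 0, 1] ![1, -a, 0, 0] ?_ ?_ fun j hj => ?_
      on_goal 25 => refine hd _ ![0, 0, 0, 1] ![1, 0, 0, 0] ?_ ?_ fun j hj => ?_
      all_goals first
        | (fin_cases j <;> first
            | exact absurd rfl hj
            | (left; simp [fz, mat₂, Fin.sum_univ_succ]; done)
            | (right; simp [fz, mat₂, Fin.sum_univ_succ]; done)
            | (right; simp [fz, mat₂, Fin.sum_univ_succ]; ring))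
        | (simp [fz, mat₂, Fin.sum_univ_succ, ha.ne']; done))
    24 (by norm_num) (fun _ => 17) (by
      obtain ⟨b, rfl⟩ := h24
      intro j
      have key : ∀ n : ℕ, n % 24 = 17 → n.Coprime 24 := fun n hn => by
        unfold Nat.Coprime
        rw [Nat.gcd_comm, Nat.gcd_rec, hn]; norm_num
      apply key
      fin_cases j <;> simp [fm, mat₂, Fin.sum_univ_succ] <;> omega) (by
      intro p hp h
      have k1 : ¬ p ∣ 1 := hp.one_lt.ne' ∘ Nat.dvd_one.1
      have k2 : ¬ p ∣ 2 := fun h2 => h (h2.trans (by norm_num))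
      obtain ⟨y, hy1, hy2⟩ : ∃ y : ℕ, ¬ p ∣ y ∧ ¬ p ∣ a + y := by
        by_cases h' : p ∣ a + 1
        · exact ⟨2, k2, fun h2 => k1 ((Nat.dvd_add_right h').1 h2)⟩
        · exact ⟨1, k1, h'⟩
      obtain ⟨g₁, b1, b2, b3⟩ := avoid p hp h 1 y
      obtain ⟨g₂, c1, c2, c3⟩ := avoid p hp h y (a + y)
      rw [add_assoc] at c3
      refine ⟨![1, y, g₁, g₂], fun j => ?_⟩
      fin_cases j
      · simpa [fm, mat₂, Fin.sum_univ_succ] using k1
      · simpa [fm, mat₂, Fin.sum_univ_succ] using hy1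
      · simpa [fm, mat₂, Fin.sum_univ_succ] using hy2
      · simpa [fm, mat₂, Fin.sum_univ_succ] using b1
      · simpa [fm, mat₂, Fin.sum_univ_succ] using c1
      · simpa [fm, mat₂, Fin.sum_univ_succ] using b2
      · simpa [fm, mat₂, Fin.sum_univ_succ] using b3
      · simpa [fm, mat₂, Fin.sum_univ_succ] using c2
      · simpa [fm, mat₂, Fin.sum_univ_succ] using c3) X
  refine ⟨x 0, x 1, x 2, x 3, h1 0, h1 1, h1 2, h1 3, ?_⟩
  simp only [List.forall_mem_cons, List.not_mem_nil, IsEmpty.forall_iff, implies_true, and_true]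
  refine ⟨?_, ?_, ?_, ?_, ?_, ?_, ?_, ?_, ?_⟩
  · simpa [fm, mat₂, Fin.sum_univ_succ] using h2 0
  · simpa [fm, mat₂, Fin.sum_univ_succ] using h2 1
  · simpa [fm, mat₂, Fin.sum_univ_succ] using h2 2
  · simpa [fm, mat₂, Fin.sum_univ_succ] using h2 3
  · simpa [fm, mat₂, Fin.sum_univ_succ] using h2 4
  · simpa [fm, mat₂, Fin.sum_univ_succ] using h2 5
  · simpa [fm, mat₂, Fin.sum_univ_succ] using h2 6
  · simpa [fm, mat₂, Fin.sum_univ_succ] using h2 7
  · simpa [fm, mat₂, Fin.sum_univ_succ, add_assoc] using h2 8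

end Vale.Agent.P027Z
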