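import Vale.Agent.P027Z.Iface

/-! The block `A4`: places of degree one of the eighth cyclotomic field, automorphisms, basis,
heights. -/

set_option linter.all false

namespace Vale.Agent.P027Z.A4p

open NumberField IsDedekindDomain Polynomial

instance instNF : NumberField L := IsCyclotomicExtension.numberField {8} ℚ L

lemma a4_root (q : ℕ) (hq : q.Prime) (h8 : q % 8 = 1) : ∃ r : ℤ, (q : ℤ) ∣ r ^ 4 + 1 := by
  haveI := Fact.mk hq
  obtain ⟨g, hg⟩ := IsCyclic.exists_ofOrder_eq_natCard (α := (ZMod q)ˣ)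
  rw [Nat.card_eq_fintype_card, ZMod.card_units q] at hg
  obtain ⟨k, hk⟩ : 8 ∣ q - 1 := by omega
  have hk0 : k ≠ 0 := by
    rintro rfl
    have := hq.two_le
    omega
  have h1 : orderOf (g ^ k) = 8 := by
    rw [orderOf_pow' g hk0, hg, hk, Nat.gcd_mul_left_left, Nat.mul_div_cancel _ (Nat.pos_of_ne_zero hk0)]
  set x : ZMod q := ((g ^ k : (ZMod q)ˣ) : ZMod q) with hx
  have hp : IsPrimitiveRoot x 8 := by
    rw [hx, IsPrimitiveRoot.coe_units_iff, ← h1]
    exact IsPrimitiveRoot.orderOf _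
  have h4 : x ^ 4 = -1 :=
    (hp.pow (by norm_num) (show 8 = 4 * 2 by norm_num)).eq_neg_one_of_two_right
  refine ⟨(x.val : ℤ), ?_⟩
  rw [← ZMod.intCast_zmod_eq_zero_iff_dvd]
  push_cast
  rw [ZMod.natCast_zmod_val, h4]
  ring

/-- the root of unity as an algebraic integer -/
noncomputable abbrev ζi : 𝓞 L := ζ_spec.toInteger

lemma ζi_four : ζi ^ 4 = -1 := by
  apply Subtype.ext
  exact ζ_four

lemma ev_mul_ζ (a : Fin 4 → ℤ) : ev a * ζ = ev ![-a 3, a 0, a 1, a 2] := by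
  simp only [ev, Fin.sum_univ_four]
  simp
  linear_combination (a 3 : L) * ζ_four

lemma ev_add (a b : Fin 4 → ℤ) : ev a + ev b = ev (a + b) := by
  simp only [ev, Fin.sum_univ_four, Pi.add_apply]
  push_cast
  ring

lemma ev_smul (n : ℤ) (a : Fin 4 → ℤ) : (n : L) * ev a = ev (n • a) := by
  simp only [ev, Fin.sum_univ_four, Pi.smul_apply, smul_eq_mul]
  push_cast
  ring

lemma ev_one : ev ![1, 0, 0, 0] = 1 := by
  simp [ev, Fin.sum_univ_four]

lemma exists_ev_aeval (p : ℤ[X]) : ∃ a, aeval ζ p = ev a := by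
  induction p using Polynomial.induction_on with
  | C n =>
    refine ⟨n • ![1, 0, 0, 0], ?_⟩
    rw [← ev_smul, ev_one]
    simp
  | add p q hp hq =>
    obtain ⟨a, ha⟩ := hp
    obtain ⟨b, hb⟩ := hq
    exact ⟨a + b, by rw [map_add, ha, hb, ev_add]⟩
  | monomial n c h =>
    obtain ⟨a, ha⟩ := h
    exact ⟨_, by rw [pow_succ, ← mul_assoc, map_mul, ha, aeval_X, ev_mul_ζ]⟩

lemma exists_poly (x : 𝓞 L) : ∃ p : ℤ[X], aeval ζi p = x := by
  have h := IsCyclotomicExtension.Rat.adjoin_singleton_eq_top (n := 8) (K := L) ζ_spec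
  have hx : x ∈ Algebra.adjoin ℤ {ζi} := by rw [h]; trivial
  rw [Algebra.adjoin_singleton_eq_range_aeval] at hx
  exact hx

lemma coe_aeval (p : ℤ[X]) : ((aeval ζi p : 𝓞 L) : L) = aeval ζ p := by
  have := Polynomial.aeval_algebraMap_apply L ζi p
  exact this.symm

lemma exists_ev (x : 𝓞 L) : ∃ a, (x : L) = ev a := by
  obtain ⟨p, rfl⟩ := exists_poly x
  rw [coe_aeval]
  exact exists_ev_aeval p

/-- an algebraic integer is a rational integer modulo `ζ - r` -/
lemma exists_int_mod (r : ℤ) (x : 𝓞 L) : ∃ (n : ℤ) (y : 𝓞 L), x = n + (ζi - r) * y := by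
  obtain ⟨p, rfl⟩ := exists_poly x
  obtain ⟨s, hs⟩ := X_sub_C_dvd_sub_C_eval (a := r) (p := p)
  refine ⟨p.eval r, aeval ζi s, ?_⟩
  have := congrArg (aeval ζi) hs
  simp only [map_sub, aeval_C, map_mul, aeval_X, algebraMap_int_eq, eq_intCast, map_intCast] at this
  linear_combination this

lemma minpoly_ζi : minpoly ℤ ζi = X ^ 4 + 1 := by
  have h1 : minpoly ℤ ζi = minpoly ℤ ζ := by
    rw [← RingOfIntegers.minpoly_coe]; rfl
  refine h1.trans ((cyclotomic_eq_minpoly ζ_spec (by norm_num)).symm.trans ?_)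
  have := cyclotomic_prime_pow_eq_geom_sum (R := ℤ) (p := 2) (n := 2) Nat.prime_two
  norm_num [Finset.sum_range_succ] at this
  rw [this]; ring

lemma exists_hom (q : ℕ) (r : ℤ) (h : (q : ℤ) ∣ r ^ 4 + 1) :
    ∃ φ : 𝓞 L →+* ZMod q, φ ζi = r := by
  let pb := IsPrimitiveRoot.integralPowerBasis (n := 8) (K := L) ζ_spec
  have hg : pb.gen = ζi := IsPrimitiveRoot.integralPowerBasis_gen ζ_spec
  have hr : aeval (r : ZMod q) (minpoly ℤ pb.gen) = 0 := by
    rw [hg, minpoly_ζi]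
    simp only [map_add, map_pow, aeval_X, map_one]
    rw [← ZMod.intCast_zmod_eq_zero_iff_dvd] at h
    exact_mod_cast h
  refine ⟨(pb.lift (r : ZMod q) hr).toRingHom, ?_⟩
  rw [← hg]
  exact pb.lift_gen _ hr

lemma a4_place (q : ℕ) (r : ℤ) (hq : q.Prime) (h : (q : ℤ) ∣ r ^ 4 + 1) :
    ∃ O : ValuationSubring L,
    (q : L) ∈ O.nonunits ∧ (∀ c ∈ O, ∃ u : ℤ, c - u ∈ O.nonunits) ∧
    (∀ c ∈ O, ∃ a b b' : Fin 4 → ℤ, (1 + q * ev b + (ζ - r) * ev b') * c = ev a) ∧
    (∀ c ∈ O.nonunits, ∃ a a' b b' : Fin 4 → ℤ,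
      (1 + q * ev b + (ζ - r) * ev b') * c = q * ev a + (ζ - r) * ev a') := by
  haveI := Fact.mk hq
  obtain ⟨φ, hφ⟩ := exists_hom q r h
  have hker : ∀ x : 𝓞 L, φ x = 0 → ∃ y y' : 𝓞 L, x = q * y + (ζi - r) * y' := by
    intro x hx
    obtain ⟨n, y, rfl⟩ := exists_int_mod r x
    simp only [map_add, map_intCast, map_mul, map_sub, hφ, sub_self, zero_mul, add_zero] at hx
    rw [ZMod.intCast_zmod_eq_zero_iff_dvd] at hx
    obtain ⟨m, rfl⟩ := hx
    exact ⟨m, y, by push_cast; ring⟩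
  have hker' : ∀ x : 𝓞 L, φ x = 0 → ∃ a a' : Fin 4 → ℤ,
      (x : L) = q * ev a + (ζ - r) * ev a' := by
    intro x hx
    obtain ⟨y, y', rfl⟩ := hker x hx
    obtain ⟨a, ha⟩ := exists_ev y
    obtain ⟨a', ha'⟩ := exists_ev y'
    refine ⟨a, a', ?_⟩
    rw [← ha, ← ha']
    simp only [RingOfIntegers.coe_eq_algebraMap, map_add, map_mul, map_sub, map_natCast,
      map_intCast]
    rfl
  have hq0 : (q : 𝓞 L) ≠ 0 := by exact_mod_cast hq.ne_zero
  let v : HeightOneSpectrum (𝓞 L) :=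
    ⟨RingHom.ker φ, RingHom.ker_isPrime φ, by
      intro h0
      have : (q : 𝓞 L) ∈ RingHom.ker φ := by simp [RingHom.mem_ker]
      rw [h0] at this
      exact hq0 this⟩
  have hlt : ∀ x : 𝓞 L, φ x = 0 → v.valuation L (x : L) < 1 := fun x hx =>
    (v.valuation_lt_one_iff_mem x).2 hx
  have hnu : ∀ c : L, c ∈ (v.valuation L).valuationSubring.nonunits ↔ v.valuation L c < 1 := by
    intro c
    rw [ValuationSubring.mem_nonunits_iff]
    exact ((v.valuation L).isEquiv_valuation_valuationSubring.lt_one_iff_lt_one).symm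
  -- denominators congruent to one
  have hden : ∀ c : L, v.valuation L c ≤ 1 → ∃ n s : 𝓞 L, φ s = 1 ∧ (s : L) * c = n := by
    intro c hc
    obtain ⟨n, d, hd⟩ := v.exists_primeCompl_mul_eq_of_integer c hc
    have hd0 : φ d ≠ 0 := d.2
    refine ⟨((φ d)⁻¹.val : ℕ) * n, ((φ d)⁻¹.val : ℕ) * d, ?_, ?_⟩
    · simp [hd0]
    · have : (c * (d : 𝓞 L) : L) = n := hd
      push_cast
      linear_combination (((φ d)⁻¹.val : ℕ) : L) * this
  have hone : ∀ s : 𝓞 L, φ s = 1 → ∃ b b' : Fin 4 → ℤ,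
      (s : L) = 1 + q * ev b + (ζ - r) * ev b' := by
    intro s hs
    obtain ⟨b, b', hb⟩ := hker' (s - 1) (by simp [hs])
    refine ⟨b, b', ?_⟩
    push_cast at hb
    linear_combination hb
  have hval1 : ∀ s : 𝓞 L, φ s = 1 → v.valuation L (s : L) = 1 := by
    intro s hs
    have h1 : ¬ v.valuation L (s : L) < 1 := by
      intro h2
      have : φ s = 0 := (v.valuation_lt_one_iff_mem s).1 h2
      rw [hs] at this
      exact one_ne_zero this
    exact le_antisymm (v.valuation_le_one s) (not_lt.1 h1)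
  refine ⟨(v.valuation L).valuationSubring, ?_, ?_, ?_, ?_⟩
  · rw [hnu]
    simpa using hlt q (by simp)
  · intro c hc
    obtain ⟨n, s, hs, hn⟩ := hden c hc
    refine ⟨((φ n).val : ℕ), ?_⟩
    rw [hnu]
    have h1 := hlt (n - ((φ n).val : ℕ) * s) (by simp [hs])
    have h2 : ((n - ((φ n).val : ℕ) * s : 𝓞 L) : L) = s * (c - (((φ n).val : ℕ) : ℤ)) := by
      push_cast
      linear_combination -hn
    rw [h2, map_mul, hval1 s hs, one_mul] at h1
    exact h1
  · intro c hc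
    obtain ⟨n, s, hs, hn⟩ := hden c hc
    obtain ⟨b, b', hb⟩ := hone s hs
    obtain ⟨a, ha⟩ := exists_ev n
    exact ⟨a, b, b', by rw [← hb, hn, ha]⟩
  · intro c hc
    rw [hnu] at hc
    obtain ⟨n, s, hs, hn⟩ := hden c hc.le
    obtain ⟨b, b', hb⟩ := hone s hs
    have h1 : v.valuation L (n : L) < 1 := by
      rw [← hn, map_mul, hval1 s hs, one_mul]; exact hc
    obtain ⟨a, a', ha⟩ := hker' n ((v.valuation_lt_one_iff_mem n).1 h1)
    exact ⟨a, a', b, b', by rw [← hb, hn, ha]⟩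

lemma a4_over (p : ℕ) (hp : p.Prime) : ∃ O : ValuationSubring L, (p : L) ∈ O.nonunits := by
  let A : Subring L := (Int.castRingHom L).range
  have hI : Ideal.span {(p : A)} ≠ ⊤ := by
    rw [Ne, Ideal.span_singleton_eq_top]
    intro hu
    obtain ⟨⟨x, n, rfl⟩, hx⟩ := hu.exists_right_inv
    have h1 : ((p : ℤ) * n : ℤ) = 1 := by
      have h2 := congrArg (fun t : A => (t : L)) hx
      simp only [Subring.coe_mul, Subring.coe_natCast, Subring.coe_one, eq_intCast] at h2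
      exact_mod_cast h2
    have := Int.eq_one_of_mul_eq_one_right (by positivity) h1
    exact hp.one_lt.ne' (by exact_mod_cast this)
  obtain ⟨O, -, hO⟩ := Ideal.image_subset_nonunits_valuationSubring _ hI
  exact ⟨O, hO ⟨p, Ideal.mem_span_singleton_self _, by simp⟩⟩

lemma minpoly_ζ : minpoly ℚ ζ = X ^ 4 + 1 := by
  refine (cyclotomic_eq_minpoly_rat ζ_spec (by norm_num)).symm.trans ?_
  have := cyclotomic_prime_pow_eq_geom_sum (R := ℚ) (p := 2) (n := 2) Nat.prime_two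
  norm_num [Finset.sum_range_succ] at this
  rw [this]; ring

lemma a4_aut (z : L) (hz : z ^ 4 = -1) : ∃ σ : L →+* L, σ ζ = z := by
  let pb := IsPrimitiveRoot.powerBasis ℚ ζ_spec
  have hg : pb.gen = ζ := IsPrimitiveRoot.powerBasis_gen ℚ ζ_spec
  have hr : aeval z (minpoly ℚ pb.gen) = 0 := by
    rw [hg, minpoly_ζ]
    simp [hz]
  refine ⟨(pb.lift z hr).toRingHom, ?_⟩
  rw [← hg]
  exact pb.lift_gen _ hr

lemma a4_basis : ∃ bas : Module.Basis (Fin 4) ℚ L, ∀ j, bas j = ζ ^ (j : ℕ) := by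
  let pb := IsPrimitiveRoot.powerBasis ℚ ζ_spec
  have hg : pb.gen = ζ := IsPrimitiveRoot.powerBasis_gen ℚ ζ_spec
  have hd : pb.dim = 4 := by
    rw [← pb.natDegree_minpoly, hg, minpoly_ζ]
    compute_degree!
  refine ⟨pb.basis.reindex (finCongr hd), fun j => ?_⟩
  rw [Module.Basis.reindex_apply, pb.basis_eq_pow, hg]
  simp

open Height in
lemma height_nat (n : ℕ) : logHeight₁ (n : L) ≤ totalWeight L * Real.log n := by
  have := logHeight₁_sum_le (Finset.range n) (fun _ => (1 : L))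
  simpa using this

open Height in
lemma height_rat (ξ : ℚ) : logHeight₁ (ξ : L) ≤ 2 * totalWeight L * logHeight₁ ξ := by
  have h1 : logHeight₁ ((ξ.num : ℤ) : L) ≤ totalWeight L * Real.log ξ.num.natAbs := by
    refine le_trans (le_of_eq ?_) (height_nat _)
    rcases Int.natAbs_eq ξ.num with h | h
    · conv_lhs => rw [h]
      simp only [Int.cast_natCast]
    · conv_lhs => rw [h]
      simp only [Int.cast_neg, Int.cast_natCast, logHeight₁_neg]
  have h2 := height_nat ξ.den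
  have h3 : (ξ : L) = (ξ.num : L) * ((ξ.den : L))⁻¹ := by
    rw [Rat.cast_def, div_eq_mul_inv]
  have h4 := logHeight₁_mul_le ((ξ.num : ℤ) : L) ((ξ.den : L))⁻¹
  rw [logHeight₁_inv, ← h3] at h4
  rw [Rat.logHeight₁_eq_log_max]
  have hm : ∀ n : ℕ, n ≤ max ξ.num.natAbs ξ.den →
      Real.log n ≤ Real.log (max ξ.num.natAbs ξ.den : ℕ) := by
    intro n hn
    rcases Nat.eq_zero_or_pos n with rfl | h0
    · simpa using Real.log_natCast_nonneg (max ξ.num.natAbs ξ.den)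
    · exact Real.log_le_log (by exact_mod_cast h0) (by exact_mod_cast hn)
  have h5 := hm _ (le_max_left _ _)
  have h6 := hm _ (le_max_right _ _)
  have h7 : (0 : ℝ) ≤ totalWeight L := by positivity
  nlinarith [mul_le_mul_of_nonneg_left h5 h7, mul_le_mul_of_nonneg_left h6 h7]

open Height in
lemma a4_height : ∃ C : ℝ, ∀ ξ : Fin 4 → ℚ,
    logHeight₁ (∑ j : Fin 4, (ξ j : L) * ζ ^ (j : ℕ)) ≤ C * (1 + ∑ j, logHeight₁ (ξ j)) := by
  set w : ℝ := (totalWeight L : ℝ) with hw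
  have h7 : (0 : ℝ) ≤ w := by positivity
  set B : ℝ := w * Real.log 4 + ∑ j : Fin 4, logHeight₁ (ζ ^ (j : ℕ)) with hB
  have hB0 : 0 ≤ B := by
    have : 0 ≤ Real.log 4 := Real.log_nonneg (by norm_num)
    have : 0 ≤ ∑ j : Fin 4, logHeight₁ (ζ ^ (j : ℕ)) :=
      Finset.sum_nonneg fun j _ => zero_le_logHeight₁ _
    positivity
  refine ⟨B + 2 * w, fun ξ => ?_⟩
  have h1 := logHeight₁_sum_le Finset.univ (fun j : Fin 4 => (ξ j : L) * ζ ^ (j : ℕ))
  have h2 : ∑ j : Fin 4, logHeight₁ ((ξ j : L) * ζ ^ (j : ℕ)) ≤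
      ∑ j : Fin 4, (2 * w * logHeight₁ (ξ j) + logHeight₁ (ζ ^ (j : ℕ))) :=
    Finset.sum_le_sum fun j _ =>
      (logHeight₁_mul_le _ _).trans (by have := height_rat (ξ j); linarith)
  rw [Finset.sum_add_distrib, ← Finset.mul_sum] at h2
  have h3 : 0 ≤ ∑ j, logHeight₁ (ξ j) := Finset.sum_nonneg fun j _ => zero_le_logHeight₁ _
  simp only [Finset.card_univ, Fintype.card_fin, Nat.cast_ofNat] at h1
  nlinarith [mul_nonneg hB0 h3]

end Vale.Agent.P027Z.A4p

namespace Vale.Agent.P027Z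

open A4p in
theorem a4 : A4 :=
  ⟨a4_root, a4_place, a4_over, a4_aut _ (by linear_combination ζ_four),
    a4_aut _ (by linear_combination (ζ ^ 8 - ζ ^ 4 + 1) * ζ_four), a4_basis, a4_height⟩

end Vale.Agent.P027Z
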