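import Vale.Agent.P027Z.Defs

/-! The height bound: examples, and its relation to the conjecture on `a + b = c`. -/

set_option linter.all false

namespace Vale.Agent.P027Z

lemma one_le_radN (n m : ℕ) : 1 ≤ radN n m :=
  Finset.prod_pos fun p hp => (Nat.prime_of_mem_primeFactors (Finset.mem_filter.1 hp).1).pos

lemma good_prime {j κ : ℕ} {C : ℝ} (hj : 1 ≤ j) (hκ : 1 ≤ κ) (hC : 1 ≤ C) {x d : ℕ} (hd : 0 < d)
    (h0 : x.Prime) (h1 : (x + d).Prime) (h3 : (x + 3 * d).Prime) :
    Good (2 ^ j) κ C ((d : ℚ) / x) := by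
  have h2 := h0.two_le
  have cop : Nat.Coprime d x := by
    have := (Nat.coprime_primes h1 h0).2 (by omega)
    simpa using this
  have e1 : ((d : ℚ) / x).num = d := by
    have := Rat.num_div_eq_of_coprime (a := d) (b := x) (by omega) cop
    simpa only [Int.cast_natCast] using this
  have e2 : ((d : ℚ) / x).den = x := by
    have := Rat.den_div_eq_of_coprime (a := d) (b := x) (by omega) cop
    simpa only [Int.cast_natCast, Nat.cast_inj] using this
  unfold Good
  rw [e1, e2]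
  have e3 : ((x : ℤ) * (x + d) * (x + 2 * d) * (x + 3 * d)).natAbs =
      (x + 3 * d) * (x * (x + d) * (x + 2 * d)) := by
    rw [← Int.natAbs_natCast ((x + 3 * d) * (x * (x + d) * (x + 2 * d)))]
    congr 1; push_cast; ring
  have nd : ¬ (x + 3 * d) ∣ x * (x + d) * (x + 2 * d) := by
    rw [h3.dvd_mul, h3.dvd_mul, not_or, not_or]
    exact ⟨⟨fun h => by have := Nat.le_of_dvd (by omega) h; omega,
      fun h => by have := Nat.le_of_dvd (by omega) h; omega⟩,
      fun h => by have := Nat.le_of_dvd (by omega) h; omega⟩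
  have n0 : x * (x + d) * (x + 2 * d) ≠ 0 := by positivity
  have h4 : x + 3 * d ≤ radN (2 ^ j) ((x + 3 * d) * (x * (x + d) * (x + 2 * d))) := by
    refine Finset.single_le_prod' (f := fun p : ℕ => p)
      (fun q hq => (Nat.prime_of_mem_primeFactors (Finset.mem_filter.1 hq).1).one_le) ?_
    rw [Finset.mem_filter, Nat.mem_primeFactors]
    refine ⟨⟨h3, dvd_mul_right _ _, mul_ne_zero h3.ne_zero n0⟩, ?_⟩
    rw [Nat.factorization_mul h3.ne_zero n0, Finsupp.add_apply, h3.factorization_self,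
      Nat.factorization_eq_zero_of_not_dvd nd]
    intro h
    have := Nat.le_of_dvd (by norm_num) h
    have : 2 ^ 1 ≤ 2 ^ j := Nat.pow_le_pow_right (by norm_num) hj
    omega
  rw [e3, Int.natAbs_natCast]
  have h5 : (1 : ℝ) ≤ radN (2 ^ j) ((x + 3 * d) * (x * (x + d) * (x + 2 * d))) := by
    exact_mod_cast one_le_radN _ _
  have h6 := Real.log_le_sub_one_of_pos (x := ((max d x : ℕ) : ℝ)) (by positivity)
  have h7 : ((max d x : ℕ) : ℝ) ≤ radN (2 ^ j) ((x + 3 * d) * (x * (x + d) * (x + 2 * d))) := by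
    exact_mod_cast le_trans (by omega) h4
  have h8 := le_self_pow₀ h5 (n := κ) (by omega)
  nlinarith

lemma good_of_triples {n κ : ℕ} {C : ℝ} (h : ∀ a b : ℕ, 0 < a → 0 < b → a.Coprime b →
    Real.log (a + b : ℕ) ≤ C * (radN n (a * b * (a + b)) : ℝ) ^ κ) (s : ℚ) :
    Real.log (max s.num.natAbs s.den : ℕ) ≤
      C * (radN n (s.num * (s.den - s.num) * s.den).natAbs : ℝ) ^ κ := by
  have hC : 0 ≤ C := by
    have h1 := h 1 1 one_pos one_pos (by norm_num)
    have h2 : 0 ≤ Real.log (1 + 1 : ℕ) := Real.log_natCast_nonneg _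
    have h3 : (0 : ℝ) < (radN n (1 * 1 * (1 + 1)) : ℝ) ^ κ :=
      pow_pos (by exact_mod_cast one_le_radN _ _) _
    exact nonneg_of_mul_nonneg_left (h2.trans h1) h3
  have mono : ∀ {x y : ℕ}, 0 < x → x ≤ y → Real.log x ≤ Real.log y := fun h1 h2 =>
    Real.log_le_log (by exact_mod_cast h1) (by exact_mod_cast h2)
  have hd := s.den_pos
  have cop := s.reduced
  generalize s.den = c at *
  generalize s.num = a at *
  rcases lt_trichotomy a 0 with h0 | rfl | h0
  · obtain ⟨a, rfl⟩ : ∃ k : ℕ, a = -k := ⟨a.natAbs, by omega⟩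
    simp only [Int.natAbs_neg, Int.natAbs_natCast] at cop ⊢
    have e : (-(a : ℤ) * (c - -a) * c).natAbs = a * c * (a + c) := by
      rw [← Int.natAbs_natCast (a * c * (a + c)), ← Int.natAbs_neg]
      congr 1; push_cast; ring
    rw [e]
    exact (mono (by omega) (by omega)).trans (h a c (by omega) hd cop)
  · have : c = 1 := by simpa using cop
    subst this
    simpa [radN] using hC
  · lift a to ℕ using h0.le
    simp only [Int.natAbs_natCast] at cop ⊢
    rcases lt_trichotomy a c with h1 | rfl | h1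
    · obtain ⟨b, rfl⟩ : ∃ b, c = a + b := ⟨c - a, by omega⟩
      have e : ((a : ℤ) * ((a + b : ℕ) - a) * (a + b : ℕ)).natAbs = a * b * (a + b) := by
        rw [← Int.natAbs_natCast (a * b * (a + b))]
        congr 1; push_cast; ring
      rw [e, max_eq_right h1.le]
      exact h a b (by omega) (by omega) (by simpa using cop)
    · have : a = 1 := by simpa using cop
      subst this
      simpa [radN] using hC
    · obtain ⟨b, rfl⟩ : ∃ b, a = c + b := ⟨a - c, by omega⟩
      have e : (((c + b : ℕ) : ℤ) * (c - (c + b : ℕ)) * c).natAbs = c * b * (c + b) := by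
        rw [← Int.natAbs_natCast (c * b * (c + b)), ← Int.natAbs_neg]
        congr 1; push_cast; ring
      rw [e, max_eq_left h1.le]
      exact h c b hd (by omega) (by simpa using cop.symm)

lemma rad_pow_le (n : ℕ) {m : ℕ} (hm : m ≠ 0) :
    (∏ p ∈ m.primeFactors, p) ^ n ≤ radN n m ^ n * m := by
  rw [← Finset.prod_filter_not_mul_prod_filter m.primeFactors (fun p => n ∣ m.factorization p),
    mul_pow]
  refine Nat.mul_le_mul_left _ ?_
  conv_rhs => rw [← Nat.prod_factorization_pow_eq_self hm]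
  rw [← Finset.prod_pow, Finsupp.prod, Nat.support_factorization]
  refine le_trans (Finset.prod_le_prod' fun p hp => ?_)
    (Finset.prod_le_prod_of_subset_of_one_le' (Finset.filter_subset _ _) fun p hp _ =>
      Nat.one_le_pow _ _ (Nat.prime_of_mem_primeFactors hp).pos)
  rw [Finset.mem_filter] at hp
  have pp := Nat.prime_of_mem_primeFactors hp.1
  exact Nat.pow_le_pow_right pp.pos (Nat.le_of_dvd
    (pp.factorization_pos_of_dvd hm (Nat.dvd_of_mem_primeFactors hp.1)) hp.2)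

lemma triples_of_abc {k K : ℕ} (h : ∀ a b : ℕ, 0 < a → 0 < b → a.Coprime b →
    a + b ≤ K * (∏ p ∈ (a * b * (a + b)).primeFactors, p) ^ k) :
    ∃ (j κ : ℕ) (C : ℝ), ∀ a b : ℕ, 0 < a → 0 < b → a.Coprime b →
      Real.log (a + b : ℕ) ≤ C * (radN (2 ^ j) (a * b * (a + b)) : ℝ) ^ κ := by
  refine ⟨6 * k, 2 * k, (K ^ 2 : ℕ), fun a b ha hb hab => ?_⟩
  have hn : 6 * k < 2 ^ (6 * k) := Nat.lt_two_pow_self
  set n := 2 ^ (6 * k)
  have h1 := h a b ha hb hab
  have h2 := rad_pow_le n (m := a * b * (a + b)) (by positivity)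
  set R := ∏ p ∈ (a * b * (a + b)).primeFactors, p
  set N := radN n (a * b * (a + b))
  have h3 : a * b * (a + b) ≤ (a + b) ^ 3 := by
    calc a * b * (a + b) ≤ (a + b) * (a + b) * (a + b) := by gcongr <;> omega
      _ = _ := by ring
  have h4 : (a + b) ^ n * (a + b) ^ n ≤ (K ^ 2 * N ^ (2 * k)) ^ n * (a + b) ^ n := by
    calc (a + b) ^ n * (a + b) ^ n ≤ (K * R ^ k) ^ n * (K * R ^ k) ^ n := by gcongr
      _ = (K ^ 2) ^ n * (R ^ n) ^ (2 * k) := by ring
      _ ≤ (K ^ 2) ^ n * (N ^ n * (a + b) ^ 3) ^ (2 * k) := by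
          gcongr; exact h2.trans (Nat.mul_le_mul_left _ h3)
      _ = (K ^ 2 * N ^ (2 * k)) ^ n * (a + b) ^ (6 * k) := by generalize a + b = c; ring
      _ ≤ _ := Nat.mul_le_mul_left _ (Nat.pow_le_pow_right (by omega) hn.le)
  have h5 : a + b ≤ K ^ 2 * N ^ (2 * k) :=
    (Nat.pow_le_pow_iff_left (by omega)).1 (Nat.le_of_mul_le_mul_right h4 (by positivity))
  have h6 := Real.log_le_sub_one_of_pos (x := ((a + b : ℕ) : ℝ)) (by positivity)
  have h7 : ((a + b : ℕ) : ℝ) ≤ ((K ^ 2 * N ^ (2 * k) : ℕ) : ℝ) := by exact_mod_cast h5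
  push_cast at h6 h7 ⊢
  linarith

lemma radN_mul_le (n : ℕ) {A B : ℕ} (hA : A ≠ 0) (hB : B ≠ 0) :
    radN n (A * B) ≤ radN n A * radN n B := by
  unfold radN
  rw [← Finset.prod_union_inter]
  refine le_trans (Finset.prod_le_prod_of_subset_of_one_le' (fun p hp => ?_) fun p hp _ => ?_)
    (Nat.le_mul_of_pos_right _ (Finset.prod_pos fun p hp => ?_))
  · simp only [Finset.mem_filter, Finset.mem_union, Nat.mem_primeFactors] at hp ⊢
    rw [Nat.factorization_mul hA hB, Finsupp.add_apply] at hp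
    by_contra hn
    have k : ∀ m : ℕ, m ≠ 0 → ¬ ((p.Prime ∧ p ∣ m ∧ m ≠ 0) ∧ ¬ n ∣ m.factorization p) →
        n ∣ m.factorization p := fun m h0 h => by
      by_contra h'
      refine h ⟨⟨hp.1.1, ?_, h0⟩, h'⟩
      by_contra h''
      exact h' (by rw [Nat.factorization_eq_zero_of_not_dvd h'']; exact dvd_zero _)
    exact hp.2 (dvd_add (k A hA fun h => hn (Or.inl h)) (k B hB fun h => hn (Or.inr h)))
  · rcases Finset.mem_union.1 hp with h | h <;>
      exact (Nat.prime_of_mem_primeFactors (Finset.mem_filter.1 h).1).one_le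
  · exact (Nat.prime_of_mem_primeFactors (Finset.mem_filter.1 (Finset.mem_inter.1 hp).1).1).pos

lemma radN_le_six {a A n m : ℕ} (hm : m ≠ 0) (h : ∀ p : ℕ, p.Prime → p ≠ 2 → p ≠ 3 →
    n ∣ m.factorization p → a ∣ A.factorization p) : radN a A ≤ 6 * radN n m := by
  have e : 6 = ∏ p ∈ ({2, 3} : Finset ℕ), p := by decide
  unfold radN
  rw [e, ← Finset.prod_union_inter]
  refine le_trans (Finset.prod_le_prod_of_subset_of_one_le' (fun p hp => ?_) fun p hp _ => ?_)
    (Nat.le_mul_of_pos_right _ (Finset.prod_pos fun p hp => ?_))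
  · simp only [Finset.mem_filter, Finset.mem_union, Nat.mem_primeFactors, Finset.mem_insert,
      Finset.mem_singleton] at hp ⊢
    by_contra hn
    push Not at hn
    refine hp.2 (h p hp.1.1 hn.1.1 hn.1.2 ?_)
    by_cases hd : p ∣ m
    · exact hn.2 ⟨hp.1.1, hd, hm⟩
    · rw [Nat.factorization_eq_zero_of_not_dvd hd]; exact dvd_zero _
  · simp only [Finset.mem_union, Finset.mem_insert, Finset.mem_singleton] at hp
    rcases hp with (rfl | rfl) | h
    · norm_num
    · norm_num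
    · exact (Nat.prime_of_mem_primeFactors (Finset.mem_filter.1 h).1).one_le
  · exact (Nat.prime_of_mem_primeFactors (Finset.mem_filter.1 (Finset.mem_inter.1 hp).2).1).pos

lemma not_dvd_both {p : ℕ} (hp : p.Prime) (t : ℚ) : ¬ p ∣ t.num.natAbs ∨ ¬ p ∣ t.den := by
  by_contra h
  push Not at h
  have := Nat.dvd_gcd h.1 h.2
  rw [t.reduced] at this
  exact hp.one_lt.ne' (Nat.dvd_one.1 this)

lemma dvd_num_fact {p n : ℕ} (hp : p.Prime) {t : ℚ} (h : (n : ℤ) ∣ padicValRat p t) :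
    n ∣ t.num.natAbs.factorization p := by
  rw [Nat.factorization_def _ hp]
  rcases not_dvd_both hp t with h1 | h1
  · rw [padicValNat.eq_zero_of_not_dvd h1]; exact dvd_zero _
  · rw [padicValRat, padicValNat.eq_zero_of_not_dvd h1, padicValInt] at h
    exact_mod_cast (by simpa using h : (n : ℤ) ∣ (padicValNat p t.num.natAbs : ℤ))

lemma dvd_den_fact {p n : ℕ} (hp : p.Prime) {t : ℚ}
    (h : padicValRat p t < 0 → (n : ℤ) ∣ padicValRat p t) : n ∣ t.den.factorization p := by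
  rw [Nat.factorization_def _ hp]
  rcases not_dvd_both hp t with h1 | h1
  · rw [padicValRat, padicValInt, padicValNat.eq_zero_of_not_dvd h1] at h
    rcases Nat.eq_zero_or_pos (padicValNat p t.den) with h0 | h0
    · rw [h0]; exact dvd_zero _
    · exact_mod_cast (by simpa using h (by omega) : (n : ℤ) ∣ (padicValNat p t.den : ℤ))
  · rw [padicValNat.eq_zero_of_not_dvd h1]; exact dvd_zero _

lemma num_one_sub (t : ℚ) : (1 - t).num = t.den - t.num := by
  have h1 : (1 - t).den = t.den := by simpa using Rat.intCast_sub_den 1 t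
  have h2 := Rat.mul_den_eq_num (1 - t)
  have h3 := Rat.mul_den_eq_num t
  rw [h1] at h2
  have : ((1 - t).num : ℚ) = t.den - t.num := by rw [← h2, ← h3]; ring
  exact_mod_cast this

/-- two terms of a primitive progression are not both divisible by a prime above three -/
lemma val_pair {p : ℕ} (hp : p.Prime) (h2 : p ≠ 2) (h3 : p ≠ 3) {x d : ℤ} (hc : IsCoprime x d)
    {i k : ℤ} (e : k - i = 1 ∨ k - i = 2 ∨ k - i = 3) :
    padicValInt p (x + i * d) = 0 ∨ padicValInt p (x + k * d) = 0 := by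
  by_contra h
  push Not at h
  have a1 : (p : ℤ) ∣ x + i * d := by
    by_contra h'; exact h.1 (padicValInt.eq_zero_of_not_dvd h')
  have a2 : (p : ℤ) ∣ x + k * d := by
    by_contra h'; exact h.2 (padicValInt.eq_zero_of_not_dvd h')
  have pp := Nat.prime_iff_prime_int.1 hp
  have a3 : (p : ℤ) ∣ (k - i) * d := by
    have := dvd_sub a2 a1
    rwa [show x + k * d - (x + i * d) = (k - i) * d by ring] at this
  have a4 : ¬ (p : ℤ) ∣ k - i := by
    rcases e with e | e | e <;> rw [e] <;> intro h'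
    · exact pp.not_dvd_one h'
    · exact h2 ((Nat.prime_dvd_prime_iff_eq hp Nat.prime_two).1 (by exact_mod_cast h'))
    · exact h3 ((Nat.prime_dvd_prime_iff_eq hp Nat.prime_three).1 (by exact_mod_cast h'))
  have a5 := (pp.dvd_or_dvd a3).resolve_left a4
  have a6 : (p : ℤ) ∣ x := (dvd_add_left (dvd_mul_of_dvd_right a5 i)).1 a1
  exact pp.not_unit (hc.isUnit_of_dvd' a6 a5)

/-- the height bound follows from a height bound for `A + B = C` of suitable signature -/
theorem good_of_tri {j a b c κ : ℕ} {C : ℝ} (ha : a ∣ 2 ^ j)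
    (hbc : b ∣ 2 ∧ c ∣ 3 * 2 ^ j ∨ b ∣ 2 ^ j ∧ c ∣ 2 ^ j)
    (h : ∀ t : ℚ, t ≠ 0 → t ≠ 1 → Real.log (max t.num.natAbs t.den : ℕ) ≤
      C * (radN a t.num.natAbs * radN b (t.den - t.num).natAbs * radN c t.den : ℕ) ^ κ) (s : ℚ) :
    Good (2 ^ (j + 1)) (3 * κ) (16 + |C| * 6 ^ (3 * κ)) s := by
  unfold Good
  have hc : IsCoprime (s.den : ℤ) s.num := (Rat.isCoprime_num_den s).symm
  have hx : (0 : ℤ) < s.den := by exact_mod_cast s.den_pos
  have em : max s.num.natAbs s.den = max s.num.natAbs (s.den : ℤ).natAbs := by simp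
  rw [em]
  generalize (s.den : ℤ) = x at *
  generalize s.num = d at *
  clear em
  set N := radN (2 ^ (j + 1)) (x * (x + d) * (x + 2 * d) * (x + 3 * d)).natAbs with hN
  have N1 : (1 : ℝ) ≤ (N : ℝ) ^ (3 * κ) := one_le_pow₀ (by exact_mod_cast one_le_radN _ _)
  have fin : ∀ H : ℕ, 0 < H → max d.natAbs x.natAbs ≤ 16 * H →
      Real.log H ≤ |C| * 6 ^ (3 * κ) * (N : ℝ) ^ (3 * κ) →
      Real.log (max d.natAbs x.natAbs : ℕ) ≤ (16 + |C| * 6 ^ (3 * κ)) * (N : ℝ) ^ (3 * κ) := by
    intro H H0 h1 h2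
    have h3 : Real.log (max d.natAbs x.natAbs : ℕ) ≤ Real.log (16 * H : ℕ) :=
      Real.log_le_log (by exact_mod_cast (by omega)) (by exact_mod_cast h1)
    rw [Nat.cast_mul, Real.log_mul (by norm_num) (by positivity)] at h3
    have h4 := Real.log_le_sub_one_of_pos (x := ((16 : ℕ) : ℝ)) (by norm_num)
    push_cast at h3 h4 ⊢
    nlinarith
  have deg : ∀ i : ℤ, 1 ≤ i → i ≤ 4 → x + i * d = 0 → Real.log (max d.natAbs x.natAbs : ℕ) ≤
      (16 + |C| * 6 ^ (3 * κ)) * (N : ℝ) ^ (3 * κ) := by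
    intro i i1 i4 e
    have : IsUnit d := hc.isUnit_of_dvd' ⟨-i, by linear_combination e⟩ dvd_rfl
    refine fin 1 one_pos ?_ (by simp; positivity)
    rcases Int.isUnit_iff.1 this with rfl | rfl <;> omega
  by_cases z1 : x + d = 0
  · exact deg 1 (by norm_num) (by norm_num) (by linarith)
  by_cases z2 : x + 2 * d = 0
  · exact deg 2 (by norm_num) (by norm_num) z2
  by_cases z3 : x + 3 * d = 0
  · exact deg 3 (by norm_num) (by norm_num) z3
  by_cases z4 : x + 4 * d = 0
  · exact deg 4 (by norm_num) (by norm_num) z4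
  have m0 : (x * (x + d) * (x + 2 * d) * (x + 3 * d)).natAbs ≠ 0 :=
    Int.natAbs_ne_zero.2 (mul_ne_zero (mul_ne_zero (mul_ne_zero hx.ne' z1) z2) z3)
  have q0 : (x : ℚ) ≠ 0 := by exact_mod_cast hx.ne'
  have q1 : ((x + d : ℤ) : ℚ) ≠ 0 := by exact_mod_cast z1
  have q2 : ((x + 2 * d : ℤ) : ℚ) ≠ 0 := by exact_mod_cast z2
  have q3 : ((x + 3 * d : ℤ) : ℚ) ≠ 0 := by exact_mod_cast z3
  have q4 : ((x + 4 * d : ℤ) : ℚ) ≠ 0 := by exact_mod_cast z4
  have vals : ∀ p : ℕ, p.Prime → p ≠ 2 → p ≠ 3 → 2 ^ (j + 1) ∣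
      (x * (x + d) * (x + 2 * d) * (x + 3 * d)).natAbs.factorization p →
      padicValRat p 2 = 0 ∧ ∃ k0 k1 k2 k3 : ℕ,
        padicValRat p x = 2 * (2 ^ j * k0) ∧ padicValRat p ((x + d : ℤ) : ℚ) = 2 * (2 ^ j * k1) ∧
        padicValRat p ((x + 2 * d : ℤ) : ℚ) = 2 * (2 ^ j * k2) ∧
        padicValRat p ((x + 3 * d : ℤ) : ℚ) = 2 * (2 ^ j * k3) ∧ (k2 = 0 ∨ k0 = 0 ∧ k3 = 0) := by
    intro p hp h2 h3 hd
    haveI := Fact.mk hp
    refine ⟨?_, ?_⟩
    · have := padicValRat.of_nat (p := p) (n := 2)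
      rw [padicValNat.eq_zero_of_not_dvd (fun h => h2
        ((Nat.prime_dvd_prime_iff_eq hp Nat.prime_two).1 h))] at this
      exact_mod_cast this
    rw [Nat.factorization_def _ hp] at hd
    change 2 ^ (j + 1) ∣ padicValInt p _ at hd
    rw [padicValInt.mul (mul_ne_zero (mul_ne_zero hx.ne' z1) z2) z3,
      padicValInt.mul (mul_ne_zero hx.ne' z1) z2, padicValInt.mul hx.ne' z1] at hd
    have b01 := val_pair hp h2 h3 hc (i := 0) (k := 1) (by norm_num)
    have b02 := val_pair hp h2 h3 hc (i := 0) (k := 2) (by norm_num)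
    have b03 := val_pair hp h2 h3 hc (i := 0) (k := 3) (by norm_num)
    have b12 := val_pair hp h2 h3 hc (i := 1) (k := 2) (by norm_num)
    have b13 := val_pair hp h2 h3 hc (i := 1) (k := 3) (by norm_num)
    have b23 := val_pair hp h2 h3 hc (i := 2) (k := 3) (by norm_num)
    simp only [zero_mul, add_zero, one_mul] at b01 b02 b03 b12 b13
    simp only [padicValRat.of_int]
    obtain ⟨k, hk⟩ := hd
    have hk' : 2 ^ (j + 1) * k = 2 * (2 ^ j * k) := by ring
    rw [hk'] at hk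
    have : (padicValInt p (x + d) = 0 ∧ padicValInt p (x + 2 * d) = 0 ∧
        padicValInt p (x + 3 * d) = 0) ∨ (padicValInt p x = 0 ∧ padicValInt p (x + 2 * d) = 0 ∧
        padicValInt p (x + 3 * d) = 0) ∨ (padicValInt p x = 0 ∧ padicValInt p (x + d) = 0 ∧
        padicValInt p (x + 3 * d) = 0) ∨ (padicValInt p x = 0 ∧ padicValInt p (x + d) = 0 ∧
        padicValInt p (x + 2 * d) = 0) := by omega
    rcases this with ⟨u, v, w⟩ | ⟨u, v, w⟩ | ⟨u, v, w⟩ | ⟨u, v, w⟩ <;> rw [u, v, w] at hk ⊢ <;>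
      simp only [add_zero, zero_add] at hk <;> rw [hk]
    · exact ⟨k, 0, 0, 0, by simp⟩
    · exact ⟨0, k, 0, 0, by simp⟩
    · exact ⟨0, 0, k, 0, by simp⟩
    · exact ⟨0, 0, 0, k, by simp⟩
  have use : ∀ t : ℚ, t ≠ 0 → 1 - t ≠ 0 → max d.natAbs x.natAbs ≤ 16 * max t.num.natAbs t.den →
      (∀ p : ℕ, p.Prime → p ≠ 2 → p ≠ 3 → 2 ^ (j + 1) ∣
        (x * (x + d) * (x + 2 * d) * (x + 3 * d)).natAbs.factorization p →
        (a : ℤ) ∣ padicValRat p t ∧ (b : ℤ) ∣ padicValRat p (1 - t) ∧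
          (padicValRat p t < 0 → (c : ℤ) ∣ padicValRat p t)) →
      Real.log (max d.natAbs x.natAbs : ℕ) ≤ (16 + |C| * 6 ^ (3 * κ)) * (N : ℝ) ^ (3 * κ) := by
    intro t t0 t1 h1 h2
    refine fin _ (lt_max_of_lt_right t.den_pos) h1 ((h t t0 (sub_ne_zero.1 t1).symm).trans ?_)
    have r1 : radN a t.num.natAbs ≤ 6 * N :=
      radN_le_six m0 fun p b1 b2 b3 b4 => dvd_num_fact b1 (h2 p b1 b2 b3 b4).1
    have r2 : radN b (t.den - t.num).natAbs ≤ 6 * N := by
      rw [← num_one_sub]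
      exact radN_le_six m0 fun p b1 b2 b3 b4 => dvd_num_fact b1 (h2 p b1 b2 b3 b4).2.1
    have r3 : radN c t.den ≤ 6 * N :=
      radN_le_six m0 fun p b1 b2 b3 b4 => dvd_den_fact b1 (h2 p b1 b2 b3 b4).2.2
    have r4 : radN a t.num.natAbs * radN b (t.den - t.num).natAbs * radN c t.den ≤ (6 * N) ^ 3 := by
      calc _ ≤ (6 * N) * (6 * N) * (6 * N) := by gcongr
        _ = _ := by ring
    rw [mul_assoc |C|, ← mul_pow, pow_mul]
    refine mul_le_mul (le_abs_self C) (pow_le_pow_left₀ (by positivity) ?_ _) (by positivity)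
      (abs_nonneg C)
    exact_mod_cast r4
  have ha' : (a : ℤ) ∣ 2 ^ j := by exact_mod_cast ha
  rcases hbc with ⟨hb, hc'⟩ | ⟨hb, hc'⟩
  · have hb' : (b : ℤ) ∣ 2 := by exact_mod_cast hb
    have hc'' : (c : ℤ) ∣ 3 * 2 ^ j := by exact_mod_cast hc'
    set t : ℚ := (x : ℚ) ^ 2 * ((x + 3 * d : ℤ) : ℚ) / (2 * ((x + 2 * d : ℤ) : ℚ) ^ 3) with ht
    have e1 : 1 - t = ((x + 4 * d : ℤ) : ℚ) ^ 2 * ((x + d : ℤ) : ℚ) /
        (2 * ((x + 2 * d : ℤ) : ℚ) ^ 3) := by
      rw [ht]; field_simp; push_cast; ring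
    have t0 : t ≠ 0 := by rw [ht]; positivity
    refine use t t0 (by rw [e1]; positivity) ?_ fun p b1 b2 b3 b4 => ?_
    · have e2 : 2 * t.num * (x + 2 * d) ^ 3 = t.den * (x ^ 2 * (x + 3 * d)) := by
        have h1 := Rat.mul_den_eq_num t
        have h2 : t * (2 * ((x + 2 * d : ℤ) : ℚ) ^ 3) = (x : ℚ) ^ 2 * ((x + 3 * d : ℤ) : ℚ) := by
          rw [ht]; field_simp
        have : (2 * t.num * ((x + 2 * d : ℤ) : ℚ) ^ 3 : ℚ) =
            t.den * ((x : ℚ) ^ 2 * ((x + 3 * d : ℤ) : ℚ)) := by rw [← h1, ← h2]; ring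
        exact_mod_cast this
      have n0 : t.num ≠ 0 := Rat.num_ne_zero.2 t0
      have d0 := t.den_pos
      generalize t.num = P at *
      generalize t.den = Q at *
      have a1 : x ∣ 16 * P := by
        refine (hc.pow_right (n := 3)).dvd_of_dvd_mul_right
          ⟨Q * (x * (x + 3 * d)) - 2 * P * (x ^ 2 + 6 * x * d + 12 * d ^ 2), ?_⟩
        linear_combination e2
      have a2 := Nat.le_of_dvd (by omega) (Int.natAbs_dvd_natAbs.2 a1)
      by_cases z : 2 * P - Q = 0
      · have a3 : d * (3 * x ^ 2 + 12 * x * d + 8 * d ^ 2) = 0 := by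
          have : (Q : ℤ) = 2 * P := by linarith
          rw [this] at e2
          refine mul_left_cancel₀ n0 ?_
          linarith
        rcases mul_eq_zero.1 a3 with a4 | a4
        · omega
        · have a5 : d ∣ 3 := by
            refine (hc.symm.pow_right (n := 2)).dvd_of_dvd_mul_right
              ⟨-(12 * x + 8 * d), by linear_combination a4⟩
          have := Nat.le_of_dvd (by norm_num) (Int.natAbs_dvd_natAbs.2 a5)
          omega
      · have a3 : d ∣ 2 * P - Q := by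
          refine (hc.symm.pow_right (n := 3)).dvd_of_dvd_mul_right
            ⟨3 * Q * x ^ 2 - 2 * P * (6 * x ^ 2 + 12 * x * d + 8 * d ^ 2), ?_⟩
          linear_combination e2
        have := Nat.le_of_dvd (by omega) (Int.natAbs_dvd_natAbs.2 a3)
        omega
    · haveI := Fact.mk b1
      obtain ⟨v, k0, k1, k2, k3, v0, v1, v2, v3, hk⟩ := vals p b1 b2 b3 b4
      have w1 : padicValRat p t = 2 ^ j * (4 * k0 + 2 * k3 - 6 * k2) := by
        rw [ht, padicValRat.div (by positivity) (by positivity),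
          padicValRat.mul (by positivity) q3, padicValRat.mul (by norm_num) (by positivity),
          padicValRat.pow, padicValRat.pow, v, v0, v2, v3]
        push_cast; ring
      refine ⟨w1 ▸ ha'.mul_right _, ?_, fun hn => ?_⟩
      · rw [e1, padicValRat.div (by positivity) (by positivity),
          padicValRat.mul (by positivity) q1, padicValRat.mul (by norm_num) (by positivity),
          padicValRat.pow, padicValRat.pow, v, v1, v2]
        refine hb'.trans ⟨padicValRat p ((x + 4 * d : ℤ) : ℚ) + 2 ^ j * k1 - 3 * (2 ^ j * k2), ?_⟩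
        push_cast; ring
      · rw [w1] at hn ⊢
        rcases hk with rfl | ⟨rfl, rfl⟩
        · exact absurd hn (not_lt.2 (by simp; positivity))
        · exact hc''.trans ⟨-2 * k2, by push_cast; ring⟩
  · have hb' : (b : ℤ) ∣ 2 ^ j := by exact_mod_cast hb
    have hc'' : (c : ℤ) ∣ 2 ^ j := by exact_mod_cast hc'
    set t : ℚ := (x : ℚ) / (2 * ((x + d : ℤ) : ℚ)) with ht
    have e1 : 1 - t = ((x + 2 * d : ℤ) : ℚ) / (2 * ((x + d : ℤ) : ℚ)) := by
      rw [ht]; field_simp; push_cast; ring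
    have t0 : t ≠ 0 := by rw [ht]; positivity
    refine use t t0 (by rw [e1]; positivity) ?_ fun p b1 b2 b3 b4 => ?_
    · have e2 : 2 * t.num * (x + d) = t.den * x := by
        have h1 := Rat.mul_den_eq_num t
        have h2 : t * (2 * ((x + d : ℤ) : ℚ)) = (x : ℚ) := by rw [ht]; field_simp
        have : (2 * t.num * ((x + d : ℤ) : ℚ) : ℚ) = t.den * (x : ℚ) := by rw [← h1, ← h2]; ring
        exact_mod_cast this
      have n0 : t.num ≠ 0 := Rat.num_ne_zero.2 t0
      have d0 := t.den_pos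
      generalize t.num = P at *
      generalize t.den = Q at *
      have a1 : x ∣ 2 * P := hc.dvd_of_dvd_mul_right ⟨Q - 2 * P, by linear_combination e2⟩
      have a2 := Nat.le_of_dvd (by omega) (Int.natAbs_dvd_natAbs.2 a1)
      by_cases z : Q - 2 * P = 0
      · have a3 : 2 * P * d = 0 := by linear_combination e2 + x * z
        have : d = 0 := by simpa [n0] using a3
        omega
      · have a3 : d ∣ Q - 2 * P :=
          hc.symm.dvd_of_dvd_mul_right ⟨2 * P, by linear_combination -e2⟩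
        have := Nat.le_of_dvd (by omega) (Int.natAbs_dvd_natAbs.2 a3)
        omega
    · haveI := Fact.mk b1
      obtain ⟨v, k0, k1, k2, k3, v0, v1, v2, v3, hk⟩ := vals p b1 b2 b3 b4
      have w1 : padicValRat p t = 2 ^ j * (2 * k0 - 2 * k1) := by
        rw [ht, padicValRat.div q0 (by positivity), padicValRat.mul (by norm_num) q1, v, v0, v1]
        ring
      refine ⟨w1 ▸ ha'.mul_right _, ?_, fun _ => w1 ▸ hc''.mul_right _⟩
      rw [e1, padicValRat.div q2 (by positivity), padicValRat.mul (by norm_num) q1, v, v1, v2]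
      exact hb'.trans ⟨2 * k2 - 2 * k1, by ring⟩

theorem good_of_abc {k K : ℕ} (h : ∀ a b : ℕ, 0 < a → 0 < b → a.Coprime b →
    a + b ≤ K * (∏ p ∈ (a * b * (a + b)).primeFactors, p) ^ k) :
    ∃ (j κ : ℕ) (C : ℝ), ∀ s, Good (2 ^ j) κ C s := by
  obtain ⟨j, κ, C, h1⟩ := triples_of_abc h
  refine ⟨_, _, _, good_of_tri (j := j) (κ := κ) (C := |C|) dvd_rfl (Or.inr ⟨dvd_rfl, dvd_rfl⟩)
    fun t t0 t1 => (good_of_triples h1 t).trans ?_⟩
  refine mul_le_mul (le_abs_self C) (pow_le_pow_left₀ (by positivity) ?_ _) (by positivity)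
    (abs_nonneg C)
  have n1 : t.num.natAbs ≠ 0 := by simpa using t0
  have n2 : (t.den - t.num).natAbs ≠ 0 := by
    rw [← num_one_sub]; simpa using sub_ne_zero.2 t1.symm
  rw [Int.natAbs_mul, Int.natAbs_mul, Int.natAbs_natCast]
  exact_mod_cast (radN_mul_le _ (mul_ne_zero n1 n2) t.den_nz).trans
    (Nat.mul_le_mul_right _ (radN_mul_le _ n1 n2))

end Vale.Agent.P027Z
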