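import Vale.Agent.P027Z.Iface

/-! The kernel of reduction and the formal group to first order. -/

set_option linter.all false

namespace Vale.Agent.P027Z

open WeierstrassCurve WeierstrassCurve.Affine

variable {k : Type*} [Field k] [DecidableEq k]

/-- the relations satisfied by the slope, in both cases of the addition law -/
lemma slope_rel {d x₁ x₂ y₁ y₂ : k} (h₁ : (W d).Nonsingular x₁ y₁) (h₂ : (W d).Nonsingular x₂ y₂)
    (hxy : ¬ (x₁ = x₂ ∧ y₁ = (W d).negY x₂ y₂)) :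
    y₁ - y₂ = (W d).slope x₁ x₂ y₁ y₂ * (x₁ - x₂) ∧
    (W d).slope x₁ x₂ y₁ y₂ * (y₁ + y₂) = x₁ ^ 2 + x₁ * x₂ + x₂ ^ 2 - d := by
  have e₁ := ((W_nonsingular d _ _).1 h₁).1
  have e₂ := ((W_nonsingular d _ _).1 h₂).1
  by_cases hx : x₁ = x₂
  · subst hx
    have hy : y₁ ≠ (W d).negY x₁ y₂ := fun h => hxy ⟨rfl, h⟩
    have hy' : y₁ + y₂ ≠ 0 := by
      intro h; apply hy; rw [W_negY]; linear_combination h
    have hyy : y₁ = y₂ := by
      have : (y₁ - y₂) * (y₁ + y₂) = 0 := by linear_combination e₁ - e₂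
      rcases mul_eq_zero.1 this with h | h
      · linear_combination h
      · exact absurd h hy'
    subst hyy
    rw [slope_of_Y_ne rfl hy]
    simp only [W_a₁, W_a₂, W_a₄, W_negY]
    have h2 : y₁ - -y₁ ≠ 0 := by rwa [sub_neg_eq_add]
    refine ⟨by ring, ?_⟩
    rw [div_mul_eq_mul_div, div_eq_iff h2]
    ring
  · rw [slope_of_X_ne hx]
    have h2 : x₁ - x₂ ≠ 0 := sub_ne_zero.2 hx
    refine ⟨by field_simp, ?_⟩
    rw [div_mul_eq_mul_div, div_eq_iff h2]
    linear_combination e₁ - e₂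

section Val
variable (O : ValuationSubring k)

lemma not_mem_iff (x : k) : x ∉ O ↔ 1 < O.valuation x := by
  rw [← O.valuation_le_one_iff, not_le]

lemma y_mem {d x y : k} (hd : d ∈ O) (e : y ^ 2 = x ^ 3 - d * x) (hx : x ∈ O) : y ∈ O := by
  have h : y ^ 2 ∈ O := by
    rw [e]; exact O.sub_mem (O.pow_mem hx 3) (O.mul_mem _ _ hd hx)
  rw [← O.valuation_le_one_iff] at h ⊢
  rw [map_pow] at h
  exact (pow_le_one_iff (by norm_num)).1 h

lemma val_y {d x y : k} (hd : d ∈ O) (e : y ^ 2 = x ^ 3 - d * x) (hx : x ∉ O) :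
    O.valuation y ^ 2 = O.valuation x ^ 3 := by
  rw [not_mem_iff] at hx
  rw [← O.valuation_le_one_iff] at hd
  have h0 : 0 < O.valuation x := lt_trans zero_lt_one hx
  have h1 : O.valuation (d * x) < O.valuation (x ^ 3) := by
    rw [map_mul, map_pow]
    calc O.valuation d * O.valuation x ≤ 1 * O.valuation x := mul_le_mul_left hd _
      _ = O.valuation x ^ 1 := by simp
      _ < O.valuation x ^ 3 := pow_lt_pow_right₀ hx (by norm_num)
  rw [← map_pow, e, Valuation.map_sub_eq_of_lt_left _ h1, map_pow]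

/-- the values of the parameters `z = -x / y` and `w = -1 / y` -/
lemma val_zw {d x y : k} (hd : d ∈ O) (e : y ^ 2 = x ^ 3 - d * x) (hx : x ∉ O) :
    x ≠ 0 ∧ y ≠ 0 ∧ O.valuation (-x / y) < 1 ∧ O.valuation (-1 / y) = O.valuation (-x / y) ^ 3 := by
  have h := val_y O hd e hx
  have hx1 := (not_mem_iff O x).1 hx
  have h0 : 0 < O.valuation x := lt_trans zero_lt_one hx1
  have hy0 : O.valuation y ≠ 0 := by
    intro h1
    rw [h1, zero_pow (by norm_num)] at h
    exact (pow_ne_zero 3 h0.ne') h.symm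
  have hy : y ≠ 0 := fun h1 => hy0 (by rw [h1, map_zero])
  have hx0 : x ≠ 0 := fun h1 => h0.ne' (by rw [h1, map_zero])
  refine ⟨hx0, hy, ?_, ?_⟩
  · rw [map_div₀, Valuation.map_neg, div_lt_one₀ (zero_lt_iff.2 hy0)]
    refine lt_of_pow_lt_pow_left₀ 2 zero_le' ?_
    rw [h]
    exact pow_lt_pow_right₀ hx1 (by norm_num)
  · rw [map_div₀, map_div₀, Valuation.map_neg, Valuation.map_neg, map_one, div_pow, ← h]
    field_simp

/-- the addition law near the origin -/
lemma add_ker_aux {d x₁ x₂ y₁ y₂ l : k} (hd : d ∈ O) (e₁ : y₁ ^ 2 = x₁ ^ 3 - d * x₁)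
    (e₂ : y₂ ^ 2 = x₂ ^ 3 - d * x₂) (hx₁ : x₁ ∉ O) (hx₂ : x₂ ∉ O)
    (hl : y₁ - y₂ = l * (x₁ - x₂)) (hk : l * (y₁ + y₂) = x₁ ^ 2 + x₁ * x₂ + x₂ ^ 2 - d)
    {r : O.ValueGroup} (hr : r < 1) (h₁ : O.valuation (-x₁ / y₁) ≤ r)
    (h₂ : O.valuation (-x₂ / y₂) ≤ r) :
    l ^ 2 - x₁ - x₂ ∉ O ∧ O.valuation (-(l ^ 2 - x₁ - x₂) / -(l * (l ^ 2 - x₁ - x₂ - x₁) + y₁) -
      (-x₁ / y₁ + -x₂ / y₂)) ≤ r ^ 2 := by
  obtain ⟨a₁, b₁, c₁, w₁⟩ := val_zw O hd e₁ hx₁
  obtain ⟨a₂, b₂, c₂, w₂⟩ := val_zw O hd e₂ hx₂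
  have hd1 := (O.valuation_le_one_iff d).2 hd
  set z₁ := -x₁ / y₁ with hz₁
  set z₂ := -x₂ / y₂ with hz₂
  set u₁ := -1 / y₁ with hu₁
  set u₂ := -1 / y₂ with hu₂
  have r1 : r ≤ 1 := hr.le
  have r2 : r ^ 2 ≤ r := by
    calc r ^ 2 ≤ r ^ 1 := pow_le_pow_right_of_le_one' r1 (by norm_num)
      _ = r := pow_one r
  have r3 : r ^ 3 ≤ r := by
    calc r ^ 3 ≤ r ^ 1 := pow_le_pow_right_of_le_one' r1 (by norm_num)
      _ = r := pow_one r
  have g₁ : O.valuation u₁ ≤ r := by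
    rw [w₁]; exact le_trans (pow_le_pow_left' h₁ 3) r3
  have g₂ : O.valuation u₂ ≤ r := by
    rw [w₂]; exact le_trans (pow_le_pow_left' h₂ 3) r3
  -- the unit
  set U := 1 + d * z₁ * (u₁ + u₂) with hU
  have hU1 : O.valuation U = 1 := by
    refine Valuation.map_one_add_of_lt _ ?_
    rw [map_mul, map_mul]
    calc O.valuation d * O.valuation z₁ * O.valuation (u₁ + u₂) ≤ 1 * 1 * r :=
          mul_le_mul' (mul_le_mul' hd1 c₁.le) (Valuation.map_add_le _ g₁ g₂)
      _ = r := by simp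
      _ < 1 := hr
  have hU0 : U ≠ 0 := fun h => by rw [h, map_zero] at hU1; exact zero_ne_one hU1
  set N := z₁ ^ 2 + z₁ * z₂ + z₂ ^ 2 - d * u₂ ^ 2 with hN
  have hN2 : O.valuation N ≤ r ^ 2 := by
    refine Valuation.map_sub_le _ (Valuation.map_add_le _ (Valuation.map_add_le _ ?_ ?_) ?_) ?_
    · rw [map_pow]; exact pow_le_pow_left' h₁ 2
    · rw [map_mul, pow_two]; exact mul_le_mul' h₁ h₂
    · rw [map_pow]; exact pow_le_pow_left' h₂ 2
    · rw [map_mul, map_pow]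
      calc O.valuation d * O.valuation u₂ ^ 2 ≤ 1 * r ^ 2 := mul_le_mul' hd1 (pow_le_pow_left' g₂ 2)
        _ = r ^ 2 := one_mul _
  set n := y₁ - l * x₁ with hn
  have ey₁ : y₁ = l * x₁ + n := by rw [hn]; ring
  have ey₂ : y₂ = l * x₂ + n := by rw [hn]; linear_combination -hl
  have zy₁ : z₁ * y₁ = -x₁ := by rw [hz₁]; field_simp
  have zy₂ : z₂ * y₂ = -x₂ := by rw [hz₂]; field_simp
  have uy₁ : u₁ * y₁ = -1 := by rw [hu₁]; field_simp
  have uy₂ : u₂ * y₂ = -1 := by rw [hu₂]; field_simp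
  have cu₁ : u₁ = z₁ ^ 3 - d * z₁ * u₁ ^ 2 := by
    rw [hz₁, hu₁]; field_simp; linear_combination -e₁
  have cu₂ : u₂ = z₂ ^ 3 - d * z₂ * u₂ ^ 2 := by
    rw [hz₂, hu₂]; field_simp; linear_combination -e₂
  have li₁ : l * z₁ + n * u₁ = -1 := by
    rw [hz₁, hu₁]; field_simp; linear_combination ey₁
  have li₂ : l * z₂ + n * u₂ = -1 := by
    rw [hz₂, hu₂]; field_simp; linear_combination ey₂
  have hUN : (u₁ - u₂) * U = (z₁ - z₂) * N := by
    rw [hU, hN]; linear_combination cu₁ - cu₂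
  -- `N n = - l U`
  have key : N * n = -l * U := by
    by_cases hz : z₁ = z₂
    · have hu : u₁ = u₂ := by
        rw [hz, sub_self, zero_mul] at hUN
        rcases mul_eq_zero.1 hUN with h | h
        · exact sub_eq_zero.1 h
        · exact absurd h hU0
      have hy : y₁ = y₂ := by
        have : u₁ ≠ 0 := by
          intro h; rw [h, zero_mul] at uy₁; exact one_ne_zero (neg_eq_zero.1 uy₁.symm)
        apply mul_left_cancel₀ this
        rw [uy₁, hu, uy₂]
      have hx : x₁ = x₂ := by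
        have := zy₁
        rw [hz, hy, zy₂] at this
        exact (neg_inj.1 this).symm
      rw [hN, hU, ← hz, ← hu, hz₁, hu₁, hn]
      rw [← hx, ← hy] at hk
      field_simp
      linear_combination (-(y₁ - l * x₁)) * hk + l * 3 * e₁ - l * x₁ * hk
    · apply mul_left_cancel₀ (sub_ne_zero.2 hz)
      linear_combination (-n) * hUN + U * li₁ - U * li₂
  have hn0 : n ≠ 0 := by
    intro h
    rw [h, mul_zero] at key
    have hl0 : l = 0 := by
      rcases mul_eq_zero.1 key.symm with h' | h'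
      · exact neg_eq_zero.1 h'
      · exact absurd h' hU0
    rw [h, hl0] at li₁
    norm_num at li₁
  set lam := -l / n with hlam
  set nu := -1 / n with hnu
  have hlamN : lam = N / U := by
    rw [hlam, div_eq_div_iff hn0 hU0]; linear_combination -key
  have vlam : O.valuation lam ≤ r ^ 2 := by
    rw [hlamN, map_div₀, hU1, div_one]; exact hN2
  have hnu' : nu = u₁ - lam * z₁ := by
    rw [hlam, hnu]; field_simp; linear_combination -li₁
  have vnu : O.valuation nu ≤ r := by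
    rw [hnu']
    refine Valuation.map_sub_le _ g₁ ?_
    rw [map_mul]
    calc O.valuation lam * O.valuation z₁ ≤ r * 1 := mul_le_mul' (le_trans vlam r2) c₁.le
      _ = r := mul_one r
  set x₃ := l ^ 2 - x₁ - x₂ with hx₃
  set Y := l * x₃ + n with hY
  have hYY : l * (x₃ - x₁) + y₁ = Y := by rw [hY, hn]; ring
  rw [hYY, neg_div_neg_eq]
  have s2 : x₁ * x₂ + x₃ * (x₁ + x₂) = -d - 2 * l * n := by
    rw [hx₃]; linear_combination hk - l * ey₁ - l * ey₂
  have s3 : x₁ * x₂ * x₃ = n ^ 2 := by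
    have := e₁
    rw [ey₁] at this
    linear_combination x₁ * s2 - this - x₁ ^ 2 * hx₃
  have s1 : x₁ + x₂ + x₃ = l ^ 2 := by rw [hx₃]; ring
  set V := 1 - d * lam ^ 2 with hV
  have hV1 : O.valuation V = 1 := by
    refine Valuation.map_one_sub_of_lt _ ?_
    rw [map_mul, map_pow]
    calc O.valuation d * O.valuation lam ^ 2 ≤ 1 * r ^ 2 :=
          mul_le_mul' hd1 (pow_le_pow_left' (le_trans vlam r2) 2)
      _ = r ^ 2 := one_mul _
      _ ≤ r := r2
      _ < 1 := hr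
  have hV0 : V ≠ 0 := fun h => by rw [h, map_zero] at hV1; exact zero_ne_one hV1
  have p1 : y₁ * y₂ * Y = n ^ 3 * V := by
    have : n ^ 3 * V = n ^ 3 - d * l ^ 2 * n := by rw [hV, hlam]; field_simp
    rw [this, hY, ey₁, ey₂]
    linear_combination l ^ 3 * s3 + l ^ 2 * n * s2 + l * n ^ 2 * s1
  have hY0 : Y ≠ 0 := by
    intro h
    rw [h, mul_zero] at p1
    exact mul_ne_zero (pow_ne_zero 3 hn0) hV0 p1.symm
  have p2 : x₃ * y₁ * y₂ + x₁ * y₂ * Y + x₂ * y₁ * Y = -2 * d * l * n := by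
    rw [hY, ey₁, ey₂]
    linear_combination 3 * l ^ 2 * s3 + 2 * l * n * s2 + n ^ 2 * s1
  have p3 : x₃ / Y - (z₁ + z₂) = -(2 * d * lam * nu) / V := by
    have q1 : x₃ / Y - (z₁ + z₂) = (x₃ * y₁ * y₂ + x₁ * y₂ * Y + x₂ * y₁ * Y) / (y₁ * y₂ * Y) := by
      rw [hz₁, hz₂]; field_simp; ring
    rw [q1, p1, p2, hlam, hnu]
    field_simp
  have v3 : O.valuation (x₃ / Y - (z₁ + z₂)) ≤ r ^ 2 := by
    rw [p3, map_div₀, hV1, div_one, Valuation.map_neg, map_mul, map_mul, map_mul]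
    have h2 : O.valuation (2 : k) ≤ 1 := (O.valuation_le_one_iff 2).2 (ofNat_mem O 2)
    calc O.valuation 2 * O.valuation d * O.valuation lam * O.valuation nu ≤ 1 * 1 * r ^ 2 * 1 :=
          mul_le_mul' (mul_le_mul' (mul_le_mul' h2 hd1) vlam) (le_trans vnu r1)
      _ = r ^ 2 := by simp
  refine ⟨?_, v3⟩
  have v4 : O.valuation (x₃ / Y) ≤ r := by
    have : x₃ / Y = (x₃ / Y - (z₁ + z₂)) + (z₁ + z₂) := by ring
    rw [this]
    exact Valuation.map_add_le _ (le_trans v3 r2) (Valuation.map_add_le _ h₁ h₂)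
  have p4 : Y⁻¹ = lam * (x₃ / Y) - nu := by
    rw [hlam, hnu]; field_simp; linear_combination -hY
  have v5 : O.valuation Y⁻¹ < 1 := by
    rw [p4]
    refine lt_of_le_of_lt (Valuation.map_sub_le _ ?_ vnu) hr
    rw [map_mul]
    calc O.valuation lam * O.valuation (x₃ / Y) ≤ 1 * r :=
          mul_le_mul' (le_trans vlam (le_trans r2 r1)) v4
      _ = r := one_mul r
  intro hx₃O
  have eY : Y ^ 2 = x₃ ^ 3 - d * x₃ := by
    rw [hY]
    linear_combination (-x₃ ^ 2) * s1 + x₃ * s2 - s3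
  have hYO := (O.valuation_le_one_iff Y).2 (y_mem O hd eY hx₃O)
  have : O.valuation (Y * Y⁻¹) < 1 := by
    rw [map_mul]
    calc O.valuation Y * O.valuation Y⁻¹ ≤ 1 * O.valuation Y⁻¹ := mul_le_mul_left hYO _
      _ = O.valuation Y⁻¹ := one_mul _
      _ < 1 := v5
  rw [mul_inv_cancel₀ hY0, map_one] at this
  exact lt_irrefl _ this

lemma ker_some {d x y : k} {h : (W d).Nonsingular x y} : Ker O (.some x y h) ↔ x ∉ O :=
  ⟨fun h' => h'.resolve_left (Point.some_ne_zero _), fun h' => Or.inr h'⟩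

lemma ker_zero {d : k} : Ker O (0 : (W d).Point) := Or.inl rfl

lemma ker_neg {d : k} {P : (W d).Point} : Ker O (-P) ↔ Ker O P := by
  unfold Ker; rw [neg_eq_zero, xc_neg]

lemma zc_neg {d : k} (P : (W d).Point) : zc (-P) = -zc P := by
  rw [zc, zc, xc_neg, yc_neg, div_neg]

lemma ker_val {d : k} (hd : d ∈ O) {P : (W d).Point} (hP : Ker O P) :
    O.valuation (zc P) < 1 ∧ (P ≠ 0 → zc P ≠ 0) := by
  rcases P with _ | ⟨x, y, h⟩
  · refine ⟨?_, fun h => absurd rfl h⟩
    show O.valuation (zc (0 : (W d).Point)) < 1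
    rw [zc_zero, map_zero]; exact zero_lt_one
  · obtain ⟨a, b, c, -⟩ := val_zw O hd ((W_nonsingular d _ _).1 h).1 ((ker_some O).1 hP)
    exact ⟨c, fun _ => div_ne_zero (neg_ne_zero.2 a) b⟩

/-- the kernel of reduction is closed under addition, and `z` is additive to first order -/
lemma ker_add {d : k} (hd : d ∈ O) {P Q : (W d).Point} (hP : Ker O P) (hQ : Ker O Q)
    {r : O.ValueGroup} (hr : r < 1) (h₁ : O.valuation (zc P) ≤ r) (h₂ : O.valuation (zc Q) ≤ r) :
    Ker O (P + Q) ∧ O.valuation (zc (P + Q) - (zc P + zc Q)) ≤ r ^ 2 := by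
  rcases P with _ | ⟨x₁, y₁, n₁⟩
  · have e : (Point.zero : (W d).Point) = 0 := rfl
    rw [e, zero_add, zc_zero, zero_add, sub_self, map_zero]
    exact ⟨hQ, zero_le'⟩
  rcases Q with _ | ⟨x₂, y₂, n₂⟩
  · have e : (Point.zero : (W d).Point) = 0 := rfl
    rw [e, add_zero, zc_zero, add_zero, sub_self, map_zero]
    exact ⟨hP, zero_le'⟩
  by_cases hxy : x₁ = x₂ ∧ y₁ = (W d).negY x₂ y₂
  · rw [Point.add_of_Y_eq hxy.1 hxy.2]
    refine ⟨ker_zero O, ?_⟩
    have : zc (0 : (W d).Point) - (zc (.some x₁ y₁ n₁) + zc (.some x₂ y₂ n₂)) = 0 := by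
      rw [zc_zero, zc, zc, xc_some, yc_some, xc_some, yc_some, hxy.1, hxy.2, W_negY, div_neg]
      ring
    rw [this, map_zero]
    exact zero_le'
  · obtain ⟨hl, hk⟩ := slope_rel n₁ n₂ hxy
    have := add_ker_aux O hd ((W_nonsingular d _ _).1 n₁).1 ((W_nonsingular d _ _).1 n₂).1
      ((ker_some O).1 hP) ((ker_some O).1 hQ) hl hk hr h₁ h₂
    rw [Point.add_some hxy, ker_some]
    simp only [zc, xc_some, yc_some, W_addX, W_addY]
    exact this

lemma ker_add' {d : k} (hd : d ∈ O) {P Q : (W d).Point} (hP : Ker O P) (hQ : Ker O Q) :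
    Ker O (P + Q) :=
  (ker_add O hd hP hQ (max_lt (ker_val O hd hP).1 (ker_val O hd hQ).1) (le_max_left _ _)
    (le_max_right _ _)).1

/-- `P` lies in the kernel and its parameter is `β z` to first order -/
def FO (z : k) {d : k} (P : (W d).Point) (β : k) : Prop :=
  β ∈ O ∧ Ker O P ∧ O.valuation (zc P - β * z) ≤ O.valuation z ^ 2

variable {O}

lemma FO.le {z d : k} (hz : O.valuation z < 1) {P : (W d).Point} {β : k} (h : FO O z P β) :
    O.valuation (zc P) ≤ O.valuation z := by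
  have e : zc P = (zc P - β * z) + β * z := by ring
  rw [e]
  refine Valuation.map_add_le _ (le_trans h.2.2 ?_) ?_
  · calc O.valuation z ^ 2 ≤ O.valuation z ^ 1 := pow_le_pow_right_of_le_one' hz.le (by norm_num)
      _ = O.valuation z := pow_one _
  · rw [map_mul]
    calc O.valuation β * O.valuation z ≤ 1 * O.valuation z :=
          mul_le_mul_left ((O.valuation_le_one_iff β).2 h.1) _
      _ = O.valuation z := one_mul _

lemma FO.zero (z d : k) : FO O z (0 : (W d).Point) 0 := by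
  refine ⟨O.zero_mem, ker_zero O, ?_⟩
  rw [zc_zero, zero_mul, sub_self, map_zero]
  exact zero_le'

lemma FO.add {z d : k} (hd : d ∈ O) (hz : O.valuation z < 1) {P Q : (W d).Point} {β γ : k}
    (h : FO O z P β) (h' : FO O z Q γ) : FO O z (P + Q) (β + γ) := by
  obtain ⟨a, b⟩ := ker_add O hd h.2.1 h'.2.1 hz (h.le hz) (h'.le hz)
  refine ⟨O.add_mem _ _ h.1 h'.1, a, ?_⟩
  have e : zc (P + Q) - (β + γ) * z =
      (zc (P + Q) - (zc P + zc Q)) + ((zc P - β * z) + (zc Q - γ * z)) := by ring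
  rw [e]
  exact Valuation.map_add_le _ b (Valuation.map_add_le _ h.2.2 h'.2.2)

lemma FO.neg {z d : k} {P : (W d).Point} {β : k} (h : FO O z P β) : FO O z (-P) (-β) := by
  refine ⟨O.neg_mem _ h.1, (ker_neg O).2 h.2.1, ?_⟩
  have e : zc (-P) - -β * z = -(zc P - β * z) := by rw [zc_neg]; ring
  rw [e, Valuation.map_neg]
  exact h.2.2

lemma FO.zsmul {z d : k} (hd : d ∈ O) (hz : O.valuation z < 1) {P : (W d).Point} {β : k}
    (h : FO O z P β) (n : ℤ) : FO O z (n • P) (n * β) := by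
  induction n using Int.induction_on with
  | zero => simpa using FO.zero z d
  | succ n ih =>
    have := ih.add hd hz h
    rw [add_smul, one_smul]
    convert this using 1
    push_cast; ring
  | pred n ih =>
    have := ih.add hd hz h.neg
    rw [sub_smul, one_smul, sub_eq_add_neg]
    convert this using 1
    push_cast; ring

lemma i_val {i : k} (hi : i ^ 2 = -1) : O.valuation i = 1 := by
  have : O.valuation i ^ 2 = 1 := by rw [← map_pow, hi, Valuation.map_neg, map_one]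
  exact (pow_eq_one_iff_of_nonneg zero_le' (by norm_num)).1 this

lemma FO.J {z d i : k} (hi : i ^ 2 = -1) {P : (W d).Point} {β : k} (h : FO O z P β) :
    FO O z (J hi P) (i * β) := by
  refine ⟨O.mul_mem _ _ ((O.valuation_le_one_iff i).1 (i_val hi).le) h.1, ?_, ?_⟩
  · rcases h.2.1 with h0 | h0
    · exact Or.inl ((J_eq_zero hi P).2 h0)
    · right
      rw [xc_J]
      exact fun h1 => h0 (by simpa using O.neg_mem _ h1)
  · have e : zc (Vale.Agent.P027Z.J hi P) - i * β * z = i * (zc P - β * z) := by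
      rw [zc_J]; ring
    rw [e, map_mul, i_val hi, one_mul]
    exact h.2.2

end Val

theorem a3 : A3 := by
  intro k _ _ O d i hi hd Q hQ
  obtain ⟨hz, hz0⟩ := ker_val O hd hQ
  refine ⟨(O.mem_nonunits_iff).2 hz, hz0, fun a => ?_⟩
  have h1 : FO O (zc Q) Q 1 := by
    refine ⟨O.one_mem, hQ, ?_⟩
    rw [one_mul, sub_self, map_zero]
    exact zero_le'
  have h2 := (h1.zsmul hd hz a.re).add hd hz ((h1.J hi).zsmul hd hz a.im)
  have e : (a.re : k) * 1 + (a.im : k) * (i * 1) = gv i a := by rw [gv]; ring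
  rw [e] at h2
  obtain ⟨-, h3, h4⟩ := h2
  refine ⟨h3, ?_⟩
  change O.valuation (zc (gs hi a Q) - gv i a * zc Q) ≤ _ at h4
  by_cases h0 : zc Q = 0
  · refine ⟨0, O.zero_mem, ?_⟩
    rw [h0, map_zero, zero_pow (by norm_num), le_zero_iff, map_eq_zero] at h4
    rw [h0]
    linear_combination h4
  · refine ⟨(zc (gs hi a Q) - gv i a * zc Q) / zc Q ^ 2, ?_, ?_⟩
    · rw [← O.valuation_le_one_iff, map_div₀, map_pow]
      exact div_le_one_of_le₀ h4 zero_le'
    · field_simp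
      ring

end Vale.Agent.P027Z
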