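import Vale.Agent.P027Z.Iface

/-! Compactness: from embeddings into ultrapowers to existential definitions. -/

set_option linter.all false

namespace Vale.Agent.P027Z

open Filter MvPolynomial

open Classical in
/-- the sum of the squares of the equations of the diagram of a finite family -/
noncomputable def diag {m : ℕ} (f : Fin m → ℤ → ℚ) : MvPolynomial (Option (Fin m)) ℤ :=
  (∑ i, if f i = (fun n : ℤ => (n : ℚ)) then (X none - X (some i)) ^ 2 else 0) +
  (∑ i, if f i = 1 then (X (some i) - 1) ^ 2 else 0) +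
  (∑ i, ∑ j, ∑ k, if f i + f j = f k then (X (some i) + X (some j) - X (some k)) ^ 2 else 0) +
  (∑ i, ∑ j, ∑ k, if f i * f j = f k then (X (some i) * X (some j) - X (some k)) ^ 2 else 0)

open Classical in
lemma aeval_diag {m : ℕ} (f : Fin m → ℤ → ℚ) (x : ℚ) (y : Fin m → ℚ) :
    aeval (fun o : Option (Fin m) => o.elim x y) (diag f) =
    (∑ i, if f i = (fun n : ℤ => (n : ℚ)) then (x - y i) ^ 2 else 0) +
    (∑ i, if f i = 1 then (y i - 1) ^ 2 else 0) +
    (∑ i, ∑ j, ∑ k, if f i + f j = f k then (y i + y j - y k) ^ 2 else 0) +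
    (∑ i, ∑ j, ∑ k, if f i * f j = f k then (y i * y j - y k) ^ 2 else 0) := by
  simp only [diag, map_add, map_sum, apply_ite (aeval (fun o : Option (Fin m) => o.elim x y)),
    map_pow, map_sub, map_mul, map_one, map_zero, aeval_X, Option.elim_none, Option.elim_some]

lemma ite_sq_nonneg (P : Prop) [Decidable P] (a : ℚ) : 0 ≤ if P then a ^ 2 else 0 := by
  split_ifs
  · positivity
  · exact le_rfl

lemma ite_sq_zero {P : Prop} [Decidable P] {a : ℚ} (h : (if P then a ^ 2 else 0) = 0) (hP : P) :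
    a = 0 := by
  rw [if_pos hP] at h
  exact pow_eq_zero_iff (by norm_num) |>.1 h

lemma diag_zero {m : ℕ} (f : Fin m → ℤ → ℚ) (x : ℚ) (y : Fin m → ℚ)
    (h : aeval (fun o : Option (Fin m) => o.elim x y) (diag f) = 0) :
    (∀ i, f i = (fun n : ℤ => (n : ℚ)) → y i = x) ∧ (∀ i, f i = 1 → y i = 1) ∧
    (∀ i j k, f i + f j = f k → y k = y i + y j) ∧
    (∀ i j k, f i * f j = f k → y k = y i * y j) := by
  classical
  rw [aeval_diag] at h
  have n1 : ∀ i, 0 ≤ (if f i = (fun n : ℤ => (n : ℚ)) then (x - y i) ^ 2 else 0) :=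
    fun i => ite_sq_nonneg _ _
  have n2 : ∀ i, 0 ≤ (if f i = 1 then (y i - 1) ^ 2 else 0) := fun i => ite_sq_nonneg _ _
  have n3 : ∀ i j k, 0 ≤ (if f i + f j = f k then (y i + y j - y k) ^ 2 else 0) :=
    fun i j k => ite_sq_nonneg _ _
  have n4 : ∀ i j k, 0 ≤ (if f i * f j = f k then (y i * y j - y k) ^ 2 else 0) :=
    fun i j k => ite_sq_nonneg _ _
  have s1 := Finset.sum_nonneg (s := Finset.univ) (fun i _ => n1 i)
  have s2 := Finset.sum_nonneg (s := Finset.univ) (fun i _ => n2 i)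
  have t3 : ∀ i j, 0 ≤ ∑ k, (if f i + f j = f k then (y i + y j - y k) ^ 2 else 0) :=
    fun i j => Finset.sum_nonneg (fun k _ => n3 i j k)
  have t4 : ∀ i j, 0 ≤ ∑ k, (if f i * f j = f k then (y i * y j - y k) ^ 2 else 0) :=
    fun i j => Finset.sum_nonneg (fun k _ => n4 i j k)
  have u3 := fun i => Finset.sum_nonneg (s := Finset.univ) (fun j _ => t3 i j)
  have u4 := fun i => Finset.sum_nonneg (s := Finset.univ) (fun j _ => t4 i j)
  have s3 := Finset.sum_nonneg (s := Finset.univ) (fun i _ => u3 i)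
  have s4 := Finset.sum_nonneg (s := Finset.univ) (fun i _ => u4 i)
  have z1 := (Finset.sum_eq_zero_iff_of_nonneg (fun i _ => n1 i)).1 (le_antisymm (by linarith) s1)
  have z2 := (Finset.sum_eq_zero_iff_of_nonneg (fun i _ => n2 i)).1 (le_antisymm (by linarith) s2)
  have z3 := (Finset.sum_eq_zero_iff_of_nonneg (fun i _ => u3 i)).1 (le_antisymm (by linarith) s3)
  have z4 := (Finset.sum_eq_zero_iff_of_nonneg (fun i _ => u4 i)).1 (le_antisymm (by linarith) s4)
  refine ⟨fun i hi => ?_, fun i hi => ?_, fun i j k hi => ?_, fun i j k hi => ?_⟩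
  · have := ite_sq_zero (z1 i (Finset.mem_univ _)) hi; linarith
  · have := ite_sq_zero (z2 i (Finset.mem_univ _)) hi; linarith
  · have a := (Finset.sum_eq_zero_iff_of_nonneg (fun j _ => t3 i j)).1 (z3 i (Finset.mem_univ _))
      j (Finset.mem_univ _)
    have b := (Finset.sum_eq_zero_iff_of_nonneg (fun k _ => n3 i j k)).1 a k (Finset.mem_univ _)
    have := ite_sq_zero b hi; linarith
  · have a := (Finset.sum_eq_zero_iff_of_nonneg (fun j _ => t4 i j)).1 (z4 i (Finset.mem_univ _))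
      j (Finset.mem_univ _)
    have b := (Finset.sum_eq_zero_iff_of_nonneg (fun k _ => n4 i j k)).1 a k (Finset.mem_univ _)
    have := ite_sq_zero b hi; linarith

lemma diag_int {m : ℕ} (f : Fin m → ℤ → ℚ) (n : ℤ) :
    aeval (fun o : Option (Fin m) => o.elim (n : ℚ) (fun i => f i n)) (diag f) = 0 := by
  classical
  rw [aeval_diag]
  have e1 : ∀ i, (if f i = (fun n : ℤ => (n : ℚ)) then ((n : ℚ) - f i n) ^ 2 else 0) = 0 := by
    intro i; split_ifs with h
    · rw [h]; simp
    · rfl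
  have e2 : ∀ i, (if f i = 1 then (f i n - 1) ^ 2 else 0) = 0 := by
    intro i; split_ifs with h
    · rw [h]; simp
    · rfl
  have e3 : ∀ i j k, (if f i + f j = f k then (f i n + f j n - f k n) ^ 2 else 0) = 0 := by
    intro i j k; split_ifs with h
    · rw [← h]; simp
    · rfl
  have e4 : ∀ i j k, (if f i * f j = f k then (f i n * f j n - f k n) ^ 2 else 0) = 0 := by
    intro i j k; split_ifs with h
    · rw [← h]; simp
    · rfl
  simp only [e1, e2, e3, e4, Finset.sum_const_zero, add_zero]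

theorem crit : Crit := by
  classical
  intro G A H
  by_contra hno
  have key : ∀ T : Finset (ℤ → ℚ), ∃ Y : (ℤ → ℚ) → ℚ,
      ((fun n : ℤ => (n : ℚ)) ∈ T → Y (fun n : ℤ => (n : ℚ)) ∉ A) ∧ (1 ∈ T → Y 1 = 1) ∧
      (∀ a ∈ T, ∀ b ∈ T, a + b ∈ T → Y (a + b) = Y a + Y b) ∧
      (∀ a ∈ T, ∀ b ∈ T, a * b ∈ T → Y (a * b) = Y a * Y b) ∧
      (∀ a ∈ T, (∀ n, a n ∈ G) → Y a ∈ G) := by
    intro T
    let f : Fin T.card → ℤ → ℚ := fun i => (T.equivFin.symm i).1
    have hf : ∀ a (ha : a ∈ T), f (T.equivFin ⟨a, ha⟩) = a := fun a ha => by simp [f]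
    by_contra hT
    apply hno
    refine ⟨T.card, Finset.univ.filter (fun i => ∀ n, f i n ∈ G), diag f, fun n =>
      ⟨fun i => f i n, fun i hi => (Finset.mem_filter.1 hi).2 n, diag_int f n⟩, ?_⟩
    intro x y hG h0
    by_contra hx
    obtain ⟨d1, d2, d3, d4⟩ := diag_zero f x y h0
    apply hT
    refine ⟨fun a => if ha : a ∈ T then y (T.equivFin ⟨a, ha⟩) else 0, ?_, ?_, ?_, ?_, ?_⟩
    · intro h
      simp only [dif_pos h]
      rw [d1 _ (hf _ h)]; exact hx
    · intro h
      simp only [dif_pos h]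
      exact d2 _ (hf _ h)
    · intro a ha b hb hab
      simp only [dif_pos ha, dif_pos hb, dif_pos hab]
      exact d3 _ _ _ (by rw [hf, hf, hf])
    · intro a ha b hb hab
      simp only [dif_pos ha, dif_pos hb, dif_pos hab]
      exact d4 _ _ _ (by rw [hf, hf, hf])
    · intro a ha hG'
      simp only [dif_pos ha]
      exact hG _ (Finset.mem_filter.2 ⟨Finset.mem_univ _, by rw [hf]; exact hG'⟩)
  choose Y y1 y2 y3 y4 y5 using key
  let U : Ultrafilter (Finset (ℤ → ℚ)) := Ultrafilter.of atTop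
  have hU : ∀ a : ℤ → ℚ, ∀ᶠ T in (U : Filter (Finset (ℤ → ℚ))), a ∈ T := fun a =>
    (Ultrafilter.of_le atTop) ((eventually_ge_atTop ({a} : Finset (ℤ → ℚ))).mono
      fun T hT => hT (Finset.mem_singleton_self a))
  have hadd : ∀ a b : ℤ → ℚ, ((fun T => Y T (a + b) : Finset (ℤ → ℚ) → ℚ) :
      Germ (U : Filter (Finset (ℤ → ℚ))) ℚ) = (fun T => Y T a : Finset (ℤ → ℚ) → ℚ) +
        (fun T => Y T b : Finset (ℤ → ℚ) → ℚ) := by
    intro a b
    rw [← Germ.coe_add, Germ.coe_eq]
    filter_upwards [hU a, hU b, hU (a + b)] with T h1 h2 h3 using y3 T a h1 b h2 h3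
  let θ : (ℤ → ℚ) →+* Germ (U : Filter (Finset (ℤ → ℚ))) ℚ :=
    { toFun := fun a => ((fun T => Y T a : Finset (ℤ → ℚ) → ℚ) : Germ (U : Filter (Finset (ℤ → ℚ))) ℚ)
      map_one' := by
        rw [← Germ.coe_one, Germ.coe_eq]
        filter_upwards [hU 1] with T h1 using y2 T h1
      map_mul' := fun a b => by
        rw [← Germ.coe_mul, Germ.coe_eq]
        filter_upwards [hU a, hU b, hU (a * b)] with T h1 h2 h3 using y4 T a h1 b h2 h3
      map_zero' := by
        have := hadd 0 0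
        rw [add_zero] at this
        exact left_eq_add.1 this
      map_add' := hadd }
  have h := H _ U θ (fun a ha => by
    show Germ.LiftPred (· ∈ G) ((fun T => Y T a : Finset (ℤ → ℚ) → ℚ) : Germ (U : Filter (Finset (ℤ → ℚ))) ℚ)
    rw [Germ.liftPred_coe]
    filter_upwards [hU a] with T h1 using y5 T a h1 ha)
  change Germ.LiftPred (· ∈ A) ((fun T => Y T (fun n : ℤ => (n : ℚ)) : Finset (ℤ → ℚ) → ℚ) :
    Germ (U : Filter (Finset (ℤ → ℚ))) ℚ) at h
  rw [Germ.liftPred_coe] at h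
  obtain ⟨T, h1, h2⟩ := (h.and (hU (fun n : ℤ => (n : ℚ)))).exists
  exact y1 T h2 h1

end Vale.Agent.P027Z
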