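import Vale.Agent.P027Z.Par
import Vale.Agent.P027Z.Crit
import Vale.Agent.P027.Bdl.B1

/-! Diophantine sets between the integers and the numbers whose denominators are powers. -/

set_option linter.all false

namespace Vale.Agent.P027Z

open Filter

/-- the valuation ring of an ultrapower given by a family of primes -/
noncomputable def germVal {J : Type} (U : Ultrafilter J) (p : J → ℕ) (hp : ∀ k, (p k).Prime) :
    ValuationSubring (Germ (U : Filter J) ℚ) where
  carrier := {x | ∃ f : J → ℚ, (f : Germ (U : Filter J) ℚ) = x ∧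
    ∀ᶠ k in (U : Filter J), padicNorm (p k) (f k) ≤ 1}
  mul_mem' := by
    rintro _ _ ⟨f, rfl, hf⟩ ⟨g, rfl, hg⟩
    refine ⟨f * g, rfl, ?_⟩
    filter_upwards [hf, hg] with k h1 h2
    haveI := Fact.mk (hp k)
    rw [Pi.mul_apply, padicNorm.mul]
    exact mul_le_one₀ h1 (padicNorm.nonneg _) h2
  one_mem' := ⟨1, rfl, Eventually.of_forall fun k => by simp⟩
  add_mem' := by
    rintro _ _ ⟨f, rfl, hf⟩ ⟨g, rfl, hg⟩
    refine ⟨f + g, rfl, ?_⟩
    filter_upwards [hf, hg] with k h1 h2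
    haveI := Fact.mk (hp k)
    exact padicNorm.nonarchimedean.trans (max_le h1 h2)
  zero_mem' := ⟨0, rfl, Eventually.of_forall fun k => by simp⟩
  neg_mem' := by
    rintro _ ⟨f, rfl, hf⟩
    refine ⟨-f, rfl, ?_⟩
    filter_upwards [hf] with k h1
    simpa using h1
  mem_or_inv_mem' := by
    intro x
    induction x using Germ.inductionOn with
    | _ f =>
    rcases U.em (fun k => padicNorm (p k) (f k) ≤ 1) with h | h
    · exact Or.inl ⟨f, rfl, h⟩
    · refine Or.inr ⟨f⁻¹, rfl, ?_⟩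
      filter_upwards [h] with k h1
      haveI := Fact.mk (hp k)
      have : padicNorm (p k) (f k)⁻¹ = (padicNorm (p k) (f k))⁻¹ := by
        simpa using padicNorm.div (p := p k) 1 (f k)
      rw [Pi.inv_apply, this]
      exact inv_le_one_of_one_le₀ (not_le.1 h1).le

lemma mem_germVal {J : Type} (U : Ultrafilter J) (p : J → ℕ) (hp : ∀ k, (p k).Prime) (f : J → ℚ) :
    (f : Germ (U : Filter J) ℚ) ∈ germVal U p hp ↔
      ∀ᶠ k in (U : Filter J), padicNorm (p k) (f k) ≤ 1 := by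
  constructor
  · rintro ⟨g, e, hg⟩
    filter_upwards [hg, Germ.coe_eq.1 e] with k h1 h2
    rwa [← h2]
  · exact fun h => ⟨f, rfl, h⟩

lemma not_nonunit {F : Type*} [Field F] (O : ValuationSubring F) {x : F} (h0 : x ≠ 0)
    (h : x⁻¹ ∈ O) : x ∉ O.nonunits := by
  rw [ValuationSubring.mem_nonunits_iff, not_lt]
  rw [← O.valuation_le_one_iff, map_inv₀] at h
  exact (inv_le_one₀ (zero_lt_iff.2 ((Valuation.ne_zero_iff _).2 h0))).1 h

lemma den_pow_of_val {x : ℚ} {n : ℕ}
    (h : ∀ p : ℕ, p.Prime → padicValRat p x < 0 → (n : ℤ) ∣ padicValRat p x) :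
    ∃ b : ℕ, x.den = b ^ n := by
  have key : ∀ p, n ∣ x.den.factorization p := by
    intro p
    by_cases hp : p.Prime
    · haveI := Fact.mk hp
      by_cases hd : p ∣ x.den
      · have h1 : ¬ (p : ℤ) ∣ x.num := fun h2 => by
          have := Nat.dvd_gcd (Int.natCast_dvd.1 h2) hd
          rw [x.reduced] at this
          exact hp.one_lt.ne' (Nat.dvd_one.1 this)
        have h2 : padicValRat p x = -(padicValNat p x.den : ℤ) := by
          rw [padicValRat_def, padicValInt.eq_zero_of_not_dvd h1]; simp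
        have h3 : 0 < padicValNat p x.den := one_le_padicValNat_of_dvd x.den_nz hd
        have := h p hp (by rw [h2]; omega)
        rw [h2, dvd_neg] at this
        rw [Nat.factorization_def _ hp]
        exact_mod_cast this
      · rw [Nat.factorization_eq_zero_of_not_dvd hd]; exact dvd_zero _
    · rw [Nat.factorization_eq_zero_of_not_prime _ hp]; exact dvd_zero _
  refine ⟨x.den.factorization.prod (fun p e => p ^ (e / n)), ?_⟩
  conv_lhs => rw [← Nat.prod_factorization_pow_eq_self x.den_nz]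
  rw [Finsupp.prod, Finsupp.prod, ← Finset.prod_pow]
  refine Finset.prod_congr rfl fun p _ => ?_
  rw [← pow_mul, Nat.div_mul_cancel (key p)]

lemma germ_two {J : Type} (U : Ultrafilter J) (θ : (ℤ → ℚ) →+* Germ (U : Filter J) ℚ)
    (t : ℤ → ℤ) (f : J → ℚ) (hf : θ (fun n => t n) = f) :
    ∀ᶠ k in (U : Filter J), 0 ≤ padicValRat 2 (f k) := by
  have h : ∀ n : ℤ, ∃ a b c : ℚ, 7 * (t n : ℚ) ^ 2 + 2 = a ^ 2 + b ^ 2 + c ^ 2 := fun n =>
    (Vale.Agent.P027.int2_iff _).1 (by rw [padicValRat.of_int]; positivity)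
  choose a b c h using h
  have e : 7 * θ (fun n => t n) ^ 2 + 2 = θ a ^ 2 + θ b ^ 2 + θ c ^ 2 := by
    rw [← map_ofNat θ 7, ← map_ofNat θ 2, ← map_pow, ← map_pow, ← map_pow, ← map_pow, ← map_mul,
      ← map_add, ← map_add, ← map_add]
    congr 1; funext n; exact h n
  rw [hf] at e
  induction ha : θ a using Germ.inductionOn with
  | _ a' =>
  induction hb : θ b using Germ.inductionOn with
  | _ b' =>
  induction hc : θ c using Germ.inductionOn with
  | _ c' =>
  rw [ha, hb, hc] at e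
  have e' : ((7 * f ^ 2 + 2 : J → ℚ) : Germ (U : Filter J) ℚ) =
      ((a' ^ 2 + b' ^ 2 + c' ^ 2 : J → ℚ) : Germ (U : Filter J) ℚ) := e
  filter_upwards [Germ.coe_eq.1 e'] with k hk
  exact (Vale.Agent.P027.int2_iff _).2 ⟨a' k, b' k, c' k, hk⟩

lemma germ_den (ps : ParStar) (j : ℕ) {J : Type} (U : Ultrafilter J)
    (θ : (ℤ → ℚ) →+* Germ (U : Filter J) ℚ) (t : ℤ → ℤ) (f : J → ℚ)
    (hf : θ (fun n => t n) = f) : ∀ᶠ k in (U : Filter J), ∃ b : ℕ, (f k).den = b ^ 2 ^ j := by
  by_contra hno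
  have hno := (Ultrafilter.eventually_not.2 hno).and (germ_two U θ t f hf)
  have ex : ∀ k, ∃ p : ℕ, p.Prime ∧ p ≠ 2 ∧
      ((¬ (∃ b : ℕ, (f k).den = b ^ 2 ^ j) ∧ 0 ≤ padicValRat 2 (f k)) →
        padicValRat p (f k) < 0 ∧ ¬ ((2 ^ j : ℕ) : ℤ) ∣ padicValRat p (f k)) := by
    intro k
    by_cases h : ¬ (∃ b : ℕ, (f k).den = b ^ 2 ^ j) ∧ 0 ≤ padicValRat 2 (f k)
    · by_contra h'
      refine h.1 (den_pow_of_val fun p hp hv => ?_)
      by_contra hd
      exact h' ⟨p, hp, fun e => by rw [e] at hv; omega, fun _ => ⟨hv, hd⟩⟩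
    · exact ⟨3, by norm_num, by norm_num, fun h' => absurd h' h⟩
  choose p hp hp2 hv using ex
  have hv' := hno.mono fun k hk => hv k hk
  have h2 : (2 : Germ (U : Filter J) ℚ) ∉ (germVal U p hp).nonunits := by
    refine not_nonunit _ two_ne_zero ?_
    have : (2 : Germ (U : Filter J) ℚ)⁻¹ = ((fun _ => 2⁻¹ : J → ℚ) : Germ (U : Filter J) ℚ) := rfl
    rw [this, mem_germVal]
    refine Eventually.of_forall fun k => ?_
    haveI := Fact.mk (hp k)
    have h1 : padicNorm (p k) (2 : ℕ) = 1 :=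
      (padicNorm.nat_eq_one_iff 2).2 fun h => hp2 k ((Nat.prime_dvd_prime_iff_eq (hp k)
        Nat.prime_two).1 h)
    have := padicNorm.div (p := p k) 1 (2 : ℕ)
    rw [h1] at this
    simpa using this.le
  have f0 : (f : Germ (U : Filter J) ℚ) ≠ 0 := by
    intro h
    obtain ⟨k, h1, h3⟩ := ((Germ.coe_eq.1 (h.trans Germ.coe_zero.symm)).and hv').exists
    rw [h1] at h3
    simp at h3
  have h1 : θ (fun n => (t n : ℚ) * ((1 : ℤ → ℤ) n : ℤ)) ∉ (germVal U p hp).nonunits := by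
    have : (fun n => (t n : ℚ) * ((1 : ℤ → ℤ) n : ℤ)) = fun n => (t n : ℚ) := by
      funext n; simp
    rw [this, hf]
    refine not_nonunit _ f0 ?_
    rw [← Germ.coe_inv, mem_germVal]
    filter_upwards [hv'] with k hk
    haveI := Fact.mk (hp k)
    rw [Vale.Agent.P027.pn_le_one_iff, Pi.inv_apply, padicValRat.inv]
    omega
  obtain ⟨y, y0, a1, a2⟩ := ps ℤ _ θ (germVal U p hp) h2 t 1 h1 j
  induction hy : θ y using Germ.inductionOn with
  | _ g =>
  rw [hy, hf, ← Germ.coe_pow, ← Germ.coe_div, mem_germVal] at a1 a2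
  have g0 : ∀ᶠ k in (U : Filter J), g k ≠ 0 := by
    refine Ultrafilter.eventually_not.2 fun h => y0 ?_
    rw [hy]
    exact Germ.coe_eq.2 h
  obtain ⟨k, ⟨b1, b2⟩, b3, b4, b5⟩ := ((a1.and a2).and (g0.and hv')).exists
  haveI := Fact.mk (hp k)
  have fk : f k ≠ 0 := fun h => by rw [h] at b4; simp at b4
  rw [Vale.Agent.P027.pn_le_one_iff, Pi.div_apply, Pi.pow_apply] at b1 b2
  rw [padicValRat.div fk (pow_ne_zero _ b3), padicValRat.pow] at b1
  rw [padicValRat.div (pow_ne_zero _ b3) fk, padicValRat.pow] at b2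
  exact b5 ⟨padicValRat (p k) (g k), by omega⟩

/-- Diophantine sets that contain the integers and only numbers whose denominators are powers -/
theorem thmA (ps : ParStar) (j : ℕ) :
    ∃ (m : ℕ) (g : MvPolynomial (Option (Fin m)) ℤ),
      (∀ n : ℤ, ∃ y : Fin m → ℚ,
        MvPolynomial.aeval (fun o : Option (Fin m) => o.elim (n : ℚ) y) g = 0) ∧
      ∀ (x : ℚ) (y : Fin m → ℚ),
        MvPolynomial.aeval (fun o : Option (Fin m) => o.elim x y) g = 0 →
          ∃ b : ℕ, x.den = b ^ 2 ^ j := by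
  obtain ⟨m, S, g, h1, h2⟩ := crit Set.univ {x | ∃ b : ℕ, x.den = b ^ 2 ^ j} (by
    intro J U θ _
    induction hf : θ (fun n => (n : ℚ)) using Germ.inductionOn with
    | _ f =>
    rw [Germ.liftPred_coe]
    exact germ_den ps j U θ id f hf)
  exact ⟨m, g, fun n => (h1 n).imp fun y h => h.2, fun x y h => h2 x y (fun _ _ => trivial) h⟩

end Vale.Agent.P027Z
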