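import Vale.Agent.P027.B.Cod

/-! If the integers are Diophantine in the rationals, solvability is undecidable. -/

set_option linter.all false

namespace Vale.Agent.P027Z

open MvPolynomial Vale.Agent.P027 Vale.Agent.P027.K2

lemma isPoly_fn {α : Type} {φ : (α → ℕ) → ℤ} (h : IsPoly φ) (ι : α → ℕ) :
    ∃ P : MvPolynomial ℕ ℤ, ∀ (v : ℕ → ℚ) (w : α → ℕ), (∀ a, v (ι a) = w a) →
      aeval v P = (φ w : ℚ) := by
  induction h with
  | proj i => exact ⟨X (ι i), fun v w h => by simp [h]⟩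
  | const n => exact ⟨C n, fun v w h => by simp⟩
  | sub _ _ h1 h2 =>
    obtain ⟨P, hP⟩ := h1
    obtain ⟨Q, hQ⟩ := h2
    exact ⟨P - Q, fun v w h => by simp [hP v w h, hQ v w h]⟩
  | mul _ _ h1 h2 =>
    obtain ⟨P, hP⟩ := h1
    obtain ⟨Q, hQ⟩ := h2
    exact ⟨P * Q, fun v w h => by simp [hP v w h, hQ v w h]⟩

lemma dio_nat (hZ : Dio (fun v => ∃ n : ℤ, v 0 = n)) : Dio (fun v => ∃ n : ℕ, v 0 = n) := by
  have h : Dio (fun v : ℕ → ℚ => v 4 = v 0 ^ 2 + v 1 ^ 2 + v 2 ^ 2 + v 3 ^ 2) :=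
    Dio.eq (DioFn.var 4) (((((DioFn.var 0).pow 2).add ((DioFn.var 1).pow 2)).add
      ((DioFn.var 2).pow 2)).add ((DioFn.var 3).pow 2))
  refine (hZ.and (Dio.exN (m := 4) h)).congr fun v => ⟨?_, ?_⟩
  · rintro ⟨n, hn⟩
    obtain ⟨a, b, c, d, e⟩ := Nat.sum_four_squares n
    refine ⟨⟨n, by simpa using hn⟩, ![a, b, c, d], ?_⟩
    show v 0 = (a : ℚ) ^ 2 + (b : ℚ) ^ 2 + (c : ℚ) ^ 2 + (d : ℚ) ^ 2
    rw [hn]; exact_mod_cast e.symm
  · rintro ⟨⟨n, hn⟩, w, e⟩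
    change v 0 = w 0 ^ 2 + w 1 ^ 2 + w 2 ^ 2 + w 3 ^ 2 at e
    have : (0 : ℚ) ≤ n := by rw [← hn, e]; positivity
    have h0 : 0 ≤ n := by exact_mod_cast this
    lift n to ℕ using h0
    exact ⟨n, by simpa using hn⟩

lemma dio_re (hZ : Dio (fun v => ∃ n : ℤ, v 0 = n)) {p : ℕ → Prop} (hp : REPred p) :
    ∃ S : (ℕ → ℚ) → Prop, Dio S ∧ ∀ (v : ℕ → ℚ) (a : ℕ), v 0 = a → (S v ↔ p a) := by
  have hS : REPred (fun a : Fin 1 → ℕ => a ∈ {a : Fin 1 → ℕ | p (a 0)}) :=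
    N1.comp_re hp (Primrec.fin_app.comp Primrec.id (Primrec.const 0)).to_comp
  obtain ⟨m, f, h1, h2⟩ := Vale.Agent.P345.sf_of_rePred 1 _ hS
  obtain ⟨P, hP⟩ := isPoly_fn (α := Fin 1 ⊕ Fin m) h1 (Sum.elim (fun _ => m) (fun i => i))
  have hT := (Dio.forall_lt (fun i => (dio_nat hZ).ren (fun _ => i)) m).and (Dio.poly P)
  refine ⟨_, Dio.exN (m := m) hT, fun v a ha => ⟨?_, fun h => ?_⟩⟩
  · rintro ⟨w, b1, b2⟩
    choose! u hu using b1
    rw [hP _ (Sum.elim (fun _ => a) (fun i => u i)) (by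
      rintro (i | i)
      · simp [appq, ha]
      · exact hu i i.2)] at b2
    exact (h2 (fun _ => a)).2 (fun i => u i) (by exact_mod_cast b2)
  · obtain ⟨u, hu, -⟩ := (h2 (fun _ => a)).1 h
    refine ⟨fun i => u i, fun i hi => ⟨u ⟨i, hi⟩, by simp [appq, hi]⟩, ?_⟩
    rw [hP _ (Sum.elim (fun _ => a) u) (by
      rintro (i | i)
      · simp [appq, ha]
      · simp [appq])]
    exact_mod_cast hu

theorem undec_of_int (h : ∃ (m : ℕ) (g : MvPolynomial (Option (Fin m)) ℤ), ∀ x : ℚ,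
    (∃ n : ℤ, x = n) ↔ ∃ y : Fin m → ℚ, aeval (fun o : Option (Fin m) => o.elim x y) g = 0) :
    ¬ ComputablePred (fun F : List (ℤ × List ℕ) =>
      ∃ y : ℕ → ℚ, (F.map fun t => (t.1 : ℚ) * (t.2.map y).prod).sum = 0) := by
  obtain ⟨m, g, hg⟩ := h
  have hZ : Dio (fun v => ∃ n : ℤ, v 0 = n) := by
    refine ⟨rename (fun o : Option (Fin m) => o.elim (Sum.inl 0) (fun i => Sum.inr (i : ℕ))) g,
      fun v => ?_⟩
    have key : ∀ y : ℕ → ℚ, (Sum.elim v y ∘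
        fun o : Option (Fin m) => o.elim (Sum.inl 0) (fun i => Sum.inr (i : ℕ))) =
        fun o : Option (Fin m) => o.elim (v 0) (fun i : Fin m => y i) := by
      intro y; funext o; cases o <;> rfl
    simp only [aeval_rename, key]
    rw [hg]
    constructor
    · rintro ⟨y, hy⟩
      exact ⟨fun i => if h : i < m then y ⟨i, h⟩ else 0, by simpa using hy⟩
    · rintro ⟨y, hy⟩
      exact ⟨_, hy⟩
  obtain ⟨p, hp, hn⟩ := N1.halting
  obtain ⟨S, h1, h2⟩ := dio_re hZ hp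
  obtain ⟨k, F, hF⟩ := Dio.fin (h1.ren (fun _ => 2)) 2
  have := B.undec F (A := {a | p a}) (fun hc => hn
    (ComputablePred.computable_iff_re_compl_re'.1 hc).2) Computable.id (T := ∅) (by simp)
    (fun a => by
      have e := fun t => (h2 _ a (by rfl)).symm.trans (hF ![(7 : ℚ) ^ a, (a : ℚ)] t)
      constructor
      · intro h
        obtain ⟨y, hy⟩ := (e 0).1 h
        exact ⟨_, fun i => by simp [B.RT], hy⟩
      · rintro ⟨y, -, hy⟩
        exact (e (Matrix.vecHead y)).2 ⟨Matrix.vecTail y, by rwa [Matrix.cons_head_tail]⟩)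
  refine fun hc => this (hc.of_eq fun F => ?_)
  simp [B.HZ, B.RT, B.ev]

end Vale.Agent.P027Z
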