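import Vale.Agent.P027Z.Main
import Vale.Agent.P027Z.Abc
import Vale.Agent.P027Z.Undec
import Vale.Agent.P027Z.ThmA
import Vale.Agent.P027Z.A4
import Vale.Agent.P027Z.Form
import Vale.Agent.P057Z.Rg.All

/-! The assembled statements, from the blocks that are proved in other files. -/

set_option linter.all false

namespace Vale.Agent.P027Z

open MvPolynomial

theorem thmB' (c1 : C1) (p1 : P1) (a1 : A1) (a2 : A2) (j κ : ℕ) (C : ℝ) (G : Set ℚ)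
    (h1 : ∀ x d : ℕ, 0 < d → x.Prime → (x + d).Prime → (x + 2 * d).Prime → (x + 3 * d).Prime →
      (d : ℚ) / x ∈ G) (h2 : ∀ s ∈ G, Good (2 ^ j) κ C s) :
    ∃ (m : ℕ) (S : Finset (Fin m)) (g : MvPolynomial (Option (Fin m)) ℤ), ∀ x : ℚ,
      (∃ n : ℤ, x = n) ↔ ∃ y : Fin m → ℚ, (∀ i ∈ S, y i ∈ G) ∧
        aeval (fun o : Option (Fin m) => o.elim x y) g = 0 :=
  thmB a1 a2 a3 a4 (parStar c1 p1) (p4 Vale.Agent.P057Z.Rg.result_all.1) j κ C G h1 h2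

theorem thmC (c1 : C1) (p1 : P1) (a1 : A1) (a2 : A2)
    (h : ∃ (j κ : ℕ) (C : ℝ), ∀ s : ℚ, Good (2 ^ j) κ C s) :
    (∃ (m : ℕ) (g : MvPolynomial (Option (Fin m)) ℤ), ∀ x : ℚ,
      (∃ n : ℤ, x = n) ↔ ∃ y : Fin m → ℚ, aeval (fun o : Option (Fin m) => o.elim x y) g = 0) ∧
    ¬ ComputablePred (fun F : List (ℤ × List ℕ) =>
      ∃ y : ℕ → ℚ, (F.map fun t => (t.1 : ℚ) * (t.2.map y).prod).sum = 0) := by
  obtain ⟨j, κ, C, h⟩ := h
  obtain ⟨m, S, g, hg⟩ := thmB' c1 p1 a1 a2 j κ C Set.univ (fun _ _ _ _ _ _ _ => trivial)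
    fun s _ => h s
  have : ∃ (m : ℕ) (g : MvPolynomial (Option (Fin m)) ℤ), ∀ x : ℚ,
      (∃ n : ℤ, x = n) ↔ ∃ y : Fin m → ℚ, aeval (fun o : Option (Fin m) => o.elim x y) g = 0 :=
    ⟨m, g, fun x => by simpa using hg x⟩
  exact ⟨this, undec_of_int this⟩

end Vale.Agent.P027Z
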