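import Mathlib

/-! Many progressions of four primes with the same first term. -/

set_option linter.all false

namespace Vale.Agent.P027Z

open Finset Filter

/-- the bound for sets without progressions of length four -/
def R4 : Prop := ∃ c : ℝ, 0 < c ∧ ∃ N₀ : ℕ, ∀ N : ℕ, N₀ ≤ N → ∀ A : Finset ℕ,
  A ⊆ Finset.Icc 1 N →
    (∀ a d : ℕ, 0 < d → ¬ (a ∈ A ∧ a + d ∈ A ∧ a + 2 * d ∈ A ∧ a + 3 * d ∈ A)) →
    (A.card : ℝ) ≤ N * Real.exp (-(Real.log N ^ c))

/-- the differences of the progressions that start at `x` -/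
def star (A : Finset ℕ) (N x : ℕ) : Finset ℕ :=
  (Icc 1 N).filter fun D => x ∈ A ∧ x + D ∈ A ∧ x + 2 * D ∈ A ∧ x + 3 * D ∈ A

lemma varnavides {N M T : ℕ} {R : ℝ} (hR0 : 0 ≤ R) {A : Finset ℕ} (hA : A ⊆ Icc 1 N)
    (hR : ∀ B : Finset ℕ, B ⊆ Icc 1 M →
      (∀ a d : ℕ, 0 < d → ¬ (a ∈ B ∧ a + d ∈ B ∧ a + 2 * d ∈ B ∧ a + 3 * d ∈ B)) → (B.card : ℝ) ≤ R)
    (hT : ∀ x, (star A N x).card ≤ T) :
    ((N / M : ℕ) : ℝ) * (M * A.card - 2 * N * R) ≤ M * (N * T * (M * M)) := by
  classical
  let B : ℕ → ℕ → Finset ℕ := fun s d =>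
    (Icc 1 M).filter fun i => N ≤ s + i * d ∧ s + i * d - N ∈ A
  let good : ℕ → Finset ℕ := fun d => (range (2 * N)).filter fun s => R < (B s d).card
  have h1 : ∀ d ∈ Icc 1 (N / M), (M * A.card - 2 * N * R : ℝ) ≤ M * (good d).card := by
    intro d hd
    have hMd : M * d ≤ N := (Nat.mul_le_mul_left _ (mem_Icc.1 hd).2).trans (Nat.mul_div_le N M)
    have a1 : M * A.card ≤ ∑ s ∈ range (2 * N), (B s d).card := by
      rw [← Finset.card_sigma]
      have : M * A.card = ((Icc 1 M) ×ˢ A).card := by simp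
      rw [this]
      refine card_le_card_of_injOn (fun p => ⟨p.2 + N - p.1 * d, p.1⟩) ?_ ?_
      · rintro ⟨i, a⟩ h
        simp only [coe_product, Set.mem_prod, mem_coe, mem_Icc] at h
        have b1 := mem_Icc.1 (hA h.2)
        have b2 : i * d ≤ M * d := Nat.mul_le_mul_right _ h.1.2
        have b3 : 1 * 1 ≤ i * d := Nat.mul_le_mul h.1.1 (mem_Icc.1 hd).1
        simp only [coe_sigma, Set.mem_sigma_iff, mem_coe, mem_range, B, mem_filter, mem_Icc]
        refine ⟨by omega, h.1, by omega, ?_⟩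
        convert h.2 using 1
        omega
      · rintro ⟨i, a⟩ h ⟨i', a'⟩ h' e
        simp only [coe_product, Set.mem_prod, mem_coe, mem_Icc] at h h'
        simp only [Sigma.mk.injEq, heq_eq_eq] at e
        obtain ⟨e1, rfl⟩ := e
        have b2 : i * d ≤ M * d := Nat.mul_le_mul_right _ h.1.2
        congr 1
        omega
    have a2 : ∀ s ∈ range (2 * N), ((B s d).card : ℝ) ≤
        R + M * (if R < (B s d).card then 1 else 0) := by
      intro s _
      split_ifs with h
      · have : (B s d).card ≤ M := (card_filter_le _ _).trans (by simp)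
        have : ((B s d).card : ℝ) ≤ M := by exact_mod_cast this
        linarith
      · simpa using h
    have a3 := sum_le_sum a2
    rw [sum_add_distrib, ← mul_sum, sum_boole, sum_const, card_range, nsmul_eq_mul] at a3
    have a4 : ((M * A.card : ℕ) : ℝ) ≤ ((∑ s ∈ range (2 * N), (B s d).card : ℕ) : ℝ) := by
      exact_mod_cast a1
    push_cast at a3 a4
    linarith
  have ex : ∀ d s : ℕ, ∃ i e : ℕ, s ∈ good d → 0 < e ∧ i ∈ B s d ∧ i + e ∈ B s d ∧
      i + 2 * e ∈ B s d ∧ i + 3 * e ∈ B s d := by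
    intro d s
    by_cases h : s ∈ good d
    · by_contra hn
      push Not at hn
      refine absurd (hR (B s d) (filter_subset _ _) fun a e he h' => ?_) (not_le.2 (mem_filter.1 h).2)
      exact (hn a e).2 he h'.1 h'.2.1 h'.2.2.1 h'.2.2.2
    · exact ⟨0, 0, fun h' => absurd h' h⟩
  choose i e hie using ex
  have h2 : ∑ d ∈ Icc 1 (N / M), (good d).card ≤ N * T * (M * M) := by
    rw [← Finset.card_sigma]
    have c1 : (((Icc 1 N).sigma (star A N)) ×ˢ (Icc 1 M ×ˢ Icc 1 M)).card ≤ N * T * (M * M) := by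
      rw [card_product, card_sigma, card_product, Nat.card_Icc]
      refine Nat.mul_le_mul ?_ (by simp)
      simpa using sum_le_card_nsmul (Icc 1 N) _ T fun x _ => hT x
    refine le_trans (card_le_card_of_injOn (fun p => (⟨p.2 + i p.1 p.2 * p.1 - N, e p.1 p.2 * p.1⟩,
      i p.1 p.2, e p.1 p.2)) ?_ ?_) c1
    · rintro ⟨d, s⟩ h
      simp only [coe_sigma, Set.mem_sigma_iff, mem_coe, mem_Icc] at h
      obtain ⟨b0, b1, b2, b3, b4⟩ := hie d s h.2
      simp only [B, mem_filter, mem_Icc] at b1 b2 b3 b4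
      have c1 := mem_Icc.1 (hA b1.2.2)
      have c4 := mem_Icc.1 (hA b4.2.2)
      have c5 : 1 * 1 ≤ e d s * d := Nat.mul_le_mul b0 h.1.1
      simp only [coe_product, Set.mem_prod, mem_coe, mem_sigma, mem_Icc, star, mem_filter]
      rw [add_mul] at b2 b3 b4 c4
      rw [mul_assoc] at b3 b4 c4
      refine ⟨⟨c1, ⟨by omega, by omega⟩, b1.2.2, ?_, ?_, ?_⟩, b1.1, by omega, by omega⟩
      · convert b2.2.2 using 1; omega
      · convert b3.2.2 using 1; omega
      · convert b4.2.2 using 1; omega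
    · rintro ⟨d, s⟩ h ⟨d', s'⟩ h' q
      simp only [coe_sigma, Set.mem_sigma_iff, mem_coe, mem_Icc] at h h'
      obtain ⟨b0, b1, -⟩ := hie d s h.2
      obtain ⟨-, b1', -⟩ := hie d' s' h'.2
      simp only [B, mem_filter, mem_Icc] at b1 b1'
      simp only [Prod.mk.injEq, Sigma.mk.injEq, heq_eq_eq] at q
      obtain ⟨⟨q1, q2⟩, q3, q4⟩ := q
      rw [← q4] at q2
      obtain rfl : d = d' := Nat.eq_of_mul_eq_mul_left b0 q2
      rw [← q3] at q1 b1'
      obtain rfl : s = s' := by omega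
      rfl
  have h3 := sum_le_sum h1
  rw [sum_const, Nat.card_Icc, nsmul_eq_mul, ← mul_sum, Nat.add_sub_cancel] at h3
  refine h3.trans (mul_le_mul_of_nonneg_left ?_ (by positivity))
  exact_mod_cast h2

/-- the primes of the class in an interval -/
def cls (X N : ℕ) : Finset ℕ := (Icc 1 N).filter fun p => p.Prime ∧ p % 24 = 17 ∧ X < p

lemma many_primes (X : ℕ) : ∃ᶠ k : ℕ in atTop, (256 ^ k : ℝ) ≤ k ^ 3 * (cls X (256 ^ k)).card := by
  classical
  by_contra h
  rw [not_frequently] at h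
  refine ArithmeticFunction.vonMangoldt.not_summable_residueClass_prime_div (q := 24) (a := 17)
    (by decide) ?_
  let u : ℕ → ℝ := fun k => (cls X (256 ^ (k + 1))).card * (8 * (k + 1) / 256 ^ k)
  have hu : Summable u := by
    have h1 : Summable fun k : ℕ => 2048 * (1 / ((k + 1 : ℕ) : ℝ) ^ 2) :=
      ((summable_nat_add_iff 1).2 (Real.summable_one_div_nat_pow.2 (by norm_num))).mul_left _
    refine Summable.of_norm_bounded_eventually_nat h1 ?_
    filter_upwards [(tendsto_add_atTop_nat 1).eventually h] with k hk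
    rw [Real.norm_of_nonneg (by positivity)]
    push_cast at hk ⊢
    rw [not_le, pow_succ (256 : ℝ)] at hk
    simp only [u]
    rw [← mul_div_assoc, mul_one_div, div_le_div_iff₀ (by positivity) (by positivity)]
    push_cast
    nlinarith
  let g : ℕ → ℝ := fun n => if n.Prime ∧ n % 24 = 17 ∧ X < n then Real.log n / n else 0
  have hg : Summable g := by
    refine summable_of_sum_le (c := ∑' k, u k) (fun n => ?_) fun s => ?_
    · simp only [g]
      split_ifs
      · exact div_nonneg (Real.log_natCast_nonneg _) (by positivity)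
      · exact le_rfl
    rw [← sum_fiberwise_of_maps_to (t := s.image (Nat.log 256)) (g := Nat.log 256)
      (fun n hn => mem_image_of_mem _ hn)]
    refine le_trans (sum_le_sum fun k _ => ?_) (hu.sum_le_tsum _ fun k _ => by positivity)
    simp only [g]
    rw [← sum_filter]
    refine le_trans (sum_le_card_nsmul _ _ (8 * (k + 1) / 256 ^ k : ℝ) fun n hn => ?_) ?_
    · simp only [mem_filter] at hn
      obtain ⟨⟨-, rfl⟩, pp, -⟩ := hn
      have a1 : 256 ^ Nat.log 256 n ≤ n := Nat.pow_log_le_self _ pp.ne_zero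
      have a2 : n < 256 ^ (Nat.log 256 n + 1) := Nat.lt_pow_succ_log_self (by norm_num) _
      refine div_le_div₀ (by positivity) ?_ (by positivity) (by exact_mod_cast a1)
      have a3 : Real.log n ≤ Real.log ((2 : ℝ) ^ (8 * (Nat.log 256 n + 1))) := by
        refine Real.log_le_log (by exact_mod_cast pp.pos) ?_
        rw [pow_mul]
        exact_mod_cast a2.le
      rw [Real.log_pow] at a3
      have a4 := Real.log_le_sub_one_of_pos (x := 2) (by norm_num)
      push_cast at a3
      have : (0 : ℝ) ≤ Nat.log 256 n := by positivity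
      nlinarith
    · rw [nsmul_eq_mul]
      refine mul_le_mul_of_nonneg_right ?_ (by positivity)
      refine Nat.cast_le.2 (card_le_card fun n hn => ?_)
      simp only [mem_filter] at hn
      obtain ⟨⟨-, rfl⟩, pp⟩ := hn
      exact mem_filter.2 ⟨mem_Icc.2 ⟨pp.1.pos, (Nat.lt_pow_succ_log_self (by norm_num) _).le⟩, pp⟩
  refine Summable.of_norm_bounded_eventually_nat hg ?_
  filter_upwards [eventually_gt_atTop X] with n hn
  simp only [g, ArithmeticFunction.vonMangoldt.residueClass]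
  by_cases pp : n.Prime
  · by_cases h17 : n % 24 = 17
    · rw [if_pos pp, if_pos ⟨pp, h17, hn⟩, norm_div, Real.norm_natCast]
      refine div_le_div_of_nonneg_right ?_ (by positivity)
      refine (norm_indicator_le_norm_self _ _).trans ?_
      rw [ArithmeticFunction.vonMangoldt_apply_prime pp,
        Real.norm_of_nonneg (Real.log_natCast_nonneg _)]
    · rw [if_pos pp, if_neg (fun h => h17 h.2.1), Set.indicator_of_notMem]
      · simp
      · intro h
        exact h17 ((ZMod.natCast_eq_natCast_iff' n 17 24).1 h)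
  · simp [pp]

lemma exp_small {c : ℝ} (hc : 0 < c) :
    ∀ᶠ k : ℕ in atTop, 4 * (k : ℝ) ^ 3 * Real.exp (-(Real.log ((2 ^ k : ℕ) : ℝ) ^ c)) ≤ 1 := by
  have h0 : Tendsto (fun k : ℕ => (k : ℝ) * Real.log 2) atTop atTop :=
    tendsto_natCast_atTop_atTop.atTop_mul_const (Real.log_pos (by norm_num))
  have h1 := h0.eventually ((isLittleO_log_rpow_atTop hc).bound (c := 1 / 6) (by norm_num))
  have h2 := h0.eventually ((tendsto_rpow_atTop hc).eventually_ge_atTop 64)
  filter_upwards [h1, h2, eventually_ge_atTop 1] with k a b d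
  have l2 := Real.log_two_gt_d9
  have k1 : (1 : ℝ) ≤ k := by exact_mod_cast d
  push_cast
  rw [Real.log_pow, Real.exp_neg, ← div_eq_mul_inv, div_le_one (Real.exp_pos _)]
  set y := (k : ℝ) * Real.log 2
  have y0 : 0 < y := by positivity
  rw [Real.norm_of_nonneg (Real.rpow_nonneg y0.le _)] at a
  have a' := (le_abs_self _).trans a
  have e1 : Real.exp (y ^ c) = Real.exp (y ^ c / 2) * Real.exp (y ^ c / 6) ^ 3 := by
    rw [← Real.exp_nat_mul, ← Real.exp_add]; congr 1; push_cast; ring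
  have e2 : y ≤ Real.exp (y ^ c / 6) := by
    rw [← Real.log_le_iff_le_exp y0]; linarith
  have e3 : 32 ≤ Real.exp (y ^ c / 2) := by
    have := Real.add_one_le_exp (y ^ c / 2); linarith
  have e4 : (k : ℝ) ≤ 2 * y := by simp only [y]; nlinarith
  calc 4 * (k : ℝ) ^ 3 ≤ 4 * (2 * y) ^ 3 := by gcongr
    _ = 32 * y ^ 3 := by ring
    _ ≤ _ := by rw [e1]; gcongr

lemma poly_small (a : ℕ) : ∀ᶠ k : ℕ in atTop, 4 * (a + 2) * k ^ 3 < 2 ^ k := by
  have h := (tendsto_pow_const_div_const_pow_of_one_lt 3 (r := 2) (by norm_num)).eventually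
    (gt_mem_nhds (show (0 : ℝ) < 1 / (4 * (a + 2)) by positivity))
  filter_upwards [h] with k hk
  rw [div_lt_div_iff₀ (by positivity) (by positivity)] at hk
  have : (4 * (a + 2) * k ^ 3 : ℝ) < 2 ^ k := by linarith
  exact_mod_cast this

/-- four progressions of primes with a common first term whose differences determine `a` -/
def P4 : Prop := ∀ a X : ℕ, ∃ (x : ℕ) (d : Fin 4 → ℕ), d 0 + a * d 3 = d 1 + a * d 2 ∧ d 2 ≠ d 3 ∧
  ∀ k, 0 < d k ∧ ∀ i ≤ 3, (x + i * d k).Prime ∧ (x + i * d k) % 24 = 17 ∧ X < x + i * d k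

theorem p4 (r4 : R4) : P4 := by
  classical
  intro a X
  obtain ⟨c, hc, N₀, h⟩ := r4
  obtain ⟨k, h1, h2, h3, h4⟩ := ((many_primes X).and_eventually ((exp_small hc).and
    ((poly_small a).and (eventually_ge_atTop (N₀ + 1))))).exists
  have hM : N₀ ≤ 2 ^ k := by have := Nat.lt_two_pow_self (n := k); omega
  have e256 : 256 ^ k = (2 ^ k) ^ 8 := by rw [← pow_mul, mul_comm, pow_mul]; norm_num
  have e256' : (256 : ℝ) ^ k = ((2 ^ k : ℕ) : ℝ) ^ 8 := by exact_mod_cast e256
  rw [e256', e256] at h1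
  have M0 : 0 < 2 ^ k := by positivity
  set M := 2 ^ k
  obtain ⟨x, hx⟩ : ∃ x, (a + 2) * M ^ 4 < (star (cls X (M ^ 8)) (M ^ 8) x).card := by
    by_contra hn
    push Not at hn
    have v := varnavides (by positivity) (filter_subset _ _) (h M hM) hn
    have e : M ^ 8 / M = M ^ 7 := by rw [pow_succ, Nat.mul_div_cancel _ M0]
    rw [e] at v
    change _ * (_ * ((cls X (M ^ 8)).card : ℝ) - _) ≤ _ at v
    push_cast at v
    have h5 : (4 * (a + 2) * k ^ 3 : ℝ) < M := by exact_mod_cast h3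
    have M1 : (0 : ℝ) < M := by exact_mod_cast M0
    have k0 : (0 : ℝ) < k := by exact_mod_cast (by omega : 0 < k)
    set E := Real.exp (-(Real.log M ^ c))
    set n : ℝ := ((cls X (M ^ 8)).card : ℝ)
    have v2 : (k : ℝ) ^ 3 * (M ^ 7 * (M * n - 2 * M ^ 8 * (M * E))) ≤
        k ^ 3 * (M * (M ^ 8 * ((a + 2) * M ^ 4) * (M * M))) := by gcongr
    have v3 : (M : ℝ) ^ 8 * M ^ 8 ≤ M ^ 8 * (k ^ 3 * n) := by gcongr
    have v4 : (M : ℝ) ^ 16 * (4 * k ^ 3 * E) ≤ M ^ 16 * 1 := by gcongr
    have v5 : (M : ℝ) ^ 15 * (4 * (a + 2) * k ^ 3) < M ^ 15 * M := by gcongr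
    have v6 : (0 : ℝ) < M ^ 16 := by positivity
    nlinarith
  set S := star (cls X (M ^ 8)) (M ^ 8) x
  obtain ⟨⟨d0, d3⟩, m1, ⟨d1, d2⟩, m2, ne, e⟩ := exists_ne_map_eq_of_card_lt_of_maps_to
    (s := S ×ˢ S) (t := range ((a + 2) * M ^ 8)) (f := fun p => p.1 + a * p.2) (by
      rw [card_product, card_range]
      calc (a + 2) * M ^ 8 ≤ ((a + 2) * M ^ 4) * ((a + 2) * M ^ 4) := by
            have : (a + 2) * M ^ 8 * 1 ≤ (a + 2) * M ^ 8 * (a + 2) := by gcongr; omega
            nlinarith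
        _ < _ := Nat.mul_lt_mul'' hx hx) (by
      rintro ⟨u, v⟩ huv
      simp only [coe_product, Set.mem_prod, mem_coe, S, star, mem_filter, mem_Icc] at huv
      have b1 : a * v ≤ a * M ^ 8 := Nat.mul_le_mul_left _ huv.2.1.2
      have b2 : 0 < M ^ 8 := by positivity
      simp only [coe_range, Set.mem_Iio]
      nlinarith [huv.1.1.2])
  have key : ∀ D ∈ S, 0 < D ∧
      ∀ i ≤ 3, (x + i * D).Prime ∧ (x + i * D) % 24 = 17 ∧ X < x + i * D := by
    intro D hD
    simp only [S, star, cls, mem_filter] at hD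
    refine ⟨(mem_Icc.1 hD.1).1, fun i hi => ?_⟩
    interval_cases i
    · simpa using hD.2.1.2
    · simpa using hD.2.2.1.2
    · exact hD.2.2.2.1.2
    · exact hD.2.2.2.2.2
  rw [mem_product] at m1 m2
  refine ⟨x, ![d0, d1, d2, d3], e, fun q => ne ?_, fun k => ?_⟩
  · change d2 = d3 at q
    change d0 + a * d3 = d1 + a * d2 at e
    subst q
    rw [Nat.add_right_cancel e]
  · fin_cases k
    · exact key _ m1.1
    · exact key _ m2.1
    · exact key _ m2.2
    · exact key _ m1.2

end Vale.Agent.P027Z
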