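import Vale.Agent.P027Z.Dom
import Vale.Agent.P027Z.Star

/-! The heights of the images of rational sequences are dominated. -/

set_option linter.all false

namespace Vale.Agent.P027Z

open Filter Height

lemma log_two_le : Real.log 2 ≤ 1 := by
  have := Real.log_le_sub_one_of_pos (x := 2) (by norm_num); linarith

lemma h_add (x y : ℚ) : logHeight₁ (x + y) ≤ 1 + logHeight₁ x + logHeight₁ y := by
  have := logHeight₁_add_le x y
  rw [NumberField.totalWeight_eq_finrank, Module.finrank_self] at this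
  have h2 := log_two_le
  push_cast at this
  linarith

lemma h_sub (x y : ℚ) : logHeight₁ (x - y) ≤ 1 + logHeight₁ x + logHeight₁ y := by
  rw [sub_eq_add_neg, ← logHeight₁_neg y]; exact h_add x (-y)

lemma h_div (x y : ℚ) : logHeight₁ (x / y) ≤ logHeight₁ x + logHeight₁ y := by
  rw [div_eq_mul_inv, ← logHeight₁_inv y]; exact logHeight₁_mul_le x y⁻¹

section
variable {I J : Type} {U : Ultrafilter J} (θ : (I → ℚ) →+* Germ (U : Filter J) ℚ)

lemma hat_ne (a : I → ℕ) (h : ∀ i, a i ≠ 0) : ∀ᶠ w in U, hat θ a w ≠ 0 :=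
  rep_ne θ _ fun i => by exact_mod_cast h i

lemma hat_add (a b : I → ℕ) :
    ∀ᶠ w in U, hat θ (fun i => a i + b i) w = hat θ a w + hat θ b w := by
  have := rep_add θ (fun i => ((a i : ℤ) : ℚ)) (fun i => ((b i : ℤ) : ℚ))
  simpa [hat] using this

lemma hat_mul (a b : I → ℕ) :
    ∀ᶠ w in U, hat θ (fun i => a i * b i) w = hat θ a w * hat θ b w := by
  have := rep_mul θ (fun i => ((a i : ℤ) : ℚ)) (fun i => ((b i : ℤ) : ℚ))
  simpa [hat] using this

lemma hat_const (c : ℕ) : ∀ᶠ w in U, hat θ (fun _ => c) w = c := by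
  have := rep_const θ (c : ℚ)
  simpa [hat] using this

/-- the images of the quotients that belong to progressions of primes satisfy the height bound -/
def Pres (n κ : ℕ) (C : ℝ) : Prop := ∀ x d : I → ℕ,
  (∀ i, 0 < d i ∧ ∀ k ≤ 3, (x i + k * d i).Prime) →
    ∀ᶠ w in U, Good n κ C (rep θ (fun i => (d i : ℚ) / x i) w)

lemma hat_ap {x d : I → ℕ} (h : ∀ i, x i ≠ 0) (k : ℕ) :
    ∀ᶠ w in U, hat θ (fun i => x i + k * d i) w =
      hat θ (fun i => x i + 0 * d i) w * (1 + k * rep θ (fun i => (d i : ℚ) / x i) w) := by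
  have e : (fun i => (((x i + 0 * d i : ℕ) : ℤ) : ℚ) * (1 + k * ((d i : ℚ) / x i))) =
      fun i => (((x i + k * d i : ℕ) : ℤ) : ℚ) := by
    funext i
    have : (x i : ℚ) ≠ 0 := by exact_mod_cast h i
    push_cast
    field_simp
    ring
  have a := rep_mul θ (fun i => (((x i + 0 * d i : ℕ) : ℤ) : ℚ))
    (fun i => 1 + k * ((d i : ℚ) / x i))
  rw [e] at a
  filter_upwards [a, rep_add θ (fun _ => 1) (fun i => k * ((d i : ℚ) / x i)),
    rep_mul θ (fun _ => k) (fun i => (d i : ℚ) / x i), rep_const θ 1, rep_const θ k]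
    with w b1 b2 b3 b4 b5
  rw [b2, b3, b4, b5] at b1
  exact b1

variable {θ} {n κ : ℕ} {C : ℝ}

lemma ht_ratio (hG : Pres θ n κ C) {x d : I → ℕ} {F : Finset (I → ℕ)}
    (h : ∀ i, 0 < d i ∧ ∀ k ≤ 3, (x i + k * d i).Prime)
    (hF : ∀ k ≤ 3, (fun i => x i + k * d i) ∈ F) :
    ∀ᶠ w in U, logHeight₁ (rep θ (fun i => (d i : ℚ) / x i) w) ≤ |C| * (2 * Mo θ n F w) ^ κ := by
  have x0 : ∀ i, x i ≠ 0 := fun i => by simpa using ((h i).2 0 (by norm_num)).ne_zero
  have ne : ∀ k ≤ 3, ∀ᶠ w in U, hat θ (fun i => x i + k * d i) w ≠ 0 := fun k hk =>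
    hat_ne θ _ fun i => ((h i).2 k hk).ne_zero
  filter_upwards [hG x d h, hat_ap θ (d := d) x0 1, hat_ap θ (d := d) x0 2, hat_ap θ (d := d) x0 3,
    ne 0 (by norm_num), ne 1 (by norm_num), ne 2 (by norm_num), ne 3 (by norm_num)]
    with w b e1 e2 e3 n0 n1 n2 n3
  have t := fun k hk => Finset.subset_biUnion_of_mem (fun q => Vs n (hat θ q w)) (hF k hk)
  have t0 := t 0 (by norm_num)
  have t1 := t 1 (by norm_num)
  have t2 := t 2 (by norm_num)
  have t3 := t 3 (by norm_num)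
  simp only [Nat.cast_one, one_mul, Nat.cast_ofNat] at e1 e2 e3 n1 t1
  rw [e1] at n1 t1
  rw [e2] at n2 t2
  rw [e3] at n3 t3
  have c1 := radN_le (n := n) n0 n1 n2 n3 (T := VF θ n F w) (fun p hp => prime_VF θ hp) t0 t1 t2 t3
  rw [Rat.logHeight₁_eq_log_max]
  refine b.trans (mul_le_mul (le_abs_self C) ?_ (by positivity) (abs_nonneg C))
  refine pow_le_pow_left₀ (by positivity) ?_ _
  exact_mod_cast c1

variable (ps : ParStar) (p2 : P4) {j : ℕ} (hG : Pres θ (2 ^ j) κ C)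
include ps p2 hG

lemma dom_a (a : I → ℕ) :
    Dom θ (2 ^ j) (fun w => logHeight₁ (hat θ a w) / (2 + 4 * (|C| * 2 ^ κ))) := by
  classical
  refine Dom.root ps (κ := κ) fun X => ?_
  choose x d e ne hl using fun i => p2 (a i) (X i)
  let F : Finset (I → ℕ) := ((Finset.range 4) ×ˢ (Finset.univ : Finset (Fin 4))).image
    fun p => fun i => x i + p.1 * d i p.2
  have hF : ∀ q ∈ F, GS X q := by
    intro q hq i
    obtain ⟨⟨k, l⟩, h, rfl⟩ := Finset.mem_image.1 hq
    exact (hl i l).2 k (Nat.lt_succ_iff.1 (Finset.mem_range.1 (Finset.mem_product.1 h).1))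
  refine ⟨F, hF, ?_⟩
  have r := fun l : Fin 4 => ht_ratio hG (x := x) (d := fun i => d i l) (F := F)
    (fun i => ⟨(hl i l).1, fun k hk => ((hl i l).2 k hk).1⟩) fun k hk =>
      Finset.mem_image.2 ⟨(k, l), Finset.mem_product.2
        ⟨Finset.mem_range.2 (Nat.lt_succ_iff.2 hk), Finset.mem_univ _⟩, rfl⟩
  have x0 : ∀ i, (x i : ℚ) ≠ 0 := fun i => by
    simpa using ((hl i 0).2 0 (by norm_num)).1.ne_zero
  let s : Fin 4 → I → ℚ := fun l i => (d i l : ℚ) / x i
  have e1 : (fun i => s 1 i + ((a i : ℤ) : ℚ) * (s 2 i - s 3 i)) = s 0 := by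
    funext i
    have h1 : (d i 0 : ℚ) + a i * d i 3 = d i 1 + a i * d i 2 := by exact_mod_cast e i
    have := x0 i
    simp only [s]
    push_cast
    field_simp
    linear_combination -h1
  have e2 : (fun i => (s 2 i - s 3 i) + s 3 i) = s 2 := by funext i; ring
  have a1 := rep_add θ (s 1) (fun i => ((a i : ℤ) : ℚ) * (s 2 i - s 3 i))
  have a2 := rep_add θ (fun i => s 2 i - s 3 i) (s 3)
  rw [e1] at a1
  rw [e2] at a2
  have a3 := rep_ne θ (fun i => s 2 i - s 3 i) fun i => by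
    simp only [s]
    rw [← sub_div]
    exact div_ne_zero (sub_ne_zero.2 (by exact_mod_cast ne i)) (x0 i)
  filter_upwards [r 0, r 1, r 2, r 3, a1, a2, a3,
    rep_mul θ (fun i => ((a i : ℤ) : ℚ)) (fun i => s 2 i - s 3 i)] with w s0 s1 s2 s3 b1 b2 b3 b4
  change logHeight₁ (rep θ (s _) w) ≤ _ at s0 s1 s2 s3
  change _ = hat θ a w * _ at b4
  have b5 : rep θ (fun i => s 2 i - s 3 i) w = rep θ (s 2) w - rep θ (s 3) w := by rw [b2]; ring
  rw [b4, b5] at b1
  rw [b5] at b3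
  have e : hat θ a w = (rep θ (s 0) w - rep θ (s 1) w) / (rep θ (s 2) w - rep θ (s 3) w) := by
    rw [b1]; field_simp; ring
  have t1 := (congrArg logHeight₁ e).trans_le (h_div _ _)
  have t2 := h_sub (rep θ (s 0) w) (rep θ (s 1) w)
  have t3 := h_sub (rep θ (s 2) w) (rep θ (s 3) w)
  have m1 : (1 : ℝ) ≤ (Mo θ (2 ^ j) F w : ℝ) ^ κ :=
    one_le_pow₀ (by exact_mod_cast one_le_Mo θ _ F w)
  rw [abs_of_nonneg (div_nonneg (zero_le_logHeight₁ _) (by positivity)),
    div_le_iff₀ (by positivity)]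
  rw [mul_pow] at s0 s1 s2 s3
  nlinarith

lemma dom_const (c : ℝ) : Dom θ (2 ^ j) (fun _ => c) := by
  obtain ⟨k, hk⟩ := exists_nat_gt (Real.exp (|c| * (2 + 4 * (|C| * 2 ^ κ))))
  refine (dom_a ps p2 hG (fun _ => 24 * (k + 1))).mono ?_
  filter_upwards [hat_const θ (24 * (k + 1))] with w hw
  haveI : NeZero (24 * (k + 1)) := ⟨by omega⟩
  rw [hw, Rat.logHeight₁_natCast]
  refine le_trans ?_ (le_abs_self _)
  rw [le_div_iff₀ (by positivity), Real.le_log_iff_exp_le (by positivity)]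
  push_cast
  have : (0 : ℝ) ≤ k := by positivity
  linarith

lemma dom_a' (a : I → ℕ) :
    Dom θ (2 ^ j) (fun w => logHeight₁ (hat θ a w)) := by
  refine ((dom_a ps p2 hG a).mul ps (dom_const ps p2 hG (2 + 4 * (|C| * 2 ^ κ)))).mono
    (Eventually.of_forall fun w => ?_)
  rw [div_mul_cancel₀ _ (by positivity)]

/-- all heights are dominated -/
theorem dom_ht (ξ : I → ℚ) : Dom θ (2 ^ j) (fun w => logHeight₁ (rep θ ξ w)) := by
  have hc := dom_const ps p2 hG
  let a : I → ℕ := fun i => 24 * ((ξ i).num.toNat + 1)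
  let a' : I → ℕ := fun i => 24 * ((-(ξ i).num).toNat + 1)
  let b : I → ℕ := fun i => 24 * (ξ i).den
  have d1 := dom_a' ps p2 hG a
  have d2 := dom_a' ps p2 hG a'
  have d3 := dom_a' ps p2 hG b
  refine ((((hc 1).add ps hc d1).add ps hc d2).add ps hc d3).mono ?_
  have e : (fun i => ξ i * ((b i : ℤ) : ℚ) + ((a' i : ℤ) : ℚ)) = fun i => ((a i : ℤ) : ℚ) := by
    funext i
    have h1 : (((ξ i).num.toNat : ℤ) : ℚ) - (((-(ξ i).num).toNat : ℤ) : ℚ) = (ξ i).num := by
      exact_mod_cast Int.toNat_sub_toNat_neg _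
    have h2 := Rat.mul_den_eq_num (ξ i)
    simp only [a, a', b]
    push_cast at h1 ⊢
    linear_combination 24 * h2 - 24 * h1
  have r1 := rep_add θ (fun i => ξ i * ((b i : ℤ) : ℚ)) (fun i => ((a' i : ℤ) : ℚ))
  rw [e] at r1
  filter_upwards [r1, rep_mul θ ξ (fun i => ((b i : ℤ) : ℚ)),
    hat_ne θ b (fun i => (Nat.mul_pos (by norm_num) (ξ i).den_pos).ne')] with w s1 s2 s3
  change hat θ a w = _ + hat θ a' w at s1
  change _ = _ * hat θ b w at s2
  have e2 : rep θ ξ w = (hat θ a w - hat θ a' w) / hat θ b w := by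
    rw [s1, s2]; field_simp; ring
  have t1 := (congrArg logHeight₁ e2).trans_le (h_div _ _)
  have t2 := h_sub (hat θ a w) (hat θ a' w)
  rw [abs_of_nonneg (zero_le_logHeight₁ _)]
  exact le_trans (by linarith) (le_abs_self _)

end

end Vale.Agent.P027Z
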