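import Vale.Agent.P027Z.Iface

/-! Arithmetic of the eighth cyclotomic field: class number one, the prime `d₁`, units. -/

set_option linter.all false

namespace Vale.Agent.P027Z.A1p

open NumberField Polynomial InfinitePlace

instance : NumberField L := inferInstance

instance instCyc' : IsCyclotomicExtension {2 ^ (2 + 1)} ℚ L := instCyc

lemma finrank_L : Module.finrank ℚ L = 4 := by
  rw [IsCyclotomicExtension.Rat.finrank 8 L]; decide

lemma nrC : nrComplexPlaces L = 2 := by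
  rw [IsCyclotomicExtension.Rat.nrComplexPlaces_eq_totient_div_two 8]; decide

lemma nrR : nrRealPlaces L = 0 :=
  IsCyclotomicExtension.Rat.nrRealPlaces_eq_zero (n := 8) L (by norm_num)

lemma discr_L : NumberField.discr L = 256 := by
  have : Fact (Nat.Prime 2) := ⟨Nat.prime_two⟩
  have h := IsCyclotomicExtension.Rat.discr_prime_pow_succ 2 2 L
  norm_num at h
  exact h

instance pid : IsPrincipalIdealRing (𝓞 L) := by
  have : Fact (Nat.Prime 2) := ⟨Nat.prime_two⟩
  apply RingOfIntegers.isPrincipalIdealRing_of_isPrincipal_of_pow_le_of_mem_primesOver_of_mem_Icc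
  intro p hp hpp P hP _
  have hp2 : p = 2 := by
    rw [Finset.mem_Icc] at hp
    have h3 : p < 3 := by
      refine lt_of_le_of_lt hp.2 ?_
      rw [Nat.floor_lt (by positivity), finrank_L, nrC, discr_L]
      have h16 : √|((256 : ℤ) : ℝ)| = 16 := by
        rw [show |((256 : ℤ) : ℝ)| = 16 ^ 2 by norm_num, Real.sqrt_sq (by norm_num)]
      rw [h16]
      have hpi := Real.pi_gt_three
      have : (4 / Real.pi) ^ 2 < (4 / 3) ^ 2 := by gcongr
      norm_num [Nat.factorial] at this ⊢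
      linarith
    have := hpp.two_le
    omega
  subst hp2
  obtain ⟨h1, h2⟩ := hP
  have hζ : IsPrimitiveRoot ζ (2 ^ (2 + 1)) := ζ_spec
  rw [IsCyclotomicExtension.Rat.eq_span_zeta_sub_one_of_liesOver 2 2 L hζ P]
  exact ⟨⟨_, rfl⟩⟩

/-- `ζ` as an integer -/
noncomputable def z : 𝓞 L := ζ_spec.toInteger

lemma coe_z : ((z : 𝓞 L) : L) = ζ := rfl

lemma z_four : z ^ 4 = -1 := by
  apply RingOfIntegers.coe_injective
  simp only [map_pow, map_neg, map_one]
  exact ζ_four

/-- `d₁` as an integer -/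
noncomputable def dd : 𝓞 L := -2 + z ^ 2 + 2 * z ^ 3

lemma coe_dd : algebraMap (𝓞 L) L dd = d₁ := by
  simp only [dd, d₁, map_add, map_neg, map_pow, map_mul, map_ofNat]
  rfl

/-- ring homomorphisms from the ring of integers -/
lemma exists_hom {F : Type} [CommRing F] (w : F) (hw : w ^ 4 + 1 = 0) :
    ∃ ρ : 𝓞 L →+* F, ρ z = w := by
  let pb := ζ_spec.integralPowerBasis
  have hg : pb.gen = z := ζ_spec.integralPowerBasis_gen
  have hm : minpoly ℤ pb.gen = X ^ 4 + 1 := by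
    rw [hg, ← minpoly.algebraMap_eq RingOfIntegers.coe_injective]
    have h1 := cyclotomic_eq_minpoly ζ_spec (by norm_num)
    have h2 : cyclotomic 8 ℤ = X ^ 4 + 1 := by
      rw [show (8 : ℕ) = 2 ^ (2 + 1) by norm_num, cyclotomic_prime_pow_eq_geom_sum Nat.prime_two]
      simp [Finset.sum_range_succ, add_comm]
    rw [← h2, h1]
    congr!
  refine ⟨(pb.lift w (by rw [hm]; simpa using hw)).toRingHom, ?_⟩
  rw [← hg]
  exact pb.lift_gen _ _

lemma red_two (a : 𝓞 L) : ∃ s t : ℤ, dd ∣ a - (s + t * z) := by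
  have htop : Algebra.adjoin ℤ {z} = ⊤ := by
    have h := ζ_spec.integralPowerBasis.adjoin_gen_eq_top
    rwa [ζ_spec.integralPowerBasis_gen] at h
  have ha : a ∈ Algebra.adjoin ℤ {z} := htop ▸ Algebra.mem_top
  have hq : dd ∣ z ^ 2 + z - 1 :=
    ⟨1 - z ^ 2 + z ^ 3, by unfold dd; linear_combination (1 + z - 2 * z ^ 2) * z_four⟩
  induction ha using Algebra.adjoin_induction with
  | mem x hx =>
    rw [Set.mem_singleton_iff] at hx
    subst hx
    exact ⟨0, 1, by simp⟩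
  | algebraMap r => exact ⟨r, 0, by simp⟩
  | add x y _ _ hx hy =>
    obtain ⟨s, t, h⟩ := hx
    obtain ⟨s', t', h'⟩ := hy
    refine ⟨s + s', t + t', ?_⟩
    convert dvd_add h h' using 1
    push_cast; ring
  | mul x y _ _ hx hy =>
    obtain ⟨s, t, h⟩ := hx
    obtain ⟨s', t', h'⟩ := hy
    refine ⟨s * s' + t * t', s * t' + s' * t - t * t', ?_⟩
    convert dvd_add (dvd_add (h.mul_right y) (h'.mul_left (s + t * z))) (hq.mul_left (t * t'))
      using 1
    push_cast; ring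

/-- the field with nine elements -/
abbrev F9 : Type := QuadraticAlgebra (ZMod 3) 1 (-1)

/-- a primitive eighth root of unity -/
def w9 : F9 := ⟨0, 1⟩

lemma f9_dom : ∀ a b : F9, a * b = 0 → a = 0 ∨ b = 0 := by
  rintro ⟨a, a'⟩ ⟨b, b'⟩
  revert a a' b b'
  decide

lemma f9_sq : ∀ u a c : F9, u * a ^ 2 = c ^ 2 → c ≠ 0 → u ^ 4 = 1 := by
  rintro ⟨a, a'⟩ ⟨b, b'⟩ ⟨c, c'⟩
  revert a a' b b' c c'
  decide

lemma f9_four : ∀ u : F9, u ≠ 0 → u ^ 4 = 1 ∨ u ^ 4 = -1 := by
  rintro ⟨a, a'⟩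
  revert a a'
  decide

lemma exists_rho : ∃ ρ : 𝓞 L →+* F9, ρ z = w9 ∧ ∀ a, ρ a = 0 ↔ dd ∣ a := by
  obtain ⟨ρ, hρ⟩ := exists_hom w9 (by decide)
  have h0 : ρ dd = 0 := by
    simp only [dd, map_add, map_neg, map_pow, map_mul, map_ofNat, hρ]
    decide
  refine ⟨ρ, hρ, fun a => ⟨fun h => ?_, ?_⟩⟩
  · obtain ⟨s, t, c, hc⟩ := red_two a
    have h1 := congrArg ρ hc
    simp only [map_sub, map_add, map_mul, map_intCast, h, h0, hρ, zero_mul, zero_sub,
      neg_eq_zero] at h1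
    have hs : (s : ZMod 3) = 0 := by
      have := congrArg QuadraticAlgebra.re h1
      simpa [w9] using this
    have ht : (t : ZMod 3) = 0 := by
      have := congrArg QuadraticAlgebra.im h1
      simpa [w9] using this
    obtain ⟨s', rfl⟩ := (ZMod.intCast_zmod_eq_zero_iff_dvd s 3).1 hs
    obtain ⟨t', rfl⟩ := (ZMod.intCast_zmod_eq_zero_iff_dvd t 3).1 ht
    refine ⟨c + (-2 + z ^ 2 - 2 * z ^ 3) * (s' + t' * z), ?_⟩
    have h3 : dd * (-2 + z ^ 2 - 2 * z ^ 3) = 3 := by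
      unfold dd; linear_combination (1 - 4 * z ^ 2) * z_four
    push_cast at hc
    linear_combination hc - (s' + t' * z) * h3
  · rintro ⟨c, rfl⟩
    rw [map_mul, h0, zero_mul]

lemma dd_ne : dd ≠ 0 := by
  intro h
  have h3 : dd * (-2 + z ^ 2 - 2 * z ^ 3) = 3 := by
    unfold dd; linear_combination (1 - 4 * z ^ 2) * z_four
  rw [h, zero_mul] at h3
  norm_num at h3

lemma dd_prime : Prime dd := by
  obtain ⟨ρ, -, hρ⟩ := exists_rho
  refine ⟨dd_ne, fun h => ?_, fun a b h => ?_⟩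
  · have h1 := (hρ 1).2 (isUnit_iff_dvd_one.1 h)
    rw [map_one] at h1
    exact absurd h1 (by decide)
  · rw [← hρ, map_mul] at h
    rw [← hρ, ← hρ]
    exact f9_dom _ _ h

lemma rank_L : Units.rank L = 1 := by
  rw [Units.rank, card_eq_nrRealPlaces_add_nrComplexPlaces, nrR, nrC]

/-- the units modulo squares are generated by two elements -/
lemma units_two : ∃ g e : (𝓞 L)ˣ, ∀ u : (𝓞 L)ˣ, ∃ v : (𝓞 L)ˣ,
    u = v ^ 2 ∨ u = g * v ^ 2 ∨ u = e * v ^ 2 ∨ u = g * e * v ^ 2 := by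
  obtain ⟨g, hg⟩ := IsCyclic.exists_generator (α := Units.torsion L)
  have : Unique (Fin (Units.rank L)) := by rw [rank_L]; infer_instance
  refine ⟨g, Units.fundSystem L default, fun u => ?_⟩
  obtain ⟨⟨t, e⟩, h, -⟩ := Units.exist_unique_eq_mul_prod L u
  obtain ⟨a, rfl⟩ := Subgroup.mem_zpowers_iff.1 (hg t)
  simp only [Finset.univ_unique, Finset.prod_singleton, SubgroupClass.coe_zpow] at h
  generalize Units.fundSystem L default = f at h ⊢
  generalize e default = b at h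
  refine ⟨(g : (𝓞 L)ˣ) ^ (a / 2) * f ^ (b / 2), ?_⟩
  have e1 : ((g : (𝓞 L)ˣ) ^ (a / 2) * f ^ (b / 2)) ^ 2 =
      (g : (𝓞 L)ˣ) ^ (2 * (a / 2)) * f ^ (2 * (b / 2)) := by
    rw [mul_pow, ← zpow_natCast, ← zpow_natCast, ← zpow_mul, ← zpow_mul, mul_comm (a / 2),
      mul_comm (b / 2)]
    rfl
  rw [e1, h]
  rcases Int.emod_two_eq_zero_or_one a with ha | ha <;>
  rcases Int.emod_two_eq_zero_or_one b with hb | hb
  · left
    rw [show 2 * (a / 2) = a by omega, show 2 * (b / 2) = b by omega]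
  · right; right; left
    rw [show 2 * (a / 2) = a by omega, show 2 * (b / 2) = b - 1 by omega, zpow_sub_one]
    rw [mul_comm f, mul_assoc, mul_assoc, inv_mul_cancel, mul_one]
  · right; left
    rw [show 2 * (a / 2) = a - 1 by omega, show 2 * (b / 2) = b by omega, zpow_sub_one]
    rw [← mul_assoc, mul_comm (g : (𝓞 L)ˣ), mul_assoc _ _ (g : (𝓞 L)ˣ), inv_mul_cancel, mul_one]
  · right; right; right
    rw [show 2 * (a / 2) = a - 1 by omega, show 2 * (b / 2) = b - 1 by omega, zpow_sub_one,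
      zpow_sub_one, mul_mul_mul_comm, mul_comm (g : (𝓞 L)ˣ), mul_comm f, mul_assoc _ _ f,
      mul_assoc _ _ (g : (𝓞 L)ˣ), inv_mul_cancel, inv_mul_cancel, mul_one, mul_one]

/-- the units that are squares modulo `d₁` form at most two classes modulo squares -/
lemma units_local {ρ : 𝓞 L →+* F9} (hρ : ρ z = w9) : ∃ η : (𝓞 L)ˣ, ∀ u : (𝓞 L)ˣ,
    ρ u ^ 4 = 1 → ∃ v : (𝓞 L)ˣ, u = v ^ 2 ∨ u = η * v ^ 2 := by
  obtain ⟨g, e, h⟩ := units_two
  have hu : ∀ u : (𝓞 L)ˣ, ρ u ^ 4 = 1 ∨ ρ u ^ 4 = -1 := fun u => f9_four _ (by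
    intro h0
    have h1 : ρ (u : 𝓞 L) * ρ ((u⁻¹ : (𝓞 L)ˣ) : 𝓞 L) = 1 := by
      rw [← map_mul, Units.mul_inv, map_one]
    rw [h0, zero_mul] at h1
    exact absurd h1 (by decide))
  have hsq : ∀ v : (𝓞 L)ˣ, ρ ((v ^ 2 : (𝓞 L)ˣ) : 𝓞 L) ^ 4 = 1 := fun v => by
    rw [Units.val_pow_eq_pow_val, map_pow, ← pow_mul, mul_comm, pow_mul]
    rcases hu v with h | h <;> rw [h] <;> norm_num
  have hmul : ∀ u v : (𝓞 L)ˣ, ρ ((u * v : (𝓞 L)ˣ) : 𝓞 L) ^ 4 = ρ u ^ 4 * ρ v ^ 4 := fun u v => by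
    rw [Units.val_mul, map_mul, mul_pow]
  have hne : (-1 : F9) ≠ 1 := by decide
  rcases hu g with hg | hg <;> rcases hu e with he | he
  · exfalso
    have hz : IsUnit z := IsUnit.of_pow_eq_one (n := 8)
      (by linear_combination (z ^ 4 - 1) * z_four) (by norm_num)
    obtain ⟨v, hv⟩ := h hz.unit
    have h1 : ρ (hz.unit : 𝓞 L) ^ 4 = -1 := by rw [IsUnit.unit_spec, hρ]; decide
    apply hne
    rw [← h1]
    rcases hv with hv | hv | hv | hv <;> rw [hv] <;> simp only [hmul, hsq, hg, he, mul_one]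
  · refine ⟨g, fun u h1 => ?_⟩
    obtain ⟨v, hv⟩ := h u
    refine ⟨v, ?_⟩
    rcases hv with hv | hv | hv | hv
    · exact Or.inl hv
    · exact Or.inr hv
    · rw [hv] at h1; simp only [hmul, hsq, hg, he, mul_one, one_mul] at h1; exact absurd h1 hne
    · rw [hv] at h1; simp only [hmul, hsq, hg, he, mul_one, one_mul] at h1; exact absurd h1 hne
  · refine ⟨e, fun u h1 => ?_⟩
    obtain ⟨v, hv⟩ := h u
    refine ⟨v, ?_⟩
    rcases hv with hv | hv | hv | hv
    · exact Or.inl hv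
    · rw [hv] at h1; simp only [hmul, hsq, hg, he, mul_one, one_mul] at h1; exact absurd h1 hne
    · exact Or.inr hv
    · rw [hv] at h1; simp only [hmul, hsq, hg, he, mul_one, one_mul] at h1; exact absurd h1 hne
  · refine ⟨g * e, fun u h1 => ?_⟩
    obtain ⟨v, hv⟩ := h u
    refine ⟨v, ?_⟩
    rcases hv with hv | hv | hv | hv
    · exact Or.inl hv
    · rw [hv] at h1; simp only [hmul, hsq, hg, he, mul_one, one_mul] at h1; exact absurd h1 hne
    · rw [hv] at h1; simp only [hmul, hsq, hg, he, mul_one, one_mul] at h1; exact absurd h1 hne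
    · exact Or.inr hv

/-- an integer that is a square in the field is a square of an integer -/
lemma sq_int {a : 𝓞 L} {s : L} (h : s ^ 2 = algebraMap (𝓞 L) L a) : ∃ c : 𝓞 L, c ^ 2 = a := by
  obtain ⟨c, hc⟩ := IsIntegrallyClosed.exists_algebraMap_eq_of_isIntegral_pow (R := 𝓞 L) (K := L)
    (x := s) (n := 2) (by norm_num) (by rw [h]; exact isIntegral_algebraMap)
  refine ⟨c, RingOfIntegers.coe_injective ?_⟩
  rw [map_pow, hc, h]

lemma not_sq {F : Type} [CommRing F] (ρ : 𝓞 L →+* F) {a : 𝓞 L} (h : ∀ c : F, c ^ 2 ≠ ρ a) (s : L) :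
    s ^ 2 ≠ algebraMap (𝓞 L) L a := by
  intro hs
  obtain ⟨c, hc⟩ := sq_int hs
  exact h (ρ c) (by rw [← map_pow, hc])

/-- the first coordinate of the point of infinite order -/
noncomputable def x₀ : L := 1 + ζ + ζ ^ 2

lemma ns_d (s : L) : s ^ 2 ≠ -d₁ := by
  obtain ⟨ρ, hρ⟩ := exists_hom (9 : ZMod 17) (by decide)
  have := not_sq ρ (a := -dd) (by
    simp only [dd, map_add, map_neg, map_pow, map_mul, map_ofNat, hρ]; decide) s
  rwa [map_neg, coe_dd] at this

lemma ns_x (s : L) : s ^ 2 ≠ x₀ := by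
  obtain ⟨ρ, hρ⟩ := exists_hom (2 : ZMod 17) (by decide)
  have := not_sq ρ (a := 1 + z + z ^ 2) (by
    simp only [map_add, map_one, map_pow, hρ]; decide) s
  simp only [map_add, map_one, map_pow] at this
  exact this

lemma ns_dx (s : L) : s ^ 2 ≠ -d₁ * x₀ := by
  obtain ⟨ρ, hρ⟩ := exists_hom (2 : ZMod 17) (by decide)
  have := not_sq ρ (a := -dd * (1 + z + z ^ 2)) (by
    simp only [dd, map_add, map_neg, map_one, map_pow, map_mul, map_ofNat, hρ]; decide) s
  simp only [map_add, map_one, map_pow, map_mul, map_neg, coe_dd] at this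
  exact this

/-- the classes of the first coordinates modulo squares -/
theorem classes : ∃ η : L, η ≠ 0 ∧ ∀ x y : L, x ≠ 0 → y ^ 2 = x ^ 3 - d₁ * x →
    ∃ s : L, x = s ^ 2 ∨ x = η * s ^ 2 ∨ x = -d₁ * s ^ 2 ∨ x = -d₁ * η * s ^ 2 := by
  obtain ⟨ρ, hρ, hker⟩ := exists_rho
  obtain ⟨η, hη⟩ := units_local hρ
  have hd : d₁ ≠ 0 := by
    rw [← coe_dd]; exact fun h => dd_ne (RingOfIntegers.coe_injective (by simpa using h))
  refine ⟨algebraMap (𝓞 L) L η, by simp, ?_⟩
  -- the case that the numerator is prime to `d₁`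
  have key : ∀ n m : 𝓞 L, IsCoprime n m → ¬ dd ∣ n → m ≠ 0 → ∀ y : L,
      y ^ 2 = (algebraMap (𝓞 L) L n / algebraMap (𝓞 L) L m) ^ 3 -
        d₁ * (algebraMap (𝓞 L) L n / algebraMap (𝓞 L) L m) →
      ∃ s : L, algebraMap (𝓞 L) L n / algebraMap (𝓞 L) L m = s ^ 2 ∨
        algebraMap (𝓞 L) L n / algebraMap (𝓞 L) L m = algebraMap (𝓞 L) L η * s ^ 2 := by
    intro n m hco hn hm y hy
    have hm' : algebraMap (𝓞 L) L m ≠ 0 := by simpa using hm
    have hn' : algebraMap (𝓞 L) L n ≠ 0 := by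
      intro h
      apply hn
      rw [RingOfIntegers.coe_injective (show algebraMap (𝓞 L) L n = algebraMap (𝓞 L) L 0 by
        simpa using h)]
      exact dvd_zero _
    have h1 : (y * algebraMap (𝓞 L) L m ^ 2) ^ 2 =
        algebraMap (𝓞 L) L ((n ^ 2 - dd * m ^ 2) * (n * m)) := by
      simp only [map_mul, map_sub, map_pow, coe_dd]
      rw [mul_pow, hy]
      field_simp
    obtain ⟨c, hc⟩ := sq_int h1
    have hdn : IsCoprime dd n := (dd_prime.irreducible.coprime_iff_not_dvd).2 hn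
    have hA : IsCoprime (n ^ 2 - dd * m ^ 2) (n * m) := by
      refine IsCoprime.mul_right ?_ ?_
      · have : IsCoprime (-(dd * m ^ 2) + n * n) n :=
          IsCoprime.add_mul_left_left (IsCoprime.neg_left
            (hdn.mul_left (hco.symm.pow_left))) n
        convert this using 1; ring
      · have : IsCoprime (n ^ 2 + m * (-(dd * m))) m :=
          IsCoprime.add_mul_left_left hco.pow_left _
        convert this using 1; ring
    obtain ⟨t, u, hu⟩ := exists_associated_pow_of_mul_eq_pow' hA hc.symm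
    have hρn : ρ n ≠ 0 := fun h => hn ((hker n).1 h)
    have h2 : ρ u * ρ t ^ 2 = ρ n ^ 2 := by
      have := congrArg ρ hu
      simp only [map_mul, map_pow, map_sub, (hker dd).2 dvd_rfl, zero_mul, sub_zero] at this
      rw [← this]; ring
    obtain ⟨v, hv⟩ := hη u (f9_sq _ _ _ h2 hρn)
    have ht : algebraMap (𝓞 L) L t ≠ 0 := by
      intro h
      have : t = 0 := RingOfIntegers.coe_injective (by simpa using h)
      rw [this, map_zero] at h2
      exact hρn (by
        have h3 : ρ n * ρ n = 0 := by rw [← pow_two, ← h2]; ring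
        rcases f9_dom _ _ h3 with h | h <;> exact h)
    have hv0 : algebraMap (𝓞 L) L v ≠ 0 := by simp
    have hη0 : algebraMap (𝓞 L) L η ≠ 0 := by simp
    have h4 := congrArg (algebraMap (𝓞 L) L) hu
    have h5 := congrArg (algebraMap (𝓞 L) L) hc
    rw [← hu] at h5
    simp only [map_mul, map_pow] at h5
    rcases hv with hv | hv
    · refine ⟨algebraMap (𝓞 L) L c / (algebraMap (𝓞 L) L t * algebraMap (𝓞 L) L v *
        algebraMap (𝓞 L) L m), Or.inl ?_⟩
      rw [div_pow, h5, hv]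
      simp only [Units.val_pow_eq_pow_val, map_pow]
      field_simp
    · refine ⟨algebraMap (𝓞 L) L c / (algebraMap (𝓞 L) L t * algebraMap (𝓞 L) L v *
        algebraMap (𝓞 L) L m * algebraMap (𝓞 L) L η), Or.inr ?_⟩
      rw [div_pow, h5, hv]
      simp only [Units.val_pow_eq_pow_val, Units.val_mul, map_pow, map_mul]
      field_simp
  intro x y hx hy
  obtain ⟨n, m, hco, hx'⟩ := IsFractionRing.exists_reduced_fraction (𝓞 L) x
  rw [IsFractionRing.mk'_eq_div] at hx'
  have hm : (m : 𝓞 L) ≠ 0 := nonZeroDivisors.coe_ne_zero m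
  have hm' : algebraMap (𝓞 L) L m ≠ 0 := by simpa using hm
  have hco' : IsCoprime n m := hco.isCoprime
  by_cases hn : dd ∣ n
  · obtain ⟨n', rfl⟩ := hn
    have hn0 : n' ≠ 0 := by
      rintro rfl
      apply hx
      rw [← hx']; simp
    have hn0' : algebraMap (𝓞 L) L n' ≠ 0 := by simpa using hn0
    have hdm : ¬ dd ∣ -(m : 𝓞 L) := by
      intro h
      exact dd_prime.not_unit (hco'.isUnit_of_dvd' (dvd_mul_right _ _) (dvd_neg.1 h))
    have e1 : algebraMap (𝓞 L) L (-(m : 𝓞 L)) / algebraMap (𝓞 L) L n' = -d₁ / x := by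
      rw [← hx', map_neg, map_mul, coe_dd]; field_simp
    obtain ⟨s, hs⟩ := key (-(m : 𝓞 L)) n' (hco'.of_mul_left_right.symm.neg_left) hdm hn0
      (d₁ * y / x ^ 2) (by
        rw [e1, div_pow, mul_pow, hy]; field_simp; ring)
    rw [e1] at hs
    have hs0 : s ≠ 0 := by
      rintro rfl
      have : -d₁ / x ≠ 0 := div_ne_zero (neg_ne_zero.2 hd) hx
      simp at hs
      rcases hs with hs | hs <;> contradiction
    have hη0 : algebraMap (𝓞 L) L η ≠ 0 := by simp
    rcases hs with hs | hs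
    · refine ⟨1 / s, Or.inr (Or.inr (Or.inl ?_))⟩
      rw [div_eq_iff hx] at hs
      rw [hs]; field_simp
    · refine ⟨1 / (algebraMap (𝓞 L) L η * s), Or.inr (Or.inr (Or.inr ?_))⟩
      rw [div_eq_iff hx] at hs
      rw [hs]; field_simp
  · obtain ⟨s, hs⟩ := key n m hco' hn hm y (by rw [hx']; exact hy)
    rw [hx'] at hs
    rcases hs with hs | hs
    · exact ⟨s, Or.inl hs⟩
    · exact ⟨s, Or.inr (Or.inl hs)⟩

end Vale.Agent.P027Z.A1p
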