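import Vale.Agent.P027Z.Basic

/-! Degrees of the first coordinates of the multiples of a point over a rational function
field. -/

set_option linter.all false

namespace Vale.Agent.P027Z.A2p

open WeierstrassCurve WeierstrassCurve.Affine Polynomial

section AddFormula
variable {K : Type*} [Field K] [DecidableEq K] {e : K}

lemma xc_add_of_ne {x₁ y₁ x₂ y₂ : K} (h₁ : (W e).Nonsingular x₁ y₁)
    (h₂ : (W e).Nonsingular x₂ y₂) (hx : x₁ ≠ x₂) :
    xc (Point.some x₁ y₁ h₁ + Point.some x₂ y₂ h₂) * (x₁ - x₂) ^ 2 =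
      (x₁ + x₂) * (x₁ * x₂ - e) - 2 * y₁ * y₂ := by
  rw [Point.add_of_X_ne hx, xc_some, W_addX, slope_of_X_ne hx]
  have e1 := ((W_nonsingular e _ _).1 h₁).1
  have e2 := ((W_nonsingular e _ _).1 h₂).1
  have : x₁ - x₂ ≠ 0 := sub_ne_zero.2 hx
  field_simp
  linear_combination e1 + e2

lemma xc_add_sub {x₁ y₁ x₂ y₂ : K} (h₁ : (W e).Nonsingular x₁ y₁)
    (h₂ : (W e).Nonsingular x₂ y₂) (hx : x₁ ≠ x₂) :
    (xc (Point.some x₁ y₁ h₁ + Point.some x₂ y₂ h₂) +
      xc (Point.some x₁ y₁ h₁ - Point.some x₂ y₂ h₂)) * (x₁ - x₂) ^ 2 =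
        2 * (x₁ + x₂) * (x₁ * x₂ - e) ∧
    xc (Point.some x₁ y₁ h₁ + Point.some x₂ y₂ h₂) *
      xc (Point.some x₁ y₁ h₁ - Point.some x₂ y₂ h₂) * (x₁ - x₂) ^ 2 = (x₁ * x₂ + e) ^ 2 := by
  have a1 := xc_add_of_ne h₁ h₂ hx
  rw [sub_eq_add_neg (Point.some x₁ y₁ h₁), Point.neg_some]
  have a2 := xc_add_of_ne h₁ ((nonsingular_neg x₂ y₂).2 h₂) hx
  have e1 := ((W_nonsingular e _ _).1 h₁).1
  have e2 := ((W_nonsingular e _ _).1 h₂).1
  have h0 : x₁ - x₂ ≠ 0 := sub_ne_zero.2 hx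
  generalize xc (Point.some x₁ y₁ h₁ + Point.some x₂ y₂ h₂) = a at *
  generalize xc (Point.some x₁ y₁ h₁ + Point.some x₂ _ ((nonsingular_neg x₂ y₂).2 h₂)) = b at *
  rw [W_negY] at a2
  refine ⟨by linear_combination a1 + a2, ?_⟩
  apply mul_right_cancel₀ (pow_ne_zero 2 h0)
  linear_combination (b * (x₁ - x₂) ^ 2) * a1 +
    ((x₁ + x₂) * (x₁ * x₂ - e) - 2 * y₁ * y₂) * a2 - 4 * y₂ ^ 2 * e1 - 4 * (x₁ ^ 3 - e * x₁) * e2

lemma xc_dbl {x y : K} (h : (W e).Nonsingular x y) (hy : 2 * y ≠ 0) :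
    xc (Point.some x y h + Point.some x y h) * (4 * (x ^ 3 - e * x)) = (x ^ 2 + e) ^ 2 := by
  have hy' : y ≠ (W e).negY x y := by
    rw [W_negY]; intro h'; apply hy; linear_combination h'
  rw [Point.add_self_of_Y_ne hy', xc_some, W_addX, slope_of_Y_ne rfl hy']
  have e1 := ((W_nonsingular e _ _).1 h).1
  simp only [W_a₁, W_a₂, W_a₄, W_negY]
  have h2 : y - -y = 2 * y := by ring
  rw [h2, ← e1]
  have h3 : (2 : K) ≠ 0 := left_ne_zero_of_mul hy
  have h4 : y ≠ 0 := right_ne_zero_of_mul hy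
  field_simp
  linear_combination (-32 * x) * e1

end AddFormula

variable {k : Type*} [Field k]

lemma deg_pair (A₃ B₃ A₄ B₄ : k[X]) (hB₃ : B₃ ≠ 0) (hB₄ : B₄ ≠ 0) (n : ℕ)
    (h1 : (A₃ * A₄).natDegree ≤ n) (h2 : (A₃ * B₄ + A₄ * B₃).natDegree ≤ n)
    (h3 : (B₃ * B₄).natDegree ≤ n) :
    max A₃.natDegree B₃.natDegree + max A₄.natDegree B₄.natDegree ≤ n := by
  have ne : ∀ {A B : k[X]}, B.natDegree < A.natDegree → A ≠ 0 := by
    rintro A B h rfl
    simp at h
  rcases le_or_gt A₃.natDegree B₃.natDegree with c3 | c3 <;>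
    rcases le_or_gt A₄.natDegree B₄.natDegree with c4 | c4
  · rw [natDegree_mul hB₃ hB₄] at h3
    rw [max_eq_right c3, max_eq_right c4]; exact h3
  · have m1 := natDegree_mul (ne c4) hB₃
    have m2 : (A₃ * B₄).natDegree ≤ _ := natDegree_mul_le
    rw [natDegree_add_eq_right_of_natDegree_lt (by omega)] at h2
    rw [max_eq_right c3, max_eq_left c4.le]; omega
  · have m1 := natDegree_mul (ne c3) hB₄
    have m2 : (A₄ * B₃).natDegree ≤ _ := natDegree_mul_le
    rw [natDegree_add_eq_left_of_natDegree_lt (by omega)] at h2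
    rw [max_eq_left c3.le, max_eq_right c4]; omega
  · rw [natDegree_mul (ne c3) (ne c4)] at h1
    rw [max_eq_left c3.le, max_eq_left c4.le]; exact h1

/-- the degree of a rational function as a map of the projective line -/
noncomputable def H (r : RatFunc k) : ℕ := max r.num.natDegree r.denom.natDegree

lemma H_zero : H (0 : RatFunc k) = 0 := by simp [H]

lemma mul_denom (r : RatFunc k) :
    r * algebraMap k[X] (RatFunc k) r.denom = algebraMap k[X] (RatFunc k) r.num := by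
  have h : algebraMap k[X] (RatFunc k) r.denom ≠ 0 :=
    (map_ne_zero_iff _ (RatFunc.algebraMap_injective k)).2 r.denom_ne_zero
  conv_lhs => rw [← RatFunc.num_div_denom r]
  rw [RatFunc.num_div_denom, ← eq_div_iff h, RatFunc.num_div_denom]

lemma H_pair (r₃ r₄ : RatFunc k) (U V Z : k[X]) (n : ℕ) (hZ : Z ≠ 0)
    (hs : (r₃ + r₄) * algebraMap k[X] (RatFunc k) Z = algebraMap k[X] (RatFunc k) V)
    (hp : r₃ * r₄ * algebraMap k[X] (RatFunc k) Z = algebraMap k[X] (RatFunc k) U)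
    (hU : U.natDegree ≤ n) (hV : V.natDegree ≤ n) (hZn : Z.natDegree ≤ n) :
    H r₃ + H r₄ ≤ n := by
  have m3 := mul_denom r₃
  have m4 := mul_denom r₄
  obtain ⟨s₃, t₃, c3⟩ := RatFunc.isCoprime_num_denom r₃
  obtain ⟨s₄, t₄, c4⟩ := RatFunc.isCoprime_num_denom r₄
  have n3 := r₃.denom_ne_zero
  have n4 := r₄.denom_ne_zero
  unfold H
  generalize r₃.num = A₃ at *
  generalize r₃.denom = B₃ at *
  generalize r₄.num = A₄ at *
  generalize r₄.denom = B₄ at *
  have e1 : A₃ * A₄ * Z = U * (B₃ * B₄) := by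
    apply RatFunc.algebraMap_injective k
    simp only [map_mul]
    rw [← m3, ← m4, ← hp]; ring
  have e2 : (A₃ * B₄ + A₄ * B₃) * Z = V * (B₃ * B₄) := by
    apply RatFunc.algebraMap_injective k
    simp only [map_mul, map_add]
    rw [← m3, ← m4, ← hs]; ring
  have hc : IsCoprime (A₃ ^ 2) (B₃ ^ 2) := IsCoprime.pow ⟨s₃, t₃, c3⟩
  obtain ⟨s, t, c⟩ := hc
  obtain ⟨g, hg⟩ : ∃ g, Z = g * (B₃ * B₄) := by
    refine ⟨s * (s₄ * A₃ * U + t₄ * (A₃ * V - B₃ * U)) +
      t * (s₄ * (B₃ * V - A₃ * Z) + t₄ * B₃ * Z), ?_⟩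
    linear_combination (-Z) * c - (s * A₃ ^ 2 + t * B₃ ^ 2) * Z * c4 +
      (s * s₄ * A₃ - s * t₄ * B₃) * e1 + (s * t₄ * A₃ + t * s₄ * B₃) * e2
  have g0 : g ≠ 0 := by rintro rfl; exact hZ (by simpa using hg)
  have nB := mul_ne_zero n3 n4
  have key : ∀ p P : k[X], P = g * p → P.natDegree ≤ n → p.natDegree ≤ n := by
    intro p P h hP
    by_cases h0 : p = 0
    · simp [h0]
    · rw [h, natDegree_mul g0 h0] at hP; omega
  refine deg_pair A₃ B₃ A₄ B₄ n3 n4 n (key _ U ?_ hU) (key _ V ?_ hV) (key _ Z hg hZn)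
  · apply mul_right_cancel₀ nB
    rw [← e1, hg]; ring
  · apply mul_right_cancel₀ nB
    rw [← e2, hg]; ring

lemma H_le (r : RatFunc k) (A B : k[X]) (n : ℕ) (hB : B ≠ 0)
    (hs : r * algebraMap k[X] (RatFunc k) B = algebraMap k[X] (RatFunc k) A)
    (hA : A.natDegree ≤ n) (hBn : B.natDegree ≤ n) : H r ≤ n := by
  have := H_pair r 0 0 A B n hB (by simpa using hs) (by simp) (by simp) hA hBn
  omega

lemma H_neg (r : RatFunc k) : H (-r) ≤ H r :=
  H_le _ (-r.num) r.denom _ r.denom_ne_zero (by rw [map_neg, ← mul_denom]; ring)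
    (by rw [natDegree_neg]; exact le_max_left _ _) (le_max_right _ _)

lemma H_par (d : k) (r₁ r₂ r₃ r₄ : RatFunc k) (h : r₁ ≠ r₂)
    (hs : (r₃ + r₄) * (r₁ - r₂) ^ 2 = 2 * (r₁ + r₂) * (r₁ * r₂ - RatFunc.C d))
    (hp : r₃ * r₄ * (r₁ - r₂) ^ 2 = (r₁ * r₂ + RatFunc.C d) ^ 2) :
    H r₃ + H r₄ ≤ 2 * H r₁ + 2 * H r₂ := by
  have m1 := mul_denom r₁
  have m2 := mul_denom r₂
  have n1 := r₁.denom_ne_zero
  have n2 := r₂.denom_ne_zero
  have a1 : r₁.num.natDegree ≤ H r₁ := le_max_left _ _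
  have b1 : r₁.denom.natDegree ≤ H r₁ := le_max_right _ _
  have a2 : r₂.num.natDegree ≤ H r₂ := le_max_left _ _
  have b2 : r₂.denom.natDegree ≤ H r₂ := le_max_right _ _
  generalize r₁.num = A₁ at *
  generalize r₁.denom = B₁ at *
  generalize r₂.num = A₂ at *
  generalize r₂.denom = B₂ at *
  generalize H r₁ = h₁ at *
  generalize H r₂ = h₂ at *
  have p1 : (A₁ * A₂).natDegree ≤ h₁ + h₂ := natDegree_mul_le_of_le a1 a2
  have p2 : (A₁ * B₂).natDegree ≤ h₁ + h₂ := natDegree_mul_le_of_le a1 b2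
  have p3 : (B₁ * A₂).natDegree ≤ h₁ + h₂ := natDegree_mul_le_of_le b1 a2
  have p4 : (C d * (B₁ * B₂)).natDegree ≤ h₁ + h₂ :=
    (natDegree_C_mul_le _ _).trans (natDegree_mul_le_of_le b1 b2)
  have q1 := natDegree_add_le_of_degree_le p1 p4
  have q2 := natDegree_sub_le_of_le p1 p4
  have q3 := natDegree_add_le_of_degree_le p2 p3
  have q4 := natDegree_sub_le_of_le p2 p3
  rw [max_self] at q2 q4
  have hC : algebraMap k[X] (RatFunc k) (C d) = RatFunc.C d := rfl
  have h2 : algebraMap k[X] (RatFunc k) (C 2) = 2 := map_ofNat (algebraMap k (RatFunc k)) 2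
  refine H_pair r₃ r₄ ((A₁ * A₂ + C d * (B₁ * B₂)) ^ 2)
    (C 2 * ((A₁ * B₂ + B₁ * A₂) * (A₁ * A₂ - C d * (B₁ * B₂)))) ((A₁ * B₂ - B₁ * A₂) ^ 2) _
    (pow_ne_zero 2 fun h0 => h ?_) ?_ ?_ ?_ ?_ ?_
  · have := congrArg (algebraMap k[X] (RatFunc k)) h0
    simp only [map_mul, map_sub, map_zero] at this
    rw [← m1, ← m2] at this
    have i1 := (map_ne_zero_iff _ (RatFunc.algebraMap_injective k)).2 n1
    have i2 := (map_ne_zero_iff _ (RatFunc.algebraMap_injective k)).2 n2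
    apply mul_right_cancel₀ (mul_ne_zero i1 i2)
    linear_combination this
  · simp only [map_mul, map_sub, map_add, map_pow, hC, h2]
    rw [← m1, ← m2]
    linear_combination (algebraMap k[X] (RatFunc k) B₁ * algebraMap k[X] (RatFunc k) B₂) ^ 2 * hs
  · simp only [map_mul, map_sub, map_add, map_pow, hC, h2]
    rw [← m1, ← m2]
    linear_combination (algebraMap k[X] (RatFunc k) B₁ * algebraMap k[X] (RatFunc k) B₂) ^ 2 * hp
  · exact (natDegree_pow_le_of_le 2 q1).trans (by omega)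
  · exact (natDegree_C_mul_le _ _).trans ((natDegree_mul_le_of_le q3 q2).trans (by omega))
  · exact (natDegree_pow_le_of_le 2 q4).trans (by omega)

lemma H_dbl (d : k) (r r₃ : RatFunc k) (h : 4 * (r ^ 3 - RatFunc.C d * r) ≠ 0)
    (hs : r₃ * (4 * (r ^ 3 - RatFunc.C d * r)) = (r ^ 2 + RatFunc.C d) ^ 2) :
    H r₃ ≤ 4 * H r := by
  have m1 := mul_denom r
  have n1 := r.denom_ne_zero
  have a1 : r.num.natDegree ≤ H r := le_max_left _ _
  have b1 : r.denom.natDegree ≤ H r := le_max_right _ _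
  generalize r.num = A at *
  generalize r.denom = B at *
  generalize H r = h₁ at *
  have p1 : (A * A).natDegree ≤ h₁ + h₁ := natDegree_mul_le_of_le a1 a1
  have p2 : (A * B).natDegree ≤ h₁ + h₁ := natDegree_mul_le_of_le a1 b1
  have p4 : (C d * (B * B)).natDegree ≤ h₁ + h₁ :=
    (natDegree_C_mul_le _ _).trans (natDegree_mul_le_of_le b1 b1)
  have q1 := natDegree_add_le_of_degree_le p1 p4
  have q2 := natDegree_sub_le_of_le p1 p4
  rw [max_self] at q2
  have hC : algebraMap k[X] (RatFunc k) (C d) = RatFunc.C d := rfl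
  have h2 : algebraMap k[X] (RatFunc k) (C 4) = 4 := map_ofNat (algebraMap k (RatFunc k)) 4
  have i1 := (map_ne_zero_iff _ (RatFunc.algebraMap_injective k)).2 n1
  have e : algebraMap k[X] (RatFunc k) (C 4 * ((A * B) * (A * A - C d * (B * B)))) =
      algebraMap k[X] (RatFunc k) B ^ 4 * (4 * (r ^ 3 - RatFunc.C d * r)) := by
    simp only [map_mul, map_sub, hC, h2]
    rw [← m1]; ring
  refine H_le r₃ ((A * A + C d * (B * B)) ^ 2) (C 4 * ((A * B) * (A * A - C d * (B * B)))) _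
    (fun h0 => ?_) ?_ ?_ ?_
  · rw [h0, map_zero] at e
    exact mul_ne_zero (pow_ne_zero 4 i1) h e.symm
  · rw [e]
    simp only [map_mul, map_add, map_pow, hC]
    rw [← m1]
    linear_combination (algebraMap k[X] (RatFunc k) B) ^ 4 * hs
  · exact (natDegree_pow_le_of_le 2 q1).trans (by omega)
  · exact (natDegree_C_mul_le _ _).trans ((natDegree_mul_le_of_le p2 q2).trans (by omega))

section Points
variable [DecidableEq (RatFunc k)] {d : k} {D e : RatFunc k}

/-- the height of a point of the twisted curve -/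
noncomputable def hh (D : RatFunc k) (Q : (W e).Point) : ℕ := H (xc Q / D)

lemma hh_zero : hh D (0 : (W e).Point) = 0 := by simp [hh, H_zero]

lemma hh_neg (Q : (W e).Point) : hh D (-Q) = hh D Q := by rw [hh, hh, xc_neg]

lemma hh_dbl (hD : D ≠ 0) (he : e = RatFunc.C d * D ^ 2) (P : (W e).Point) :
    hh D (P + P) ≤ 4 * hh D P := by
  rcases P with _ | ⟨x, y, h⟩
  · show hh D (0 + 0) ≤ _
    rw [add_zero, hh_zero]; omega
  by_cases hy : 2 * y = 0
  · rw [Point.add_self_of_Y_eq (by rw [W_negY]; linear_combination hy), hh_zero]; omega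
  have e1 := ((W_nonsingular e _ _).1 h).1
  have a := xc_dbl h hy
  unfold hh
  rw [xc_some]
  refine H_dbl d _ _ ?_ ?_
  · intro h0
    apply pow_ne_zero 2 hy
    field_simp at h0
    rw [he] at e1
    linear_combination 4 * e1 + h0
  · generalize xc (Point.some x y h + Point.some x y h) = z at *
    rw [he] at a
    field_simp
    linear_combination a

lemma hh_par (hD : D ≠ 0) (he : e = RatFunc.C d * D ^ 2) (P Q : (W e).Point) :
    hh D (P + Q) + hh D (P - Q) ≤ 2 * hh D P + 2 * hh D Q := by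
  rcases P with _ | ⟨x₁, y₁, h₁⟩
  · show hh D (0 + Q) + hh D (0 - Q) ≤ _
    rw [zero_add, zero_sub, hh_neg]; omega
  rcases Q with _ | ⟨x₂, y₂, h₂⟩
  · show hh D (_ + 0) + hh D (_ - 0) ≤ _
    rw [add_zero, sub_zero]; omega
  by_cases hx : x₁ = x₂
  · subst hx
    have hd := hh_dbl hD he (Point.some x₁ y₁ h₁)
    rcases Y_eq_of_X_eq h₁.1 h₂.1 rfl with hy | hy
    · subst hy
      rw [sub_self, hh_zero]; omega
    · have : Point.some x₁ y₂ h₂ = -Point.some x₁ y₁ h₁ := by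
        rw [Point.neg_some]; congr 1; rw [hy]; simp
      rw [this, add_neg_cancel, sub_neg_eq_add, hh_zero, hh_neg]; omega
  obtain ⟨a, b⟩ := xc_add_sub h₁ h₂ hx
  unfold hh
  rw [xc_some, xc_some]
  generalize xc (Point.some x₁ y₁ h₁ + Point.some x₂ y₂ h₂) = z at *
  generalize xc (Point.some x₁ y₁ h₁ - Point.some x₂ y₂ h₂) = w at *
  rw [he] at a b
  refine H_par d _ _ _ _ (fun h => hx ((div_left_inj' hD).1 h)) ?_ ?_
  · field_simp
    linear_combination a
  · field_simp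
    linear_combination b

lemma hh_nsmul (hD : D ≠ 0) (he : e = RatFunc.C d * D ^ 2) (P : (W e).Point) (n : ℕ) :
    hh D (n • P) ≤ n ^ 2 * hh D P ∧
      hh D ((n + 1) • P) ≤ hh D (n • P) + (2 * n + 1) * hh D P := by
  induction n with
  | zero => simp [hh_zero]
  | succ n ih =>
    have := hh_par hD he ((n + 1) • P) P
    rw [← succ_nsmul, succ_nsmul P n, add_sub_cancel_right, ← succ_nsmul] at this
    constructor <;> nlinarith [ih.1, ih.2]

lemma hh_zsmul (hD : D ≠ 0) (he : e = RatFunc.C d * D ^ 2) (P : (W e).Point) (n : ℤ) :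
    hh D (n • P) ≤ n.natAbs ^ 2 * hh D P := by
  rcases Int.natAbs_eq n with h | h
  · conv_lhs => rw [h, natCast_zsmul]
    exact (hh_nsmul hD he P _).1
  · conv_lhs => rw [h, neg_smul, hh_neg, natCast_zsmul]
    exact (hh_nsmul hD he P _).1

lemma hh_gs (hD : D ≠ 0) (he : e = RatFunc.C d * D ^ 2) {i : RatFunc k} (hi : i ^ 2 = -1)
    (P : (W e).Point) (a : GaussianInt) : hh D (gs hi a P) ≤ 2 * a.norm.natAbs * hh D P := by
  have h1 := hh_par hD he (a.re • P) (a.im • J hi P)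
  have h2 := hh_zsmul hD he P a.re
  have h3 := hh_zsmul hD he (J hi P) a.im
  have h4 : hh D (J hi P) ≤ hh D P := by
    rw [hh, xc_J, neg_div]; exact H_neg _
  have h5 : a.norm.natAbs = a.re.natAbs ^ 2 + a.im.natAbs ^ 2 := by
    have : a.norm = ((a.re.natAbs ^ 2 + a.im.natAbs ^ 2 : ℕ) : ℤ) := by
      push_cast
      rw [sq_abs, sq_abs, Zsqrtd.norm_def]; ring
    rw [this, Int.natAbs_natCast]
  have h6 := Nat.mul_le_mul_left (a.im.natAbs ^ 2) h4
  rw [h5, gs]
  nlinarith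

end Points

end Vale.Agent.P027Z.A2p
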