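import Vale.Agent.P027Z.Iface
import Vale.Agent.P027Z.A2a

/-! A bound for the number of points killed by a Gaussian integer. -/

set_option linter.all false

namespace Vale.Agent.P027Z.A2p

open WeierstrassCurve WeierstrassCurve.Affine Polynomial

/-- reduction commutes with the action of the Gaussian integers -/
lemma red_gs (hR : Red) (k : Type) [Field k] [DecidableEq k] (O : ValuationSubring k)
    (κ : Type) [Field κ] [DecidableEq κ] (ρ : O →+* κ)
    (hρ : ∀ c : O, ρ c = 0 ↔ (c : k) ∈ O.nonunits) {d : k} (hd : d ∈ O) {δ : κ}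
    (hδ : ρ ⟨d, hd⟩ = δ) (h2 : 2 * δ ≠ 0) {i : k} (hi : i ^ 2 = -1) (hiO : i ∈ O) {ι : κ}
    (hι : ι ^ 2 = -1) (hiι : ρ ⟨i, hiO⟩ = ι) :
    ∃ red : (W d).Point →+ (W δ).Point, (∀ Q, red Q = 0 ↔ Ker O Q) ∧
      (∀ (Q : (W d).Point) (hx : xc Q ∈ O) (hy : yc Q ∈ O),
        xc (red Q) = ρ ⟨_, hx⟩ ∧ yc (red Q) = ρ ⟨_, hy⟩) ∧
      ∀ a Q, red (gs hi a Q) = gs hι a (red Q) := by
  subst hδ
  obtain ⟨red, h1, h3, h4⟩ := hR k O κ ρ hρ ⟨d, hd⟩ (by rw [map_mul, map_ofNat]; exact h2)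
  have h5 : ∀ (Q : (W d).Point) (hx : xc Q ∈ O) (hy : yc Q ∈ O),
      xc (red Q) = ρ ⟨_, hx⟩ ∧ yc (red Q) = ρ ⟨_, hy⟩ := by
    rintro (_ | ⟨x, y, h⟩) hx hy
    · show xc (red 0) = ρ 0 ∧ yc (red 0) = ρ 0
      simp
    · obtain ⟨h', e⟩ := h3 ⟨x, hx⟩ ⟨y, hy⟩ h
      have e' : red (Point.some x y h) = _ := e
      rw [e']
      exact ⟨rfl, rfl⟩
  have h6 : ∀ Q : (W d).Point, xc Q ∈ O → yc Q ∈ O := by
    rintro (_ | ⟨x, y, h⟩) hx
    · exact O.zero_mem
    · exact h4 x y h hx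
  have hJ : ∀ Q : (W d).Point, red (J hi Q) = J hι (red Q) := by
    intro Q
    have k0 : red (J hi Q) = 0 ↔ red Q = 0 := by
      rw [h1, h1]
      unfold Ker
      rw [J_eq_zero, xc_J, neg_mem_iff]
    by_cases hx : xc Q ∈ O
    · have hy := h6 Q hx
      have hx' : xc (J hi Q) ∈ O := by rw [xc_J]; exact neg_mem hx
      have hy' := h6 _ hx'
      obtain ⟨a1, a2⟩ := h5 Q hx hy
      obtain ⟨b1, b2⟩ := h5 _ hx' hy'
      refine point_ext (by rw [k0, J_eq_zero]) ?_ ?_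
      · rw [b1, xc_J hι, a1, ← map_neg]
        congr 1
        exact Subtype.ext (xc_J hi Q)
      · rw [b2, yc_J hι, a2, ← hiι, ← map_mul]
        congr 1
        exact Subtype.ext (yc_J hi Q)
    · have : red Q = 0 := (h1 Q).2 (Or.inr hx)
      rw [k0.2 this, this, map_zero]
  refine ⟨red, h1, h5, fun a Q => ?_⟩
  simp only [gs, map_add, map_zsmul, hJ]

section Place
variable {k : Type} [Field k]

lemma denom_ne_of_dvd {x₀ : k} {p q : k[X]} (h : p ∣ q) (hq : q.eval x₀ ≠ 0) :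
    p.eval x₀ ≠ 0 := by
  obtain ⟨c, rfl⟩ := h
  rw [eval_mul] at hq
  exact left_ne_zero_of_mul hq

lemma num_ne_of_denom {x₀ : k} {r : RatFunc k} (h : r.denom.eval x₀ = 0) : r.num.eval x₀ ≠ 0 := by
  intro h'
  obtain ⟨s, t, c⟩ := RatFunc.isCoprime_num_denom r
  have := congrArg (eval x₀) c
  simp [h, h'] at this

lemma inv_denom {x₀ : k} {r : RatFunc k} (h : r.num.eval x₀ ≠ 0) : (r⁻¹).denom.eval x₀ ≠ 0 := by
  have : r⁻¹ = algebraMap k[X] (RatFunc k) r.denom / algebraMap k[X] (RatFunc k) r.num := by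
    rw [← inv_div, RatFunc.num_div_denom]
  rw [this]
  exact denom_ne_of_dvd (RatFunc.denom_div_dvd _ _) h

/-- the rational functions without a pole at `x₀` -/
noncomputable def Ox (x₀ : k) : ValuationSubring (RatFunc k) where
  carrier := {r | r.denom.eval x₀ ≠ 0}
  mul_mem' := fun {a b} ha hb => denom_ne_of_dvd (RatFunc.denom_mul_dvd a b)
    (by rw [eval_mul]; exact mul_ne_zero ha hb)
  one_mem' := by simp
  add_mem' := fun {a b} ha hb => denom_ne_of_dvd (RatFunc.denom_add_dvd a b)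
    (by rw [eval_mul]; exact mul_ne_zero ha hb)
  zero_mem' := by simp
  neg_mem' := fun {a} ha => by
    have e : -a = algebraMap k[X] (RatFunc k) (-1) * a := by simp
    show (-a).denom.eval x₀ ≠ 0
    rw [e]
    refine denom_ne_of_dvd (RatFunc.denom_mul_dvd _ a) ?_
    rw [RatFunc.denom_algebraMap, one_mul]
    exact ha
  mem_or_inv_mem' := fun r => by
    by_cases h : r.denom.eval x₀ = 0
    · exact Or.inr (inv_denom (num_ne_of_denom h))
    · exact Or.inl h

lemma mem_Ox {x₀ : k} {r : RatFunc k} : r ∈ Ox x₀ ↔ r.denom.eval x₀ ≠ 0 := Iff.rfl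

lemma poly_mem_Ox (x₀ : k) (p : k[X]) : algebraMap k[X] (RatFunc k) p ∈ Ox x₀ := by
  rw [mem_Ox, RatFunc.denom_algebraMap]; simp

/-- evaluation at `x₀` -/
noncomputable def ρx (x₀ : k) : Ox x₀ →+* k where
  toFun r := RatFunc.eval (RingHom.id k) x₀ r.1
  map_one' := RatFunc.eval_one _ _
  map_mul' a b := RatFunc.eval_mul _ _ a.2 b.2
  map_zero' := RatFunc.eval_zero _ _
  map_add' a b := RatFunc.eval_add _ _ a.2 b.2

lemma ρx_poly (x₀ : k) (p : k[X]) (h) : ρx x₀ ⟨algebraMap k[X] (RatFunc k) p, h⟩ = p.eval x₀ :=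
  RatFunc.eval_algebraMap _ _ p

lemma ρx_eq_zero (x₀ : k) (c : Ox x₀) : ρx x₀ c = 0 ↔ (c : RatFunc k) ∈ (Ox x₀).nonunits := by
  rw [ValuationSubring.mem_nonunits_iff_or]
  constructor
  · intro h
    by_contra hc
    push Not at hc
    have : c * ⟨_, hc.2⟩ = 1 := Subtype.ext (mul_inv_cancel₀ hc.1)
    have := congrArg (ρx x₀) this
    rw [map_mul, h, zero_mul, map_one] at this
    exact zero_ne_one this
  · rintro (h | h)
    · have : c = 0 := Subtype.ext h
      rw [this, map_zero]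
    · have h' : c.1.num.eval x₀ = 0 := by
        by_contra h'
        exact h (inv_denom h')
      show c.1.num.eval x₀ / c.1.denom.eval x₀ = 0
      rw [h', zero_div]

end Place

/-- the first coordinates of the points killed by `a` are the roots of a polynomial of
small degree -/
lemma torsion_poly (hR : Red) {k : Type} [Field k] [DecidableEq k] {d i : k} (h2 : 2 * d ≠ 0)
    (hi : i ^ 2 = -1) (a : GaussianInt) (S : (W d).Point) (hS : yc S ≠ 0) (hS' : gs hi a S ≠ 0) :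
    ∃ B : k[X], B ≠ 0 ∧ B.natDegree ≤ 2 * a.norm.natAbs ∧
      ∀ Q : (W d).Point, yc Q ≠ 0 → gs hi a Q = 0 → B.eval (xc Q) = 0 := by
  classical
  set φ := algebraMap k[X] (RatFunc k) with hφ
  have hev : ∀ Q : (W d).Point, (X ^ 3 - C d * X : k[X]).eval (xc Q) = yc Q ^ 2 := by
    rintro (_ | ⟨x, y, h⟩)
    · show (X ^ 3 - C d * X : k[X]).eval 0 = 0 ^ 2
      simp
    · simp [((W_nonsingular d _ _).1 h).1]
  set p : k[X] := X ^ 3 - C d * X with hp
  have hp0 : p ≠ 0 := by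
    intro h
    have := hev S
    rw [h, eval_zero] at this
    exact pow_ne_zero 2 hS this.symm
  have hD : φ p ≠ 0 := (map_ne_zero_iff _ (RatFunc.algebraMap_injective k)).2 hp0
  have h2' : (2 : RatFunc k) ≠ 0 := by
    rw [← map_ofNat (algebraMap k (RatFunc k)) 2]
    exact (_root_.map_ne_zero _).2 (left_ne_zero_of_mul h2)
  have hT : (W (φ (C d * p ^ 2))).Nonsingular (φ (X * p)) (φ (p ^ 2)) := by
    rw [W_nonsingular]
    refine ⟨?_, Or.inr (mul_ne_zero h2' (by rw [map_pow]; exact pow_ne_zero 2 hD))⟩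
    rw [← map_pow, ← map_pow, ← map_mul, ← map_sub]
    congr 1
    linear_combination p ^ 3 * hp
  have hi' : (φ (C i)) ^ 2 = -1 := by
    rw [← map_pow, ← map_pow, hi]; simp
  set T : (W (φ (C d * p ^ 2))).Point := Point.some _ _ hT with hT'
  have he : φ (C d * p ^ 2) = RatFunc.C d * φ p ^ 2 := by rw [map_mul, map_pow]; rfl
  have h1 : hh (φ p) T ≤ 1 := by
    refine H_le _ X 1 1 one_ne_zero ?_ (by simp) (by simp)
    rw [hT', xc_some, map_mul, map_one, mul_one, mul_div_cancel_right₀ _ hD]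
  have h3 := hh_gs hD he hi' T a
  have key : ∀ Q : (W d).Point, yc Q ≠ 0 → (gs hi a Q = 0 ↔ Ker (Ox (xc Q)) (gs hi' a T)) := by
    intro Q hQ
    have hd' : yc Q ^ 4 * d = yc Q ^ 4 * (RingHom.id k) d := rfl
    obtain ⟨red, r1, r2, r3⟩ := red_gs hR (RatFunc k) (Ox (xc Q)) k (ρx (xc Q)) (ρx_eq_zero _)
      (poly_mem_Ox _ (C d * p ^ 2)) (δ := yc Q ^ 4 * d)
      (by rw [ρx_poly, eval_mul, eval_pow, hev, eval_C]; ring)
      (by rw [mul_left_comm]; exact mul_ne_zero (pow_ne_zero 4 hQ) h2) hi' (poly_mem_Ox _ (C i))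
      hi (by rw [ρx_poly, eval_C])
    obtain ⟨s1, s2⟩ := r2 T (poly_mem_Ox _ (X * p)) (poly_mem_Ox _ (p ^ 2))
    have s1' : xc (red T) = (X * p).eval (xc Q) := s1.trans (ρx_poly _ _ _)
    have s2' : yc (red T) = (p ^ 2).eval (xc Q) := s2.trans (ρx_poly _ _ _)
    rw [eval_mul, hev, eval_X] at s1'
    rw [eval_pow, hev] at s2'
    have hT2 : red T = tmap (RingHom.id k) hQ hd' Q := by
      refine point_ext ?_ ?_ ?_
      · rw [tmap_eq_zero]
        constructor
        · intro h0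
          rw [h0, yc_zero] at s2'
          exact absurd s2'.symm (pow_ne_zero 2 (pow_ne_zero 2 hQ))
        · intro h0
          rw [h0] at hQ
          exact absurd rfl hQ
      · rw [s1', xc_tmap, RingHom.id_apply]; ring
      · rw [s2', yc_tmap, RingHom.id_apply]; ring
    rw [← r1, r3, hT2, ← tmap_gs (RingHom.id k) hQ hd' hi hi rfl, tmap_eq_zero]
  refine ⟨(xc (gs hi' a T) / φ p).denom, RatFunc.denom_ne_zero _, ?_, fun Q hQ h0 => ?_⟩
  · have : (xc (gs hi' a T) / φ p).denom.natDegree ≤ hh (φ p) (gs hi' a T) := le_max_right _ _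
    have := Nat.mul_le_mul_left (2 * a.norm.natAbs) h1
    omega
  · rcases (key Q hQ).1 h0 with h | h
    · exact absurd ((key S hS).2 (Or.inl h)) hS'
    · by_contra h'
      apply h
      have := (Ox (xc Q)).mul_mem _ _ (mem_Ox.2 h') (poly_mem_Ox _ p)
      rwa [div_mul_cancel₀ _ hD] at this

/-- at most `4 N(a) + 1` points are killed by `a` -/
lemma torsion_card (hR : Red) {k : Type} [Field k] [DecidableEq k] {d i : k} (h2 : 2 * d ≠ 0)
    (hi : i ^ 2 = -1) (a : GaussianInt) (S : (W d).Point) (hS : yc S ≠ 0) (hS' : gs hi a S ≠ 0)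
    (s : Finset (W d).Point) (hs : ∀ Q ∈ s, Q = 0 ∨ (yc Q ≠ 0 ∧ gs hi a Q = 0)) :
    s.card ≤ 4 * a.norm.natAbs + 1 := by
  classical
  obtain ⟨B, hB, hdeg, hroot⟩ := torsion_poly hR h2 hi a S hS hS'
  have h1 : (s.erase 0).card ≤ 2 * ((s.erase 0).image xc).card := by
    refine Finset.card_le_mul_card_image _ 2 fun b hb => ?_
    obtain ⟨P, hP, rfl⟩ := Finset.mem_image.1 hb
    refine (Finset.card_le_card (t := {P, -P}) fun Q hQ => ?_).trans Finset.card_le_two
    rw [Finset.mem_filter] at hQ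
    have p0 := Finset.ne_of_mem_erase hP
    have q0 := Finset.ne_of_mem_erase hQ.1
    rcases P with _ | ⟨x₁, y₁, h₁⟩
    · exact absurd rfl p0
    rcases Q with _ | ⟨x₂, y₂, h₂⟩
    · exact absurd rfl q0
    have hx : x₂ = x₁ := hQ.2
    subst hx
    rw [Finset.mem_insert, Finset.mem_singleton]
    rcases Y_eq_of_X_eq h₂.1 h₁.1 rfl with hy | hy
    · subst hy; exact Or.inl rfl
    · subst hy; exact Or.inr rfl
  have h3 : ((s.erase 0).image xc).card ≤ B.natDegree := by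
    refine (Finset.card_le_card (t := B.roots.toFinset) fun b hb => ?_).trans
      ((Multiset.toFinset_card_le _).trans (card_roots' B))
    obtain ⟨P, hP, rfl⟩ := Finset.mem_image.1 hb
    rcases hs P (Finset.mem_of_mem_erase hP) with h | h
    · exact absurd h (Finset.ne_of_mem_erase hP)
    · rw [Multiset.mem_toFinset, mem_roots hB]
      exact hroot P h.1 h.2
  have h4 := Finset.pred_card_le_card_erase (s := s) (a := 0)
  omega

end Vale.Agent.P027Z.A2p
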