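import Mathlib

/-! The curves `y ^ 2 = x ^ 3 - d x`, the maps between them, and the action of the Gaussian
integers on their points. -/

set_option linter.all false

namespace Vale.Agent.P027Z

open WeierstrassCurve WeierstrassCurve.Affine

/-- the curve `y ^ 2 = x ^ 3 - d x` -/
def W {k : Type*} [CommRing k] (d : k) : WeierstrassCurve.Affine k := ⟨0, 0, 0, -d, 0⟩

section
variable {k : Type*} [CommRing k] (d : k)
@[simp] lemma W_a₁ : (W d).a₁ = 0 := rfl
@[simp] lemma W_a₂ : (W d).a₂ = 0 := rfl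
@[simp] lemma W_a₃ : (W d).a₃ = 0 := rfl
@[simp] lemma W_a₄ : (W d).a₄ = -d := rfl
@[simp] lemma W_a₆ : (W d).a₆ = 0 := rfl

lemma W_equation (x y : k) : (W d).Equation x y ↔ y ^ 2 = x ^ 3 - d * x := by
  rw [equation_iff]; simp only [W_a₁, W_a₂, W_a₃, W_a₄, W_a₆]
  constructor <;> intro h <;> linear_combination h

lemma W_nonsingular (x y : k) : (W d).Nonsingular x y ↔
    y ^ 2 = x ^ 3 - d * x ∧ (3 * x ^ 2 - d ≠ 0 ∨ 2 * y ≠ 0) := by
  rw [nonsingular_iff', W_equation]; simp only [W_a₁, W_a₂, W_a₃, W_a₄, W_a₆]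
  refine and_congr Iff.rfl (or_congr ?_ ?_)
  · constructor <;> intro h h' <;> apply h <;> linear_combination -h'
  · constructor <;> intro h h' <;> apply h <;> linear_combination h'

@[simp] lemma W_negY (x y : k) : (W d).negY x y = -y := by simp [negY]
lemma W_addX (x₁ x₂ l : k) : (W d).addX x₁ x₂ l = l ^ 2 - x₁ - x₂ := by simp [addX]
lemma W_addY (x₁ x₂ y₁ l : k) : (W d).addY x₁ x₂ y₁ l = -(l * (l ^ 2 - x₁ - x₂ - x₁) + y₁) := by
  simp [addY, negAddY, addX]
end

variable {k k' : Type*} [Field k] [Field k'] [DecidableEq k] [DecidableEq k']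

/-- first coordinate, `0` at infinity -/
def xc {d : k} : (W d).Point → k
  | .zero => 0
  | .some x _ _ => x

/-- second coordinate, `0` at infinity -/
def yc {d : k} : (W d).Point → k
  | .zero => 0
  | .some _ y _ => y

/-- the parameter at infinity -/
def zc {d : k} (Q : (W d).Point) : k := -xc Q / yc Q

@[simp] lemma xc_zero {d : k} : xc (0 : (W d).Point) = 0 := rfl
@[simp] lemma yc_zero {d : k} : yc (0 : (W d).Point) = 0 := rfl
@[simp] lemma zc_zero {d : k} : zc (0 : (W d).Point) = 0 := by simp [zc]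
@[simp] lemma xc_some {d x y : k} (h : (W d).Nonsingular x y) : xc (.some x y h) = x := rfl
@[simp] lemma yc_some {d x y : k} (h : (W d).Nonsingular x y) : yc (.some x y h) = y := rfl

lemma tmap_nonsingular (f : k →+* k') {u : k'} (hu : u ≠ 0) {d : k} {d' : k'}
    (h : d' = u ^ 4 * f d) {x y : k} (hxy : (W d).Nonsingular x y) :
    (W d').Nonsingular (u ^ 2 * f x) (u ^ 3 * f y) := by
  rw [W_nonsingular] at hxy ⊢
  obtain ⟨h1, h2⟩ := hxy
  have h1' := congrArg f h1
  simp only [map_pow, map_sub, map_mul] at h1'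
  refine ⟨by rw [h]; linear_combination u ^ 6 * h1', ?_⟩
  rcases h2 with h2 | h2
  · left
    intro h3
    apply h2
    apply f.injective
    simp only [map_sub, map_mul, map_pow, map_ofNat, map_zero]
    apply mul_left_cancel₀ (pow_ne_zero 4 hu)
    rw [h] at h3
    linear_combination h3
  · right
    intro h3
    apply h2
    apply f.injective
    simp only [map_mul, map_ofNat, map_zero]
    apply mul_left_cancel₀ (pow_ne_zero 3 hu)
    linear_combination h3

/-- the underlying function of `tmap` -/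
def tfun (f : k →+* k') {u : k'} (hu : u ≠ 0) {d : k} {d' : k'} (h : d' = u ^ 4 * f d) :
    (W d).Point → (W d').Point
  | .zero => .zero
  | .some x y hxy => .some (u ^ 2 * f x) (u ^ 3 * f y) (tmap_nonsingular f hu h hxy)

lemma tmap_slope (f : k →+* k') {u : k'} (hu : u ≠ 0) {d : k} {d' : k'} (h : d' = u ^ 4 * f d)
    (x₁ x₂ y₁ y₂ : k) : (W d').slope (u ^ 2 * f x₁) (u ^ 2 * f x₂) (u ^ 3 * f y₁) (u ^ 3 * f y₂) =
      u * f ((W d).slope x₁ x₂ y₁ y₂) := by
  have u2 := pow_ne_zero 2 hu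
  have u3 := pow_ne_zero 3 hu
  by_cases hx : x₁ = x₂
  · subst hx
    by_cases hy : y₁ = -y₂
    · rw [slope_of_Y_eq rfl (by simp [hy]), slope_of_Y_eq rfl (by simp [hy])]; simp
    · have hy' : u ^ 3 * f y₁ ≠ (W d').negY (u ^ 2 * f x₁) (u ^ 3 * f y₂) := by
        rw [W_negY, ← mul_neg, ← map_neg]
        exact fun h3 => hy (f.injective (mul_left_cancel₀ u3 h3))
      rw [slope_of_Y_ne rfl hy', slope_of_Y_ne rfl (by simpa using hy)]
      simp only [W_a₁, W_a₂, W_a₄, W_negY, map_div₀, map_sub, map_add, map_mul, map_pow, map_neg,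
        map_ofNat, map_zero, h]
      by_cases h0 : f y₁ - -f y₁ = 0
      · have : u ^ 3 * f y₁ - -(u ^ 3 * f y₁) = 0 := by linear_combination u ^ 3 * h0
        rw [this, h0]; simp
      · have : u ^ 3 * f y₁ - -(u ^ 3 * f y₁) = u ^ 3 * (f y₁ - -f y₁) := by ring
        rw [this]
        field_simp
        ring
  · have hx' : u ^ 2 * f x₁ ≠ u ^ 2 * f x₂ := fun h3 => hx (f.injective (mul_left_cancel₀ u2 h3))
    rw [slope_of_X_ne hx, slope_of_X_ne hx']
    have : f x₁ - f x₂ ≠ 0 := fun h3 => hx (f.injective (sub_eq_zero.1 h3))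
    have e : u ^ 2 * f x₁ - u ^ 2 * f x₂ = u ^ 2 * (f x₁ - f x₂) := by ring
    rw [e, map_div₀, map_sub, map_sub]
    field_simp

/-- the homomorphism `(x, y) ↦ (u ^ 2 f x, u ^ 3 f y)` -/
def tmap (f : k →+* k') {u : k'} (hu : u ≠ 0) {d : k} {d' : k'} (h : d' = u ^ 4 * f d) :
    (W d).Point →+ (W d').Point where
  toFun := tfun f hu h
  map_zero' := rfl
  map_add' := by
    rintro (_ | ⟨x₁, y₁, h₁⟩) (_ | ⟨x₂, y₂, h₂⟩)
    · rfl
    · rfl
    · rfl
    have u2 := pow_ne_zero 2 hu
    have u3 := pow_ne_zero 3 hu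
    by_cases hxy : x₁ = x₂ ∧ y₁ = (W d).negY x₂ y₂
    · rw [Point.add_of_Y_eq hxy.1 hxy.2]
      simp only [tfun]
      rw [Point.add_of_Y_eq (by rw [hxy.1]) (by rw [hxy.2]; simp)]
      rfl
    · have hxy' : ¬ (u ^ 2 * f x₁ = u ^ 2 * f x₂ ∧
          u ^ 3 * f y₁ = (W d').negY (u ^ 2 * f x₂) (u ^ 3 * f y₂)) := by
        rintro ⟨e1, e2⟩
        refine hxy ⟨f.injective (mul_left_cancel₀ u2 e1), ?_⟩
        rw [W_negY, ← mul_neg, ← map_neg] at e2
        rw [W_negY]
        exact f.injective (mul_left_cancel₀ u3 e2)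
      rw [Point.add_some hxy]
      simp only [tfun]
      rw [Point.add_some hxy']
      congr 1
      · rw [tmap_slope f hu h, W_addX, W_addX]; simp only [map_sub, map_pow]; ring
      · rw [tmap_slope f hu h, W_addY, W_addY]
        simp only [map_sub, map_pow, map_neg, map_add, map_mul]; ring

section
variable (f : k →+* k') {u : k'} (hu : u ≠ 0) {d : k} {d' : k'} (h : d' = u ^ 4 * f d)

lemma tmap_some {x y : k} (hxy : (W d).Nonsingular x y) : tmap f hu h (.some x y hxy) =
    .some (u ^ 2 * f x) (u ^ 3 * f y) (tmap_nonsingular f hu h hxy) := rfl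

lemma tmap_eq_zero (Q : (W d).Point) : tmap f hu h Q = 0 ↔ Q = 0 := by
  rcases Q with _ | ⟨x, y, hxy⟩
  · exact ⟨fun _ => rfl, fun _ => rfl⟩
  · exact ⟨fun e => absurd e (Point.some_ne_zero _), fun e => absurd e (Point.some_ne_zero _)⟩

lemma tmap_injective : Function.Injective (tmap f hu h) :=
  (injective_iff_map_eq_zero _).2 fun Q e => (tmap_eq_zero f hu h Q).1 e

lemma xc_tmap (Q : (W d).Point) : xc (tmap f hu h Q) = u ^ 2 * f (xc Q) := by
  rcases Q with _ | ⟨x, y, hxy⟩
  · show (0 : k') = u ^ 2 * f 0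
    simp
  · rfl

lemma yc_tmap (Q : (W d).Point) : yc (tmap f hu h Q) = u ^ 3 * f (yc Q) := by
  rcases Q with _ | ⟨x, y, hxy⟩
  · show (0 : k') = u ^ 3 * f 0
    simp
  · rfl

lemma zc_tmap (Q : (W d).Point) : zc (tmap f hu h Q) = u⁻¹ * f (zc Q) := by
  rw [zc, zc, xc_tmap, yc_tmap, map_div₀, map_neg]
  by_cases h0 : f (yc Q) = 0
  · simp [h0]
  · field_simp
end

/-- two points with the same coordinates are equal, if both or none are at infinity -/
lemma point_ext {d : k} {P Q : (W d).Point} (h0 : P = 0 ↔ Q = 0) (hx : xc P = xc Q)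
    (hy : yc P = yc Q) : P = Q := by
  rcases P with _ | ⟨x, y, h⟩
  · exact (h0.1 rfl).symm
  · rcases Q with _ | ⟨x', y', h'⟩
    · exact h0.2 rfl
    · simp only [xc_some, yc_some] at hx hy
      subst hx hy
      rfl

section Gauss
variable {i : k} (hi : i ^ 2 = -1)
include hi

lemma neg_i_ne : (-i) ≠ 0 := by
  intro h
  rw [neg_eq_zero] at h
  rw [h] at hi
  norm_num at hi

lemma i_four (d : k) : d = (-i) ^ 4 * (RingHom.id k) d := by
  have : (-i) ^ 4 = 1 := by linear_combination (i ^ 2 - 1) * hi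
  rw [this]; simp

/-- the automorphism `(x, y) ↦ (-x, i y)` -/
def J {d : k} : (W d).Point →+ (W d).Point := tmap (RingHom.id k) (neg_i_ne hi) (i_four hi d)

lemma xc_J {d : k} (Q : (W d).Point) : xc (J hi Q) = -xc Q := by
  rw [J, xc_tmap]; simp only [RingHom.id_apply]; linear_combination xc Q * hi

lemma yc_J {d : k} (Q : (W d).Point) : yc (J hi Q) = i * yc Q := by
  rw [J, yc_tmap]; simp only [RingHom.id_apply]; linear_combination (-i * yc Q) * hi

lemma J_eq_zero {d : k} (Q : (W d).Point) : J hi Q = 0 ↔ Q = 0 := tmap_eq_zero _ _ _ Q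

lemma zc_J {d : k} (Q : (W d).Point) : zc (J hi Q) = i * zc Q := by
  rw [J, zc_tmap]
  have : (-i)⁻¹ = i := by
    rw [inv_eq_iff_eq_inv]
    exact eq_inv_of_mul_eq_one_left (by linear_combination -hi)
  rw [this]; rfl

omit hi in
lemma xc_neg {d : k} (Q : (W d).Point) : xc (-Q) = xc Q := by
  rcases Q with _ | ⟨x, y, h⟩ <;> rfl

omit hi in
lemma yc_neg {d : k} (Q : (W d).Point) : yc (-Q) = -yc Q := by
  rcases Q with _ | ⟨x, y, h⟩
  · show (0 : k) = -0
    simp
  · rw [Point.neg_some]; simp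

lemma J_J {d : k} (Q : (W d).Point) : J hi (J hi Q) = -Q := by
  refine point_ext ?_ ?_ ?_
  · rw [J_eq_zero, J_eq_zero, neg_eq_zero]
  · rw [xc_J, xc_J, xc_neg, neg_neg]
  · rw [yc_J, yc_J, yc_neg]; linear_combination yc Q * hi

/-- the multiple of a point by a Gaussian integer -/
def gs {d : k} (a : GaussianInt) (Q : (W d).Point) : (W d).Point := a.re • Q + a.im • J hi Q

/-- the points form a module over the Gaussian integers -/
@[reducible] def gmod (d : k) : Module GaussianInt (W d).Point where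
  smul := gs hi
  one_smul Q := by show gs hi 1 Q = Q; simp [gs]
  mul_smul a b Q := by
    show gs hi (a * b) Q = gs hi a (gs hi b Q)
    simp only [gs, Zsqrtd.re_mul, Zsqrtd.im_mul, map_add, map_zsmul, J_J]
    module
  smul_zero a := by show gs hi a 0 = 0; simp [gs]
  smul_add a P Q := by
    show gs hi a (P + Q) = gs hi a P + gs hi a Q
    simp only [gs, map_add]; module
  add_smul a b Q := by
    show gs hi (a + b) Q = gs hi a Q + gs hi b Q
    simp only [gs, Zsqrtd.re_add, Zsqrtd.im_add]; module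
  zero_smul Q := by show gs hi 0 Q = 0; simp [gs]

lemma gs_one {d : k} (Q : (W d).Point) : gs hi 1 Q = Q := (gmod hi d).one_smul Q
lemma gs_mul {d : k} (a b : GaussianInt) (Q : (W d).Point) :
    gs hi (a * b) Q = gs hi a (gs hi b Q) := (gmod hi d).mul_smul a b Q
lemma gs_add {d : k} (a b : GaussianInt) (Q : (W d).Point) :
    gs hi (a + b) Q = gs hi a Q + gs hi b Q := (gmod hi d).add_smul a b Q
lemma gs_zero_left {d : k} (Q : (W d).Point) : gs hi 0 Q = 0 := (gmod hi d).zero_smul Q
lemma gs_add_right {d : k} (a : GaussianInt) (P Q : (W d).Point) :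
    gs hi a (P + Q) = gs hi a P + gs hi a Q := (gmod hi d).smul_add a P Q
lemma gs_zero_right {d : k} (a : GaussianInt) : gs hi a (0 : (W d).Point) = 0 :=
  (gmod hi d).smul_zero a
lemma gs_intCast {d : k} (n : ℤ) (Q : (W d).Point) : gs hi (n : GaussianInt) Q = n • Q := by
  simp [gs]

/-- the value of a Gaussian integer in the field -/
def gv (i : k) (a : GaussianInt) : k := a.re + a.im * i

end Gauss

/-- `tmap` commutes with the action of the Gaussian integers -/
lemma tmap_gs (f : k →+* k') {u : k'} (hu : u ≠ 0) {d : k} {d' : k'} (h : d' = u ^ 4 * f d)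
    {i : k} (hi : i ^ 2 = -1) {i' : k'} (hi' : i' ^ 2 = -1) (hf : f i = i') (a : GaussianInt)
    (Q : (W d).Point) : tmap f hu h (gs hi a Q) = gs hi' a (tmap f hu h Q) := by
  have hJ : tmap f hu h (J hi Q) = J hi' (tmap f hu h Q) := by
    refine point_ext ?_ ?_ ?_
    · rw [tmap_eq_zero, J_eq_zero, J_eq_zero, tmap_eq_zero]
    · rw [xc_tmap, xc_J, xc_J, xc_tmap, map_neg]; ring
    · rw [yc_tmap, yc_J, yc_J, yc_tmap, map_mul, hf]; ring
  simp only [gs, map_add, map_zsmul, hJ]

/-- the kernel of reduction for a valuation subring -/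
def Ker (O : ValuationSubring k) {d : k} (Q : (W d).Point) : Prop := Q = 0 ∨ xc Q ∉ O

end Vale.Agent.P027Z
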