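import Mathlib

/-! The two definitions that the final statement uses. -/

namespace Vale.Agent.P027Z

/-- the product of the primes `p` dividing `m` whose exponent in `m` is not a multiple of `n` -/
def radN (n m : ℕ) : ℕ := ∏ p ∈ m.primeFactors with ¬ n ∣ m.factorization p, p

/-- For `s = d / x` in lowest terms with `x > 0`:
`log (max |d| x) ≤ C * (radN n |x (x + d) (x + 2 d) (x + 3 d)|) ^ κ`. -/
def Good (n κ : ℕ) (C : ℝ) (s : ℚ) : Prop :=
  Real.log (max s.num.natAbs s.den : ℕ) ≤ C * (radN n
    (s.den * (s.den + s.num) * (s.den + 2 * s.num) * (s.den + 3 * s.num)).natAbs : ℝ) ^ κ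

end Vale.Agent.P027Z
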