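import Vale.Agent.P027Z.Vis

/-! Functions dominated by products of visible primes. -/

set_option linter.all false

namespace Vale.Agent.P027Z

open Filter

section
variable {I J : Type} {U : Ultrafilter J} (θ : (I → ℚ) →+* Germ (U : Filter J) ℚ)

/-- representative of the image of a sequence of naturals -/
noncomputable def hat (q : I → ℕ) : J → ℚ := rep θ (fun i => ((q i : ℤ) : ℚ))

/-- the visible primes of a family -/
noncomputable def VF (n : ℕ) (F : Finset (I → ℕ)) (w : J) : Finset ℕ :=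
  F.biUnion (fun q => Vs n (hat θ q w))

/-- the product of the visible primes of a family -/
noncomputable def Mo (n : ℕ) (F : Finset (I → ℕ)) (w : J) : ℕ := ∏ p ∈ VF θ n F w, p

/-- sequences of large primes in the class of seventeen -/
def GS (X q : I → ℕ) : Prop := ∀ i, (q i).Prime ∧ q i % 24 = 17 ∧ X i < q i

/-- dominated functions -/
def Dom (n : ℕ) (f : J → ℝ) : Prop := ∀ X : I → ℕ, ∃ F : Finset (I → ℕ),
  (∀ q ∈ F, GS X q) ∧ ∀ᶠ w in U, |f w| ≤ Mo θ n F w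

lemma prime_VF {n : ℕ} {F : Finset (I → ℕ)} {w : J} {p : ℕ} (h : p ∈ VF θ n F w) : p.Prime := by
  obtain ⟨q, -, h⟩ := Finset.mem_biUnion.1 h
  exact (mem_Vs.1 h).1

lemma one_le_Mo (n : ℕ) (F : Finset (I → ℕ)) (w : J) : 1 ≤ Mo θ n F w :=
  Finset.prod_pos fun p hp => (prime_VF θ hp).pos

lemma Mo_dvd {n : ℕ} {F : Finset (I → ℕ)} {w : J} {z : ℤ}
    (h : ∀ q ∈ F, ∀ p ∈ Vs n (hat θ q w), (p : ℤ) ∣ z) : (Mo θ n F w : ℤ) ∣ z := by
  rw [Int.natCast_dvd]
  refine Finset.prod_primes_dvd _ (fun p hp => (prime_VF θ hp).prime) fun p hp => ?_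
  obtain ⟨q, h1, h2⟩ := Finset.mem_biUnion.1 hp
  exact Int.natCast_dvd.1 (h q h1 p h2)

variable {θ}

lemma Dom.mono {n : ℕ} {f g : J → ℝ} (h : Dom θ n g) (e : ∀ᶠ w in U, |f w| ≤ |g w|) :
    Dom θ n f := fun X => by
  obtain ⟨F, h1, h2⟩ := h X
  exact ⟨F, h1, by filter_upwards [h2, e] with w a b using b.trans a⟩

lemma Dom.one (n : ℕ) : Dom θ n (fun _ => 1) := fun X =>
  ⟨∅, by simp, Eventually.of_forall fun w => by
    rw [abs_one]; exact_mod_cast one_le_Mo θ n ∅ w⟩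

lemma Dom.max_one {n : ℕ} {f : J → ℝ} (h : Dom θ n f) : Dom θ n (fun w => max |f w| 1) :=
  fun X => by
  obtain ⟨F, h1, h2⟩ := h X
  refine ⟨F, h1, ?_⟩
  filter_upwards [h2] with w a
  rw [abs_of_nonneg (by positivity)]
  exact max_le a (by exact_mod_cast one_le_Mo θ n F w)

variable (ps : ParStar) {j : ℕ}
include ps

lemma Dom.mul {f g : J → ℝ} (hf : Dom θ (2 ^ j) f) (hg : Dom θ (2 ^ j) g) :
    Dom θ (2 ^ j) (fun w => f w * g w) := fun X => by
  classical
  obtain ⟨F, f1, f2⟩ := hf X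
  obtain ⟨G, g1, g2⟩ := hg (fun i => X i + ∑ q ∈ F, q i)
  refine ⟨F ∪ G, fun q hq => ?_, ?_⟩
  · rcases Finset.mem_union.1 hq with h | h
    · exact f1 q h
    · exact fun i => ⟨(g1 q h i).1, (g1 q h i).2.1, lt_of_le_of_lt (Nat.le_add_right _ _) (g1 q h i).2.2⟩
  have dj : ∀ᶠ w in U, ∀ q ∈ F, ∀ r ∈ G,
      Disjoint (Vs (2 ^ j) (hat θ q w)) (Vs (2 ^ j) (hat θ r w)) := by
    rw [eventually_all_finset]
    intro q hq
    rw [eventually_all_finset]
    intro r hr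
    refine vis_disjoint θ ps j _ _ fun i => ?_
    rw [Nat.isCoprime_iff_coprime, Nat.coprime_primes (f1 q hq i).1 (g1 r hr i).1]
    have h1 : X i + ∑ q ∈ F, q i < r i := (g1 r hr i).2.2
    have h2 : q i ≤ ∑ q ∈ F, q i :=
      Finset.single_le_sum (f := fun q : I → ℕ => q i) (fun _ _ => Nat.zero_le _) hq
    omega
  filter_upwards [f2, g2, dj] with w a b c
  have e : Mo θ (2 ^ j) (F ∪ G) w = Mo θ (2 ^ j) F w * Mo θ (2 ^ j) G w := by
    unfold Mo VF
    rw [Finset.union_biUnion, Finset.prod_union]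
    rw [Finset.disjoint_biUnion_left]
    intro q hq
    rw [Finset.disjoint_biUnion_right]
    exact c q hq
  rw [e, abs_mul]
  push_cast
  exact mul_le_mul a b (abs_nonneg _) (by positivity)

lemma Dom.pow {f : J → ℝ} (hf : Dom θ (2 ^ j) f) (k : ℕ) : Dom θ (2 ^ j) (fun w => f w ^ k) := by
  induction k with
  | zero => simpa using Dom.one _
  | succ k ih => simpa [pow_succ] using ih.mul ps hf

lemma Dom.root {f : J → ℝ} {κ : ℕ} (h : ∀ X : I → ℕ, ∃ F : Finset (I → ℕ),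
    (∀ q ∈ F, GS X q) ∧ ∀ᶠ w in U, |f w| ≤ (Mo θ (2 ^ j) F w : ℝ) ^ κ) : Dom θ (2 ^ j) f := by
  have h1 : Dom θ (2 ^ j) (fun w => |f w| ^ ((κ + 1 : ℕ) : ℝ)⁻¹) := fun X => by
    obtain ⟨F, a, b⟩ := h X
    refine ⟨F, a, ?_⟩
    filter_upwards [b] with w c
    have m1 : (1 : ℝ) ≤ Mo θ (2 ^ j) F w := by exact_mod_cast one_le_Mo θ _ F w
    rw [abs_of_nonneg (by positivity), Real.rpow_inv_le_iff_of_pos (abs_nonneg _) (by positivity)
      (by positivity), Real.rpow_natCast]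
    exact c.trans (pow_le_pow_right₀ m1 (Nat.le_succ _))
  refine (h1.pow ps (κ + 1)).mono (Eventually.of_forall fun w => ?_)
  rw [Real.rpow_inv_natCast_pow (abs_nonneg _) (Nat.succ_ne_zero _), abs_abs]

variable (hc : ∀ c : ℝ, Dom θ (2 ^ j) (fun _ => c))
include hc

lemma Dom.add {f g : J → ℝ} (hf : Dom θ (2 ^ j) f) (hg : Dom θ (2 ^ j) g) :
    Dom θ (2 ^ j) (fun w => f w + g w) := by
  refine (((hc 2).mul ps hf.max_one).mul ps hg.max_one).mono (Eventually.of_forall fun w => ?_)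
  have a1 := le_max_left |f w| 1
  have a2 := le_max_right |f w| 1
  have b1 := le_max_left |g w| 1
  have b2 := le_max_right |g w| 1
  rw [abs_of_nonneg (a := 2 * _ * _) (by positivity)]
  refine (abs_add_le _ _).trans ?_
  nlinarith [abs_nonneg (f w), abs_nonneg (g w)]

lemma Dom.sub {f g : J → ℝ} (hf : Dom θ (2 ^ j) f) (hg : Dom θ (2 ^ j) g) :
    Dom θ (2 ^ j) (fun w => f w - g w) := by
  have : Dom θ (2 ^ j) (fun w => - g w) := hg.mono (Eventually.of_forall fun w => by simp)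
  simpa [sub_eq_add_neg] using hf.add ps hc this

/-- a dominated integer sequence that all visible primes divide vanishes -/
lemma Dom.eq_zero {z : J → ℤ} (hz : Dom θ (2 ^ j) (fun w => (z w : ℝ)))
    (h : ∀ q : I → ℕ, GS 0 q → ∀ᶠ w in U, ∀ p ∈ Vs (2 ^ j) (hat θ q w), (p : ℤ) ∣ z w) :
    ∀ᶠ w in U, z w = 0 := by
  have h1 : Dom θ (2 ^ j) (fun w => |(z w : ℝ)|) :=
    hz.mono (Eventually.of_forall fun w => by simp)
  obtain ⟨F, a, b⟩ := (h1.add ps hc (hc 1)) 0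
  have c := (eventually_all_finset F).2 fun q hq => h q (a q hq)
  filter_upwards [b, c] with w d e
  refine Int.eq_zero_of_abs_lt_dvd (Mo_dvd θ e) ?_
  rw [abs_of_nonneg (by positivity)] at d
  have : ((|z w| : ℤ) : ℝ) < ((Mo θ (2 ^ j) F w : ℤ) : ℝ) := by push_cast; linarith
  exact_mod_cast this

end

end Vale.Agent.P027Z
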