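import Vale.Agent.P027Z.Abc
import Vale.Agent.P027Z.Hts

/-! The height bound follows from a height bound on the twists of one curve of genus two. -/

set_option linter.all false

namespace Vale.Agent.P027Z

open Height

lemma sqfree_le_six {a n m : ℕ} (hm : m ≠ 0) (ha : Squarefree a) (h : ∀ p : ℕ, p.Prime → p ≠ 2 →
    p ≠ 3 → n ∣ m.factorization p → ¬ p ∣ a) : a ≤ 6 * radN n m := by
  have e : radN 0 a = a := by
    unfold radN
    rw [Finset.filter_true_of_mem, Nat.prod_primeFactors_of_squarefree ha]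
    intro p hp h0
    exact Finsupp.mem_support_iff.1 hp (zero_dvd_iff.1 h0)
  rw [← e]
  exact radN_le_six hm fun p h1 h2 h3 h4 => by
    rw [Nat.factorization_eq_zero_of_not_dvd (h p h1 h2 h3 h4)]

lemma exists_sqfree {z : ℚ} (hz : z ≠ 0) : ∃ (A : ℤ) (r : ℚ), Squarefree A ∧ r ≠ 0 ∧
    z = A * r ^ 2 ∧ ∀ p : ℕ, p.Prime → (2 : ℤ) ∣ padicValRat p z → ¬ p ∣ A.natAbs := by
  obtain ⟨a, b, e, ha⟩ := Nat.sq_mul_squarefree (z.num.natAbs * z.den)
  have n0 : z.num.natAbs * z.den ≠ 0 := mul_ne_zero (by simpa using hz) z.den_nz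
  have b0 : b ≠ 0 := by rintro rfl; simp at e; exact n0 (by simpa using e)
  have d0 : (z.den : ℚ) ≠ 0 := by exact_mod_cast z.den_nz
  have r0 : (b : ℚ) / z.den ≠ 0 := div_ne_zero (by exact_mod_cast b0) d0
  have sA : (z.num.sign * a : ℤ).natAbs = a := by
    rw [Int.natAbs_mul, Int.natAbs_sign_of_ne_zero (Rat.num_ne_zero.2 hz)]; simp
  have e1 : z = (z.num.sign * a : ℤ) * ((b : ℚ) / z.den) ^ 2 := by
    have h1 : (b : ℤ) ^ 2 * a = z.num.natAbs * z.den := by exact_mod_cast e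
    have h2 : z.num.sign * ((b : ℤ) ^ 2 * a) = z.num * z.den := by
      rw [h1, ← mul_assoc, Int.sign_mul_natAbs]
    have h3 : ((z.num.sign : ℤ) : ℚ) * ((b : ℚ) ^ 2 * a) = z.num * z.den := by exact_mod_cast h2
    have h4 := Rat.mul_den_eq_num z
    push_cast
    field_simp
    linear_combination z.den * h4 - h3
  refine ⟨z.num.sign * a, b / z.den, Int.squarefree_natAbs.1 (by rwa [sA]), r0, e1,
    fun p hp h hd => ?_⟩
  haveI := Fact.mk hp
  have A0 : ((z.num.sign * a : ℤ) : ℚ) ≠ 0 := left_ne_zero_of_mul (e1 ▸ hz)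
  rw [e1, padicValRat.mul A0 (pow_ne_zero _ r0), padicValRat.pow, padicValRat.of_int,
    padicValInt, sA] at h
  rw [sA] at hd
  have h1 : padicValNat p a = 1 := by
    rw [← Nat.factorization_def _ hp]
    exact Nat.factorization_eq_one_of_squarefree ha hp hd
  rw [h1] at h
  omega

theorem good_of_gen2 {κ : ℕ} {C : ℝ} (h : ∀ (A B : ℤ) (u y : ℚ), Squarefree A → Squarefree B →
    y ≠ 0 → B * y ^ 2 = u * (u ^ 2 - A) * (u ^ 2 - 4 * A) →
    Real.log (max u.num.natAbs u.den : ℕ) ≤ C * |(A * B : ℝ)| ^ κ) (s : ℚ) :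
    Good (2 ^ 2) (2 * κ + 1) (15 + 2 * (|C| * 36 ^ κ)) s := by
  unfold Good
  have hc : IsCoprime (s.den : ℤ) s.num := (Rat.isCoprime_num_den s).symm
  have hx : (0 : ℤ) < s.den := by exact_mod_cast s.den_pos
  have es : s = (s.num : ℚ) / ((s.den : ℤ) : ℚ) := by simpa using (Rat.num_div_den s).symm
  have em : max s.num.natAbs s.den = max s.num.natAbs (s.den : ℤ).natAbs := by simp
  have eh := Rat.logHeight₁_eq_log_max s
  rw [em] at eh ⊢
  generalize (s.den : ℤ) = x at *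
  generalize s.num = d at *
  clear em
  set N := radN (2 ^ 2) (x * (x + d) * (x + 2 * d) * (x + 3 * d)).natAbs with hN
  have N0 : (1 : ℝ) ≤ N := by exact_mod_cast one_le_radN _ _
  have N1 : (1 : ℝ) ≤ (N : ℝ) ^ (2 * κ + 1) := one_le_pow₀ N0
  have deg : ∀ i : ℤ, 1 ≤ i → i ≤ 4 → x + i * d = 0 → Real.log (max d.natAbs x.natAbs : ℕ) ≤
      (15 + 2 * (|C| * 36 ^ κ)) * (N : ℝ) ^ (2 * κ + 1) := by
    intro i i1 i4 e
    have : IsUnit d := hc.isUnit_of_dvd' ⟨-i, by linear_combination e⟩ dvd_rfl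
    have h1 : max d.natAbs x.natAbs ≤ 4 := by
      rcases Int.isUnit_iff.1 this with rfl | rfl <;> omega
    have h2 := Real.log_le_self (x := (max d.natAbs x.natAbs : ℕ)) (by positivity)
    have h3 : ((max d.natAbs x.natAbs : ℕ) : ℝ) ≤ 4 := by exact_mod_cast h1
    have : 0 ≤ |C| * 36 ^ κ := by positivity
    nlinarith
  by_cases z1 : x + d = 0
  · exact deg 1 (by norm_num) (by norm_num) (by linarith)
  by_cases z2 : x + 2 * d = 0
  · exact deg 2 (by norm_num) (by norm_num) z2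
  by_cases z3 : x + 3 * d = 0
  · exact deg 3 (by norm_num) (by norm_num) z3
  have m0 : (x * (x + d) * (x + 2 * d) * (x + 3 * d)).natAbs ≠ 0 :=
    Int.natAbs_ne_zero.2 (mul_ne_zero (mul_ne_zero (mul_ne_zero hx.ne' z1) z2) z3)
  have q0 : (x : ℚ) ≠ 0 := by exact_mod_cast hx.ne'
  have q1 : ((x + d : ℤ) : ℚ) ≠ 0 := by exact_mod_cast z1
  have q2 : ((x + 2 * d : ℤ) : ℚ) ≠ 0 := by exact_mod_cast z2
  have q3 : ((x + 3 * d : ℤ) : ℚ) ≠ 0 := by exact_mod_cast z3
  have vals : ∀ p : ℕ, p.Prime → p ≠ 2 → p ≠ 3 → 2 ^ 2 ∣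
      (x * (x + d) * (x + 2 * d) * (x + 3 * d)).natAbs.factorization p →
      padicValRat p (-2) = 0 ∧ padicValRat p 18 = 0 ∧ 4 ∣ padicValRat p x ∧
        4 ∣ padicValRat p ((x + d : ℤ) : ℚ) ∧ 4 ∣ padicValRat p ((x + 2 * d : ℤ) : ℚ) ∧
        4 ∣ padicValRat p ((x + 3 * d : ℤ) : ℚ) := by
    intro p hp h2 h3 hd
    haveI := Fact.mk hp
    have n2 : ¬ p ∣ 2 := fun h => h2 ((Nat.prime_dvd_prime_iff_eq hp Nat.prime_two).1 h)
    refine ⟨?_, ?_, ?_⟩
    · have := padicValRat.of_nat (p := p) (n := 2)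
      rw [padicValNat.eq_zero_of_not_dvd n2] at this
      rw [padicValRat.neg]
      exact_mod_cast this
    · have := padicValRat.of_nat (p := p) (n := 18)
      rw [padicValNat.eq_zero_of_not_dvd (fun h => by
        rcases hp.dvd_mul.1 (show p ∣ 2 * 3 ^ 2 from h) with h | h
        · exact n2 h
        · exact h3 ((Nat.prime_dvd_prime_iff_eq hp Nat.prime_three).1 (hp.dvd_of_dvd_pow h)))]
        at this
      exact_mod_cast this
    rw [Nat.factorization_def _ hp] at hd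
    change 2 ^ 2 ∣ padicValInt p _ at hd
    rw [padicValInt.mul (mul_ne_zero (mul_ne_zero hx.ne' z1) z2) z3,
      padicValInt.mul (mul_ne_zero hx.ne' z1) z2, padicValInt.mul hx.ne' z1] at hd
    have b01 := val_pair hp h2 h3 hc (i := 0) (k := 1) (by norm_num)
    have b02 := val_pair hp h2 h3 hc (i := 0) (k := 2) (by norm_num)
    have b03 := val_pair hp h2 h3 hc (i := 0) (k := 3) (by norm_num)
    have b12 := val_pair hp h2 h3 hc (i := 1) (k := 2) (by norm_num)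
    have b13 := val_pair hp h2 h3 hc (i := 1) (k := 3) (by norm_num)
    have b23 := val_pair hp h2 h3 hc (i := 2) (k := 3) (by norm_num)
    simp only [zero_mul, add_zero, one_mul] at b01 b02 b03 b12 b13
    simp only [padicValRat.of_int]
    omega
  obtain ⟨A, r, sA, r0, eA, vA⟩ := exists_sqfree
    (z := -2 * ((x : ℚ) * ((x + 3 * d : ℤ) : ℚ))) (by positivity)
  have A0 : (A : ℚ) ≠ 0 := by exact_mod_cast sA.ne_zero
  have hA : ∀ p : ℕ, p.Prime → p ≠ 2 → p ≠ 3 → 2 ^ 2 ∣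
      (x * (x + d) * (x + 2 * d) * (x + 3 * d)).natAbs.factorization p →
      ¬ p ∣ A.natAbs ∧ 2 ∣ padicValRat p r := by
    intro p hp h2 h3 hd
    haveI := Fact.mk hp
    obtain ⟨v, -, v0, -, -, v3⟩ := vals p hp h2 h3 hd
    have e : padicValRat p (-2 * ((x : ℚ) * ((x + 3 * d : ℤ) : ℚ))) =
        padicValRat p x + padicValRat p ((x + 3 * d : ℤ) : ℚ) := by
      rw [padicValRat.mul (by norm_num) (by positivity), padicValRat.mul q0 q3, v, zero_add]
    have h1 := vA p hp (by omega)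
    refine ⟨h1, ?_⟩
    rw [eA, padicValRat.mul A0 (pow_ne_zero _ r0), padicValRat.pow, padicValRat.of_int (z := A),
      padicValInt, padicValNat.eq_zero_of_not_dvd h1] at e
    omega
  set u : ℚ := A * r / x with hu
  have eu : u ^ 2 = A * (-2 * (1 + 3 * s)) := by
    have : u ^ 2 = A * (A * r ^ 2) / x ^ 2 := by rw [hu]; ring
    rw [this, ← eA, es]; push_cast; field_simp
  have ez : u * (u ^ 2 - A) * (u ^ 2 - 4 * A) =
      18 * (A : ℚ) ^ 3 * r * ((x + d : ℤ) : ℚ) * ((x + 2 * d : ℤ) : ℚ) / (x : ℚ) ^ 3 := by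
    rw [eu, hu, es]; push_cast; field_simp; ring
  obtain ⟨B, y, sB, y0, eB, vB⟩ := exists_sqfree
    (z := u * (u ^ 2 - A) * (u ^ 2 - 4 * A)) (by rw [ez]; positivity)
  have bA : A.natAbs ≤ 6 * N := sqfree_le_six m0 (Int.squarefree_natAbs.2 sA)
    fun p hp h2 h3 hd => (hA p hp h2 h3 hd).1
  have bB : B.natAbs ≤ 6 * N := by
    refine sqfree_le_six m0 (Int.squarefree_natAbs.2 sB) fun p hp h2 h3 hd => vB p hp ?_
    haveI := Fact.mk hp
    obtain ⟨-, v, v0, v1, v2, -⟩ := vals p hp h2 h3 hd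
    obtain ⟨w1, w2⟩ := hA p hp h2 h3 hd
    rw [ez, padicValRat.div (by positivity) (by positivity), padicValRat.mul (by positivity) q2,
      padicValRat.mul (by positivity) q1, padicValRat.mul (by positivity) r0,
      padicValRat.mul (by norm_num) (by positivity), padicValRat.pow, padicValRat.pow, v,
      padicValRat.of_int (z := A), padicValInt, padicValNat.eq_zero_of_not_dvd w1]
    omega
  have h1 := h A B u y sA sB y0 eB.symm
  rw [← Rat.logHeight₁_eq_log_max] at h1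
  have cA : |(A : ℝ)| ≤ 6 * N := by
    rw [← Int.cast_abs, ← Int.natCast_natAbs]; exact_mod_cast bA
  have cB : |(B : ℝ)| ≤ 6 * N := by
    rw [← Int.cast_abs, ← Int.natCast_natAbs]; exact_mod_cast bB
  have h2 : logHeight₁ u ≤ |C| * 36 ^ κ * (N : ℝ) ^ (2 * κ + 1) := by
    refine h1.trans ?_
    rw [mul_assoc]
    refine mul_le_mul (le_abs_self C) ?_ (by positivity) (abs_nonneg C)
    calc |(A * B : ℝ)| ^ κ ≤ (36 * (N : ℝ) ^ 2) ^ κ := by
          refine pow_le_pow_left₀ (abs_nonneg _) ?_ _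
          rw [abs_mul]
          nlinarith [abs_nonneg (A : ℝ), abs_nonneg (B : ℝ)]
      _ = 36 ^ κ * (N : ℝ) ^ (2 * κ) := by rw [mul_pow, ← pow_mul]
      _ ≤ _ := by gcongr; omega
  have e3 : s = (u ^ 2 / ((-2 * A : ℤ) : ℚ) - 1) / ((3 : ℕ) : ℚ) := by
    rw [eu]; push_cast; field_simp; ring
  have t1 := (congrArg logHeight₁ e3).trans_le (h_div _ _)
  have t2 := h_sub (u ^ 2 / ((-2 * A : ℤ) : ℚ)) 1
  have t3 := h_div (u ^ 2) ((-2 * A : ℤ) : ℚ)
  rw [logHeight₁_one] at t2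
  rw [logHeight₁_pow] at t3
  have t4 : logHeight₁ ((3 : ℕ) : ℚ) ≤ 2 := by
    rw [Rat.logHeight₁_natCast]
    have := Real.log_le_sub_one_of_pos (x := ((3 : ℕ) : ℝ)) (by norm_num)
    push_cast at this ⊢
    linarith
  have t5 : logHeight₁ ((-2 * A : ℤ) : ℚ) ≤ 12 * N := by
    rw [Rat.logHeight₁_eq_log_max]
    refine (Real.log_le_self (by positivity)).trans ?_
    have : 1 ≤ N := one_le_radN _ _
    simp only [Rat.num_intCast, Rat.den_intCast]
    exact_mod_cast (by omega : max (-2 * A).natAbs 1 ≤ 12 * N)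
  have t6 := le_self_pow₀ N0 (n := 2 * κ + 1) (by omega)
  rw [← eh]
  rw [Nat.cast_ofNat] at t3
  have t7 : logHeight₁ s ≤ 1 + (2 * logHeight₁ u + 12 * N) + 0 + 2 :=
    t1.trans (add_le_add (t2.trans (by gcongr; exact t3.trans (by gcongr))) t4)
  rw [add_mul, mul_assoc 2]
  linarith

end Vale.Agent.P027Z
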