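import Vale.Agent.P027Z.Basic

/-! Statements of the blocks of the proof. -/

set_option linter.all false

namespace Vale.Agent.P027Z

open WeierstrassCurve WeierstrassCurve.Affine Filter

/-- the eighth cyclotomic field -/
abbrev L : Type := CyclotomicField 8 ℚ

noncomputable instance : DecidableEq L := Classical.decEq L

instance instCyc : IsCyclotomicExtension {8} ℚ L := CyclotomicField.isCyclotomicExtension 8 ℚ

/-- a primitive eighth root of unity -/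
noncomputable def ζ : L := IsCyclotomicExtension.zeta 8 ℚ L

lemma ζ_spec : IsPrimitiveRoot ζ 8 := IsCyclotomicExtension.zeta_spec 8 ℚ L

lemma ζ_four : ζ ^ 4 = -1 :=
  (ζ_spec.pow (by norm_num) (show 8 = 4 * 2 by norm_num)).eq_neg_one_of_two_right

lemma hi : (ζ ^ 2) ^ 2 = -1 := by rw [← ζ_four]; ring

/-- a prime of norm nine -/
noncomputable def d₁ : L := -2 + ζ ^ 2 + 2 * ζ ^ 3
/-- its conjugate over the Gaussian field -/
noncomputable def d₂ : L := -2 + ζ ^ 2 - 2 * ζ ^ 3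

lemma d_mul : d₁ * d₂ = 3 := by
  unfold d₁ d₂; linear_combination (1 - 4 * ζ ^ 2) * ζ_four

/-- integer combinations of the powers of `ζ` -/
noncomputable def ev (a : Fin 4 → ℤ) : L := ∑ j : Fin 4, (a j : L) * ζ ^ (j : ℕ)

/-- two primes: the twist has a point in the class that separates the primes -/
def C1 : Prop := ∀ s t : ℕ, s.Prime → t.Prime → s % 8 = 3 → t % 8 = 5 → ¬ IsSquare (s : ZMod t) →
  ∃ u v w z : ℚ, w ≠ 0 ∧ z ≠ 0 ∧ u ^ 2 + v ^ 2 = t * w ^ 2 ∧ u ^ 2 - v ^ 2 = s * z ^ 2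

/-- six primes -/
def P1 : Prop := ∀ a m r : ℕ, 0 < a → 24 ∣ a → 0 < m → r.Coprime m → (2 * a + 1).Coprime m →
  ∃ u : Fin 3 → ℕ, (∀ i, (u i).Prime ∧ u i ≡ r [MOD m]) ∧
    ∀ i j, i < j → (a * u i + (a + 1) * u j).Prime

/-- nine primes -/
def P2 : Prop := ∀ a : ℕ, 0 < a → 24 ∣ a → ∀ X : ℕ, ∃ p₁ p₂ g₁ g₂ : ℕ,
  p₁ % 24 = 17 ∧ p₂ % 24 = 17 ∧ g₁ % 24 = 17 ∧ g₂ % 24 = 17 ∧
  ∀ n ∈ [p₁, p₂, a * p₁ + p₂, g₁, g₂, p₁ + 24 * g₁, p₂ + 24 * g₁, p₂ + 24 * g₂,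
    a * p₁ + p₂ + 24 * g₂], n.Prime ∧ X < n

/-- rank one over the Gaussian integers, and the growth of the heights -/
def A1 : Prop := ∃ (P₀ : (W d₁).Point) (m : ℕ) (C : ℝ),
  (∀ Q : (W d₁).Point, ∃ b : GaussianInt, m • Q = gs hi b (m • P₀)) ∧
  (∀ b : GaussianInt, gs hi b (m • P₀) = 0 → b = 0) ∧
  (∀ b : GaussianInt, (b.norm : ℝ) ≤ C * (1 + Height.logHeight₁ (xc (gs hi b (m • P₀)))))

/-- the orders of points on the two conjugate curves are coprime away from two -/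
def A2 : Prop := ∀ q : ℕ, q.Prime → q % 24 = 17 → ∀ O : ValuationSubring L,
  (q : L) ∈ O.nonunits → (∀ c ∈ O, ∃ u : ℤ, c - u ∈ O.nonunits) →
  ∀ (P₁ : (W d₁).Point) (P₂ : (W d₂).Point), ∃ a₁ a₂ g₁ g₂ : GaussianInt,
    g₁ * a₁ + g₂ * a₂ = 2 ∧ a₁ ≠ 0 ∧ a₂ ≠ 0 ∧ Ker O (gs hi a₁ P₁) ∧ Ker O (gs hi a₂ P₂)

/-- the formal group to first order -/
def A3 : Prop := ∀ (k : Type) [Field k] [DecidableEq k] (O : ValuationSubring k) (d i : k)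
  (hi : i ^ 2 = -1), d ∈ O → ∀ Q : (W d).Point, Ker O Q →
    zc Q ∈ O.nonunits ∧ (Q ≠ 0 → zc Q ≠ 0) ∧ ∀ a : GaussianInt, Ker O (gs hi a Q) ∧
      ∃ c ∈ O, zc (gs hi a Q) = gv i a * zc Q + c * zc Q ^ 2

/-- reduction of points is a homomorphism -/
def Red : Prop := ∀ (k : Type) [Field k] [DecidableEq k] (O : ValuationSubring k)
  (κ : Type) [Field κ] [DecidableEq κ] (ρ : O →+* κ), (∀ c : O, ρ c = 0 ↔ (c : k) ∈ O.nonunits) →
  ∀ d : O, ρ (2 * d) ≠ 0 → ∃ red : (W (d : k)).Point →+ (W (ρ d)).Point,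
    (∀ Q, red Q = 0 ↔ Ker O Q) ∧
    (∀ (x y : O) (h : (W (d : k)).Nonsingular x y), ∃ h', red (.some x y h) = .some (ρ x) (ρ y) h') ∧
    (∀ (x y : k), (W (d : k)).Nonsingular x y → x ∈ O → y ∈ O)

/-- the places of degree one of the eighth cyclotomic field, automorphisms, basis, heights -/
def A4 : Prop :=
  (∀ q : ℕ, q.Prime → q % 8 = 1 → ∃ r : ℤ, (q : ℤ) ∣ r ^ 4 + 1) ∧
  (∀ (q : ℕ) (r : ℤ), q.Prime → (q : ℤ) ∣ r ^ 4 + 1 → ∃ O : ValuationSubring L,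
    (q : L) ∈ O.nonunits ∧ (∀ c ∈ O, ∃ u : ℤ, c - u ∈ O.nonunits) ∧
    (∀ c ∈ O, ∃ a b b' : Fin 4 → ℤ, (1 + q * ev b + (ζ - r) * ev b') * c = ev a) ∧
    (∀ c ∈ O.nonunits, ∃ a a' b b' : Fin 4 → ℤ,
      (1 + q * ev b + (ζ - r) * ev b') * c = q * ev a + (ζ - r) * ev a')) ∧
  (∀ p : ℕ, p.Prime → ∃ O : ValuationSubring L, (p : L) ∈ O.nonunits) ∧
  (∃ σ : L →+* L, σ ζ = -ζ) ∧ (∃ τ : L →+* L, τ ζ = ζ ^ 3) ∧
  (∃ bas : Module.Basis (Fin 4) ℚ L, ∀ j, bas j = ζ ^ (j : ℕ)) ∧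
  (∃ C : ℝ, ∀ ξ : Fin 4 → ℚ, Height.logHeight₁ (∑ j : Fin 4, (ξ j : L) * ζ ^ (j : ℕ)) ≤
    C * (1 + ∑ j, Height.logHeight₁ (ξ j)))

/-- parity: a negative value of the image of an integer sequence is even -/
def Par : Prop := ∀ (I F : Type) [Field F] (θ : (I → ℚ) →+* F) (O : ValuationSubring F),
  (2 : F) ∉ O.nonunits → ∀ t : I → ℤ, θ (fun i => t i) ∉ O →
    ∃ y : I → ℚ, θ y ≠ 0 ∧ θ (fun i => t i) / θ y ^ 2 ∈ O ∧ θ y ^ 2 / θ (fun i => t i) ∈ O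

/-- iterated parity: the value of a unit of the coarse ring is divisible by all powers of two -/
def ParStar : Prop := ∀ (I F : Type) [Field F] (θ : (I → ℚ) →+* F) (O : ValuationSubring F),
  (2 : F) ∉ O.nonunits → ∀ q t : I → ℤ, θ (fun i => q i * t i) ∉ O.nonunits → ∀ j : ℕ,
    ∃ y : I → ℚ, θ y ≠ 0 ∧ θ (fun i => q i) / θ y ^ 2 ^ j ∈ O ∧
      θ y ^ 2 ^ j / θ (fun i => q i) ∈ O

/-- compactness: from embeddings into ultrapowers to existential definitions -/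
def Crit : Prop := ∀ G A : Set ℚ,
  (∀ (J : Type) (U : Ultrafilter J) (θ : (ℤ → ℚ) →+* Germ (U : Filter J) ℚ),
    (∀ a : ℤ → ℚ, (∀ n, a n ∈ G) → Germ.LiftPred (· ∈ G) (θ a)) →
    Germ.LiftPred (· ∈ A) (θ (fun n => (n : ℚ)))) →
  ∃ (m : ℕ) (S : Finset (Fin m)) (g : MvPolynomial (Option (Fin m)) ℤ),
    (∀ n : ℤ, ∃ y : Fin m → ℚ, (∀ i ∈ S, y i ∈ G) ∧
      MvPolynomial.aeval (fun o : Option (Fin m) => o.elim (n : ℚ) y) g = 0) ∧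
    ∀ (x : ℚ) (y : Fin m → ℚ), (∀ i ∈ S, y i ∈ G) →
      MvPolynomial.aeval (fun o : Option (Fin m) => o.elim x y) g = 0 → x ∈ A

end Vale.Agent.P027Z
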