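import Vale.Agent.P027Z.Theta

/-! The index of a point is congruent to the image of the integer: one curve. -/

set_option linter.all false

namespace Vale.Agent.P027Z

open WeierstrassCurve WeierstrassCurve.Affine Filter

lemma gv_add {k : Type*} [Field k] (i : k) (a b : GaussianInt) :
    gv i (a + b) = gv i a + gv i b := by
  simp only [gv, Zsqrtd.re_add, Zsqrtd.im_add]; push_cast; ring

lemma gv_mul {k : Type*} [Field k] {i : k} (hi : i ^ 2 = -1) (a b : GaussianInt) :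
    gv i (a * b) = gv i a * gv i b := by
  simp only [gv, Zsqrtd.re_mul, Zsqrtd.im_mul]; push_cast
  linear_combination (-(a.im : k) * b.im) * hi

lemma gv_one {k : Type*} [Field k] (i : k) : gv i 1 = 1 := by simp [gv]

lemma gv_two {k : Type*} [Field k] (i : k) : gv i 2 = 2 := by
  rw [← one_add_one_eq_two, gv_add, gv_one, one_add_one_eq_two]

lemma gv_int {k : Type*} [Field k] (i : k) (n : ℤ) : gv i (n : GaussianInt) = n := by simp [gv]

lemma ζ_mem (O : ValuationSubring L) : ζ ∈ O := by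
  rcases O.mem_or_inv_mem ζ with h | h
  · exact h
  · have h0 : ζ ≠ 0 := ζ_spec.ne_zero (by norm_num)
    have : ζ = ζ⁻¹ ^ 7 := by
      rw [inv_pow]
      exact eq_inv_of_mul_eq_one_left (by linear_combination (ζ ^ 4 - 1) * ζ_four)
    rw [this]
    exact pow_mem h 7

lemma gv_mem (O : ValuationSubring L) (a : GaussianInt) : gv (ζ ^ 2) a ∈ O :=
  add_mem (intCast_mem O _) (mul_mem (intCast_mem O _) (pow_mem (ζ_mem O) 2))

lemma two_mem (O : ValuationSubring L) : (2 : L) ∈ O := by exact_mod_cast natCast_mem O 2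

lemma d₁_mem (O : ValuationSubring L) : d₁ ∈ O :=
  add_mem (add_mem (neg_mem (two_mem O)) (pow_mem (ζ_mem O) 2))
    (mul_mem (two_mem O) (pow_mem (ζ_mem O) 3))

lemma d₂_mem (O : ValuationSubring L) : d₂ ∈ O :=
  sub_mem (add_mem (neg_mem (two_mem O)) (pow_mem (ζ_mem O) 2))
    (mul_mem (two_mem O) (pow_mem (ζ_mem O) 3))

section Val
variable {F : Type*} [Field F] {O : ValuationSubring F}

lemma nu_mul_right {x y : F} (hx : x ∈ O.nonunits) (hy : y ∈ O) : x * y ∈ O.nonunits := by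
  rw [ValuationSubring.mem_nonunits_iff] at hx ⊢
  rw [map_mul]
  exact mul_lt_one_of_lt_of_le hx ((O.valuation_le_one_iff y).2 hy)

lemma nu_mul_left {x y : F} (hx : x ∈ O) (hy : y ∈ O.nonunits) : x * y ∈ O.nonunits := by
  rw [mul_comm]; exact nu_mul_right hy hx

lemma nu_mem {x : F} (hx : x ∈ O.nonunits) : x ∈ O := O.nonunits_subset hx

lemma nu_add {x y : F} (hx : x ∈ O.nonunits) (hy : y ∈ O.nonunits) : x + y ∈ O.nonunits :=
  add_mem hx hy

lemma nu_sub {x y : F} (hx : x ∈ O.nonunits) (hy : y ∈ O.nonunits) : x - y ∈ O.nonunits :=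
  sub_mem hx hy

lemma one_not_nu : (1 : F) ∉ O.nonunits := by
  rw [ValuationSubring.mem_nonunits_iff]; simp

lemma inv_mem_of_not_nu {x : F} (hx : x ∉ O.nonunits) : x ≠ 0 ∧ x⁻¹ ∈ O := by
  rw [ValuationSubring.mem_nonunits_iff_or] at hx
  push_neg at hx
  exact hx

lemma nu_prime {x y : F} (h : x * y ∈ O.nonunits) : x ∈ O.nonunits ∨ y ∈ O.nonunits := by
  by_contra hn
  push_neg at hn
  obtain ⟨x0, x1⟩ := inv_mem_of_not_nu hn.1
  obtain ⟨y0, y1⟩ := inv_mem_of_not_nu hn.2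
  have := nu_mul_right h (mul_mem x1 y1)
  rw [show x * y * (x⁻¹ * y⁻¹) = 1 by field_simp] at this
  exact one_not_nu this

lemma cancel_unit_mem {μ c a : F} (hμ : μ ∈ O.nonunits) (h : (1 + μ) * c = a) (ha : a ∈ O) :
    c ∈ O := by
  have h1 : 1 + μ ∉ O.nonunits := fun h1 => one_not_nu (by simpa using nu_sub h1 hμ)
  obtain ⟨x0, x1⟩ := inv_mem_of_not_nu h1
  have : c = (1 + μ)⁻¹ * a := by rw [← h]; field_simp
  rw [this]; exact mul_mem x1 ha

lemma cancel_unit_nu {μ c a : F} (hμ : μ ∈ O.nonunits) (h : (1 + μ) * c = a)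
    (ha : a ∈ O.nonunits) : c ∈ O.nonunits := by
  have h1 : 1 + μ ∉ O.nonunits := fun h1 => one_not_nu (by simpa using nu_sub h1 hμ)
  rw [← h] at ha
  exact (nu_prime ha).resolve_left h1

end Val

noncomputable instance germDec {J : Type} (U : Ultrafilter J) :
    DecidableEq (Germ (U : Filter J) L) := Classical.decEq _

section Core
variable {I J : Type} {U : Ultrafilter J} {V : Ultrafilter I}
  {Θ : (I → L) →+* Germ (U : Filter J) L} (hV : IsU V Θ)
  (hc : ∀ c : L, Θ (fun _ => c) = gconst U L c)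

/-- the point in the ultrapower of a sequence on the source side -/
noncomputable def ps (d : L) : (I → (W d).Point) →+ (W (gconst U L d)).Point := psi hV (hc d)

lemma germ_const (U : Ultrafilter J) (d : L) :
    (Germ.coeRingHom (U : Filter J) : (J → L) →+* _) (fun _ => d) = gconst U L d := rfl

/-- the point in the ultrapower of a sequence on the target side -/
noncomputable def pt (U : Ultrafilter J) (d : L) :
    (J → (W d).Point) →+ (W (gconst U L d)).Point := psi (isU_germ U) (germ_const U d)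

lemma ps_eq_zero {d : L} (S : I → (W d).Point) : ps hV hc d S = 0 ↔ ∀ᶠ i in V, S i = 0 :=
  psi_eq_zero _ _ S
lemma pt_eq_zero {d : L} (S : J → (W d).Point) : pt U d S = 0 ↔ ∀ᶠ i in U, S i = 0 :=
  psi_eq_zero _ _ S
lemma pt_eq_iff {d : L} (S T : J → (W d).Point) :
    pt U d S = pt U d T ↔ ∀ᶠ i in U, S i = T i := psi_eq_iff _ _ S T
lemma xc_ps {d : L} (S : I → (W d).Point) : xc (ps hV hc d S) = Θ fun i => xc (S i) :=
  xc_psi _ _ S
lemma yc_ps {d : L} (S : I → (W d).Point) : yc (ps hV hc d S) = Θ fun i => yc (S i) :=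
  yc_psi _ _ S
lemma zc_ps {d : L} (S : I → (W d).Point) : zc (ps hV hc d S) = Θ fun i => zc (S i) :=
  zc_psi _ _ S
lemma xc_pt {d : L} (S : J → (W d).Point) :
    xc (pt U d S) = ((fun w => xc (S w) : J → L) : Germ (U : Filter J) L) := xc_psi _ _ S
lemma yc_pt {d : L} (S : J → (W d).Point) :
    yc (pt U d S) = ((fun w => yc (S w) : J → L) : Germ (U : Filter J) L) := yc_psi _ _ S
lemma zc_pt {d : L} (S : J → (W d).Point) :
    zc (pt U d S) = ((fun w => zc (S w) : J → L) : Germ (U : Filter J) L) := zc_psi _ _ S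
lemma pt_surjective (U : Ultrafilter J) (d : L) : Function.Surjective (pt U d) :=
  psi_surjective _ _ (fun x => Germ.inductionOn x fun a => ⟨a, rfl⟩)

variable {d : L} {Os : I → ValuationSubring L} {Ot : J → ValuationSubring L}
  {O' : ValuationSubring (Germ (U : Filter J) L)} (hO : gval U Ot ≤ O')
  (h1 : ∀ c : I → L, (∀ i, c i ∈ Os i) → Θ c ∈ O')
  (h2 : ∀ c : I → L, (∀ i, c i ∈ (Os i).nonunits) → Θ c ∈ O'.nonunits)

include hO h2 in
lemma ker_transfer {S : I → (W d).Point} {T : J → (W d).Point} (h : ps hV hc d S = pt U d T)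
    (hS : ∀ i, Ker (Os i) (S i)) : ∀ᶠ w in U, Ker (Ot w) (T w) := by
  rcases U.em (fun w => T w = 0) with h0 | h0
  · filter_upwards [h0] with w hw using Or.inl hw
  have hx : Θ (fun i => xc (S i)) = ((fun w => xc (T w) : J → L) : Germ (U : Filter J) L) := by
    have := congrArg xc h
    rwa [xc_ps, xc_pt] at this
  have hS0 : ∀ᶠ i in V, S i ≠ 0 := by
    rw [Ultrafilter.eventually_not, ← ps_eq_zero hV hc]
    intro e
    have e' : pt U d T = 0 := h ▸ e
    rw [pt_eq_zero] at e'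
    exact (Ultrafilter.eventually_not.1 h0) e'
  have hx0 : ∀ᶠ w in U, xc (T w) ≠ 0 := by
    have e1 : Θ (fun i => xc (S i)) ≠ Θ 0 := by
      rw [hV.ne_iff]
      filter_upwards [hS0] with i hi
      intro e
      exact ((hS i).resolve_left hi) (by rw [e]; exact zero_mem _)
    rw [map_zero, hx] at e1
    rw [Ultrafilter.eventually_not]
    exact fun e => e1 (Germ.coe_eq.2 e)
  have h3 : Θ (fun i => (xc (S i))⁻¹) ∈ O'.nonunits := by
    apply h2
    intro i
    rw [ValuationSubring.inv_mem_nonunits_iff]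
    rcases hS i with e | e
    · left; rw [e]; rfl
    · exact Or.inr e
  rw [hV.map_inv, hx] at h3
  have h4 := (ValuationSubring.nonunits_le_nonunits.2 hO) h3
  rw [← Germ.coe_inv, mem_nonunits_gval] at h4
  filter_upwards [h4, hx0] with w e1 e2
  rw [Pi.inv_apply, ValuationSubring.inv_mem_nonunits_iff] at e1
  exact Or.inr (e1.resolve_left e2)

include hO h1 h2 in
/-- first order comparison on one curve -/
theorem core (a3 : A3) (hd : ∀ O : ValuationSubring L, d ∈ O) (P : (W d).Point)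
    {a y : I → GaussianInt} {A A' : J → GaussianInt}
    (hA : ps hV hc d (fun i => gs hi (a i) P) = pt U d (fun w => gs hi (A w) P))
    (hA' : ps hV hc d (fun i => gs hi (y i * a i) P) = pt U d (fun w => gs hi (A' w) P))
    (hK : ∀ i, Ker (Os i) (gs hi (a i) P)) (hne : ∀ i, gs hi (a i) P ≠ 0) :
    ((fun w => gv (ζ ^ 2) (A w) : J → L) : Germ (U : Filter J) L) * Θ (fun i => gv (ζ ^ 2) (y i)) -
      ((fun w => gv (ζ ^ 2) (A' w) : J → L) : Germ (U : Filter J) L) ∈ O'.nonunits := by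
  have s := fun i => a3 L (Os i) d (ζ ^ 2) hi (hd _) _ (hK i)
  have hK' : ∀ i, Ker (Os i) (gs hi (y i * a i) P) := fun i => by
    rw [gs_mul]; exact ((s i).2.2 (y i)).1
  choose c hc1 hc2 using fun i => ((s i).2.2 (y i)).2
  have t1 := ker_transfer hV hc hO h2 hA hK
  have t2 := ker_transfer hV hc hO h2 hA' hK'
  set Z := Θ (fun i => zc (gs hi (a i) P)) with hZ
  set Z' := Θ (fun i => zc (gs hi (y i * a i) P)) with hZ'
  set Y := Θ (fun i => gv (ζ ^ 2) (y i)) with hY
  have Z0 : Z ≠ 0 := map_ne_zero_of_forall Θ fun i => (s i).2.1 (hne i)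
  have Zn : Z ∈ O'.nonunits := h2 _ fun i => (s i).1
  have Ym : Y ∈ O' := h1 _ fun i => gv_mem _ _
  have Cm : Θ c ∈ O' := h1 _ hc1
  have eZ : Z' = Y * Z + Θ c * Z ^ 2 := by
    rw [hZ, hZ', hY, ← map_pow, ← map_mul, ← map_mul, ← map_add]
    congr 1
    funext i
    rw [gs_mul]
    exact hc2 i
  have zA : Z = ((fun w => zc (gs hi (A w) P) : J → L) : Germ (U : Filter J) L) := by
    have := congrArg zc hA
    rwa [zc_ps, zc_pt] at this
  have zA' : Z' = ((fun w => zc (gs hi (A' w) P) : J → L) : Germ (U : Filter J) L) := by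
    have := congrArg zc hA'
    rwa [zc_ps, zc_pt] at this
  have key : ∀ w, ∃ c₁ c₂ : L, Ker (Ot w) (gs hi (A w) P) → Ker (Ot w) (gs hi (A' w) P) →
      c₁ ∈ Ot w ∧ c₂ ∈ Ot w ∧
      gv (ζ ^ 2) (A w) * zc (gs hi (A' w) P) + c₁ * zc (gs hi (A' w) P) ^ 2 =
        gv (ζ ^ 2) (A' w) * zc (gs hi (A w) P) + c₂ * zc (gs hi (A w) P) ^ 2 := by
    intro w
    by_cases k1 : Ker (Ot w) (gs hi (A w) P)
    swap
    · exact ⟨0, 0, fun k => absurd k k1⟩
    by_cases k2 : Ker (Ot w) (gs hi (A' w) P)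
    swap
    · exact ⟨0, 0, fun _ k => absurd k k2⟩
    obtain ⟨c₁, m1, e1⟩ := ((a3 L (Ot w) d (ζ ^ 2) hi (hd _) _ k2).2.2 (A w)).2
    obtain ⟨c₂, m2, e2⟩ := ((a3 L (Ot w) d (ζ ^ 2) hi (hd _) _ k1).2.2 (A' w)).2
    refine ⟨c₁, c₂, fun _ _ => ⟨m1, m2, ?_⟩⟩
    rw [← e1, ← e2, ← gs_mul, ← gs_mul, mul_comm]
  choose c₁ c₂ hk using key
  have hk' := (t1.and t2).mono fun w hw => hk w hw.1 hw.2
  have m1 : (c₁ : Germ (U : Filter J) L) ∈ O' := hO ((mem_gval U Ot c₁).2 (hk'.mono fun w h => h.1))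
  have m2 : (c₂ : Germ (U : Filter J) L) ∈ O' :=
    hO ((mem_gval U Ot c₂).2 (hk'.mono fun w h => h.2.1))
  set B := ((fun w => gv (ζ ^ 2) (A w) : J → L) : Germ (U : Filter J) L) with hB
  set B' := ((fun w => gv (ζ ^ 2) (A' w) : J → L) : Germ (U : Filter J) L) with hB'
  have Bm : B ∈ O' := hO ((mem_gval U Ot _).2 (Eventually.of_forall fun w => gv_mem _ _))
  have e : B * Z' + c₁ * Z' ^ 2 = B' * Z + c₂ * Z ^ 2 := by
    rw [zA, zA', hB, hB', ← Germ.coe_pow, ← Germ.coe_pow, ← Germ.coe_mul, ← Germ.coe_mul,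
      ← Germ.coe_mul, ← Germ.coe_mul, ← Germ.coe_add, ← Germ.coe_add, Germ.coe_eq]
    exact hk'.mono fun w h => h.2.2
  have e2 : B * Y - B' = Z * (c₂ - B * Θ c - c₁ * (Y + Θ c * Z) ^ 2) := by
    apply mul_left_cancel₀ Z0
    rw [eZ] at e
    linear_combination e
  rw [e2]
  exact nu_mul_right Zn (sub_mem (sub_mem m2 (mul_mem Bm Cm))
    (mul_mem m1 (pow_mem (add_mem Ym (mul_mem Cm (nu_mem Zn))) 2)))

end Core

end Vale.Agent.P027Z
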