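import Vale.Agent.P027Z.LemA

/-! The index of a point is congruent to the image of the integer: two conjugate curves. -/

set_option linter.all false

namespace Vale.Agent.P027Z

open WeierstrassCurve WeierstrassCurve.Affine Filter

lemma gs_nsmul {d : L} (a : GaussianInt) (m : ℕ) (Q : (W d).Point) :
    gs hi a (m • Q) = m • gs hi a Q := by
  simp only [gs, map_nsmul]; module

section
variable {I J : Type} {U : Ultrafilter J} {V : Ultrafilter I}
  {Θ : (I → L) →+* Germ (U : Filter J) L} (hV : IsU V Θ)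
  (hc : ∀ c : L, Θ (fun _ => c) = gconst U L c)

/-- `b` is the index of the image of the multiple `a P` -/
def Idx {d : L} (P : (W d).Point) (a : I → GaussianInt) (b : J → GaussianInt) : Prop :=
  ps hV hc d (fun i => gs hi (a i) P) = pt U d (fun w => gs hi (b w) P)

lemma idx_exists {d : L} {P₀ : (W d).Point} {m : ℕ}
    (h : ∀ Q : (W d).Point, ∃ b : GaussianInt, m • Q = gs hi b (m • P₀)) (a : I → GaussianInt) :
    ∃ b, Idx hV hc (m • P₀) a b := by
  obtain ⟨T, hT⟩ := pt_surjective U d (ps hV hc d (fun i => gs hi (a i) P₀))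
  choose b hb using fun w => h (T w)
  refine ⟨b, ?_⟩
  have e1 : (fun i => gs hi (a i) (m • P₀)) = m • fun i => gs hi (a i) P₀ := by
    funext i; exact gs_nsmul _ _ _
  have e2 : (fun w => gs hi (b w) (m • P₀)) = m • T := by
    funext w; exact (hb w).symm
  unfold Idx
  rw [e1, e2, map_nsmul, map_nsmul, hT]

lemma idx_add {d : L} {P : (W d).Point} {a a' : I → GaussianInt} {b b' : J → GaussianInt}
    (h : Idx hV hc P a b) (h' : Idx hV hc P a' b') :
    Idx hV hc P (fun i => a i + a' i) (fun w => b w + b' w) := by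
  unfold Idx at *
  have e1 : (fun i => gs hi (a i + a' i) P) =
      (fun i => gs hi (a i) P) + fun i => gs hi (a' i) P := by
    funext i; exact gs_add _ _ _ _
  have e2 : (fun i => gs hi (b i + b' i) P) =
      (fun i => gs hi (b i) P) + fun i => gs hi (b' i) P := by
    funext i; exact gs_add _ _ _ _
  rw [e1, e2, map_add, map_add, h, h']

lemma idx_unique {d : L} {P : (W d).Point} (hP : ∀ b : GaussianInt, gs hi b P = 0 → b = 0)
    {a : I → GaussianInt} {b b' : J → GaussianInt}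
    (h : Idx hV hc P a b) (h' : Idx hV hc P a b') : ∀ᶠ w in U, b w = b' w := by
  have e := h.symm.trans h'
  rw [pt_eq_iff] at e
  filter_upwards [e] with w hw
  rw [← sub_eq_zero]
  apply hP
  have := gs_add hi (b w - b' w) (b' w) P
  rw [sub_add_cancel, hw] at this
  simpa using this

lemma idx_one {d : L} (P : (W d).Point) : Idx hV hc P (fun _ => 1) (fun _ => 1) := by
  unfold Idx
  simp only [gs_one]
  refine point_ext ?_ ?_ ?_
  · rw [ps_eq_zero, pt_eq_zero]; simp
  · rw [xc_ps, xc_pt, hc]; rfl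
  · rw [yc_ps, yc_pt, hc]; rfl

lemma σ_d (σ : L →+* L) (hσ : σ ζ = -ζ) : d₂ = 1 ^ 4 * σ d₁ := by
  simp only [d₁, d₂, map_add, map_neg, map_mul, map_pow, map_ofNat, hσ]; ring

/-- the conjugate point -/
noncomputable def conj (σ : L →+* L) (hσ : σ ζ = -ζ) : (W d₁).Point →+ (W d₂).Point :=
  tmap σ one_ne_zero (σ_d σ hσ)

lemma conj_gs (σ : L →+* L) (hσ : σ ζ = -ζ) (a : GaussianInt) (P : (W d₁).Point) :
    gs hi a (conj σ hσ P) = conj σ hσ (gs hi a P) :=
  (tmap_gs σ one_ne_zero (σ_d σ hσ) hi hi (by rw [map_pow, hσ]; ring) a P).symm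

lemma idx_conj (σ : L →+* L) (hσ : σ ζ = -ζ)
    (hΘ : ∀ a : I → L, Θ (fun i => σ (a i)) = gmap U σ (Θ a))
    {P : (W d₁).Point} {a : I → GaussianInt} {b : J → GaussianInt} (h : Idx hV hc P a b) :
    Idx hV hc (conj σ hσ P) a b := by
  unfold Idx at *
  simp only [conj_gs]
  refine point_ext ?_ ?_ ?_
  · rw [ps_eq_zero, pt_eq_zero]
    simp only [conj, tmap_eq_zero]
    rw [← ps_eq_zero hV hc, ← pt_eq_zero, h]
  · have := congrArg xc h
    rw [xc_ps, xc_pt] at this ⊢
    simp only [conj, xc_tmap, one_pow, one_mul]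
    rw [hΘ, this]; rfl
  · have := congrArg yc h
    rw [yc_ps, yc_pt] at this ⊢
    simp only [conj, yc_tmap, one_pow, one_mul]
    rw [hΘ, this]; rfl

variable {O' : ValuationSubring (Germ (U : Filter J) L)}
  (h0 : ∀ t : I → ℤ, Θ (fun i => (t i : L)) ∈ O') (hz : gconst U L ζ ∈ O')

include hc h0 hz in
lemma ev_mem (a : I → Fin 4 → ℤ) : Θ (fun i => ev (a i)) ∈ O' := by
  have : (fun i => ev (a i)) = ∑ j : Fin 4, (fun i => (a i j : L)) * (fun _ => ζ) ^ (j : ℕ) := by
    funext i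
    simp [ev, Finset.sum_apply]
  rw [this, map_sum]
  refine sum_mem fun j _ => ?_
  rw [map_mul, map_pow, hc]
  exact mul_mem (h0 _) (pow_mem hz _)

include hc h0 hz in
/-- the places on the source side below the coarse place -/
lemma exists_source (a4 : A4) {q : I → ℕ} (hq : ∀ i, (q i).Prime ∧ q i % 24 = 17)
    (hn : Θ (fun i => (q i : L)) ∈ O'.nonunits) : ∃ Os : I → ValuationSubring L,
    (∀ i, (q i : L) ∈ (Os i).nonunits ∧ ∀ c ∈ Os i, ∃ u : ℤ, c - u ∈ (Os i).nonunits) ∧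
    (∀ c : I → L, (∀ i, c i ∈ Os i) → Θ c ∈ O') ∧
    (∀ c : I → L, (∀ i, c i ∈ (Os i).nonunits) → Θ c ∈ O'.nonunits) := by
  obtain ⟨b1, b2, -⟩ := a4
  have hr : ∃ r : I → ℤ, (∀ i, (q i : ℤ) ∣ r i ^ 4 + 1) ∧
      Θ (fun i => ζ - r i) ∈ O'.nonunits := by
    choose r hr using fun i => b1 (q i) (hq i).1 (by have := (hq i).2; omega)
    choose k hk using hr
    have e1 : Θ (fun i => (ζ - r i) * (ζ - ((-r i : ℤ) : L)) *
        ((ζ - ((r i ^ 3 : ℤ) : L)) * (ζ - ((-r i ^ 3 : ℤ) : L)))) ∈ O'.nonunits := by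
      have : (fun i => (ζ - r i) * (ζ - ((-r i : ℤ) : L)) *
          ((ζ - ((r i ^ 3 : ℤ) : L)) * (ζ - ((-r i ^ 3 : ℤ) : L)))) = (fun i => (q i : L)) *
          fun i => ev ![k i * (r i ^ 4 - 1), 0, -(k i * r i ^ 2), 0] := by
        funext i
        have h1 : ((r i : L)) ^ 4 + 1 = q i * k i := by exact_mod_cast congrArg (Int.cast (R := L)) (hk i)
        simp only [ev, Fin.sum_univ_four, Pi.mul_apply]
        simp
        linear_combination ζ_four + ((r i : L) ^ 4 - 1 - ζ ^ 2 * (r i : L) ^ 2) * h1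
      rw [this, map_mul]
      exact nu_mul_right hn (ev_mem hc h0 hz _)
    have e2 : (fun i => (ζ - r i) * (ζ - ((-r i : ℤ) : L)) *
        ((ζ - ((r i ^ 3 : ℤ) : L)) * (ζ - ((-r i ^ 3 : ℤ) : L)))) =
        (fun i => ζ - r i) * (fun i => ζ - ((-r i : ℤ) : L)) *
        ((fun i => ζ - ((r i ^ 3 : ℤ) : L)) * fun i => ζ - ((-r i ^ 3 : ℤ) : L)) := rfl
    rw [e2, map_mul, map_mul, map_mul] at e1
    have d3 : ∀ i, (q i : ℤ) ∣ r i ^ 12 + 1 := fun i =>
      Dvd.dvd.trans ⟨k i, hk i⟩ ⟨r i ^ 8 - r i ^ 4 + 1, by ring⟩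
    rcases nu_prime e1 with e | e <;> rcases nu_prime e with e | e
    · exact ⟨r, fun i => ⟨k i, hk i⟩, e⟩
    · exact ⟨fun i => -r i, fun i => ⟨k i, by rw [← hk i]; ring⟩, e⟩
    · exact ⟨fun i => r i ^ 3, fun i => by convert d3 i using 1; ring, e⟩
    · exact ⟨fun i => -r i ^ 3, fun i => by convert d3 i using 1; ring, e⟩
  obtain ⟨r, hr, hr'⟩ := hr
  choose Os o1 o2 o3 o4 using fun i => b2 (q i) (r i) (hq i).1 (hr i)
  have hμ : ∀ b b' : I → Fin 4 → ℤ,
      Θ (fun i => q i * ev (b i) + (ζ - r i) * ev (b' i)) ∈ O'.nonunits := by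
    intro b b'
    have : (fun i => q i * ev (b i) + (ζ - r i) * ev (b' i)) =
        (fun i => (q i : L)) * (fun i => ev (b i)) + (fun i => ζ - r i) * fun i => ev (b' i) := rfl
    rw [this, map_add, map_mul, map_mul]
    exact nu_add (nu_mul_right hn (ev_mem hc h0 hz _)) (nu_mul_right hr' (ev_mem hc h0 hz _))
  refine ⟨Os, fun i => ⟨o1 i, o2 i⟩, fun c h => ?_, fun c h => ?_⟩
  · choose a b b' e using fun i => o3 i (c i) (h i)
    refine cancel_unit_mem (hμ b b') ?_ (ev_mem hc h0 hz a)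
    rw [← map_one Θ, ← map_add, ← map_mul]
    congr 1
    funext i
    rw [← e i]
    simp only [Pi.mul_apply, Pi.add_apply, Pi.one_apply]; ring
  · choose a a' b b' e using fun i => o4 i (c i) (h i)
    refine cancel_unit_nu (hμ b b') ?_ (hμ a a')
    rw [← map_one Θ, ← map_add, ← map_mul]
    congr 1
    funext i
    rw [← e i]
    simp only [Pi.mul_apply, Pi.add_apply, Pi.one_apply]; ring

include h0 hz in
/-- the index is congruent to the image, at a place above a prime of the good class -/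
theorem lemA (a2 : A2) (a3 : A3) (a4 : A4) (σ : L →+* L) (hσ : σ ζ = -ζ)
    (hΘ : ∀ a : I → L, Θ (fun i => σ (a i)) = gmap U σ (Θ a))
    {P₀ : (W d₁).Point} {m : ℕ}
    (hall : ∀ Q : (W d₁).Point, ∃ b : GaussianInt, m • Q = gs hi b (m • P₀))
    (hP : ∀ b : GaussianInt, gs hi b (m • P₀) = 0 → b = 0)
    {Ot : J → ValuationSubring L} (hO : gval U Ot ≤ O')
    {q : I → ℕ} (hq : ∀ i, (q i).Prime ∧ q i % 24 = 17)
    (hn : Θ (fun i => (q i : L)) ∈ O'.nonunits) {y : I → GaussianInt} {B : J → GaussianInt}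
    (hB : Idx hV hc (m • P₀) y B) :
    ((fun w => gv (ζ ^ 2) (B w) : J → L) : Germ (U : Filter J) L) - Θ (fun i => gv (ζ ^ 2) (y i))
      ∈ O'.nonunits := by
  obtain ⟨Os, o1, h1, h2⟩ := exists_source hc h0 hz a4 hq hn
  choose a₁ a₂ g₁ g₂ e n1 n2 k1 k2 using fun i =>
    a2 (q i) (hq i).1 (hq i).2 (Os i) (o1 i).1 (o1 i).2 (m • P₀) (conj σ hσ (m • P₀))
  have ne1 : ∀ i, gs hi (a₁ i) (m • P₀) ≠ 0 := fun i h => n1 i (hP _ h)
  have ne2 : ∀ i, gs hi (a₂ i) (conj σ hσ (m • P₀)) ≠ 0 := fun i h => by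
    rw [conj_gs, conj, tmap_eq_zero] at h
    exact n2 i (hP _ h)
  obtain ⟨A₁, hA₁⟩ := idx_exists hV hc hall a₁
  obtain ⟨A₂, hA₂⟩ := idx_exists hV hc hall a₂
  have key : ∀ (y : I → GaussianInt) (B : J → GaussianInt), Idx hV hc (m • P₀) y B →
      Θ (fun i => gv (ζ ^ 2) (y i)) *
        (((fun w => gv (ζ ^ 2) (A₁ w) : J → L) : Germ (U : Filter J) L) *
            Θ (fun i => gv (ζ ^ 2) (g₁ i)) +
          ((fun w => gv (ζ ^ 2) (A₂ w) : J → L) : Germ (U : Filter J) L) *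
            Θ (fun i => gv (ζ ^ 2) (g₂ i))) -
        2 * ((fun w => gv (ζ ^ 2) (B w) : J → L) : Germ (U : Filter J) L) ∈ O'.nonunits := by
    intro y B hB
    obtain ⟨C₁, hC₁⟩ := idx_exists hV hc hall (fun i => y i * g₁ i * a₁ i)
    obtain ⟨C₂, hC₂⟩ := idx_exists hV hc hall (fun i => y i * g₂ i * a₂ i)
    have c1 := core hV hc hO h1 h2 a3 d₁_mem (m • P₀) (y := fun i => y i * g₁ i) hA₁ hC₁ k1 ne1
    have c2 := core hV hc hO h1 h2 a3 d₂_mem (conj σ hσ (m • P₀)) (y := fun i => y i * g₂ i)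
      (idx_conj hV hc σ hσ hΘ hA₂) (idx_conj hV hc σ hσ hΘ hC₂) k2 ne2
    have s1 := idx_add hV hc hC₁ hC₂
    have s2 := idx_add hV hc hB hB
    have s3 : (fun i => y i * g₁ i * a₁ i + y i * g₂ i * a₂ i) = fun i => y i + y i := by
      funext i; linear_combination y i * e i
    rw [s3] at s1
    have s4 := idx_unique hV hc hP s1 s2
    have s5 : ((fun w => gv (ζ ^ 2) (C₁ w) : J → L) : Germ (U : Filter J) L) +
        ((fun w => gv (ζ ^ 2) (C₂ w) : J → L) : Germ (U : Filter J) L) =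
        ((fun w => gv (ζ ^ 2) (B w) : J → L) : Germ (U : Filter J) L) +
        ((fun w => gv (ζ ^ 2) (B w) : J → L) : Germ (U : Filter J) L) := by
      rw [← Germ.coe_add, ← Germ.coe_add, Germ.coe_eq]
      filter_upwards [s4] with w hw
      simp only [Pi.add_apply]
      rw [← gv_add, ← gv_add, hw]
    have m1 : ∀ g : I → GaussianInt, Θ (fun i => gv (ζ ^ 2) (y i * g i)) =
        Θ (fun i => gv (ζ ^ 2) (y i)) * Θ (fun i => gv (ζ ^ 2) (g i)) := by
      intro g
      rw [← map_mul]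
      congr 1
      funext i
      exact gv_mul hi _ _
    rw [m1] at c1 c2
    convert nu_add c1 c2 using 1
    linear_combination s5
  have k := key y B hB
  have k' := key _ _ (idx_one hV hc (m • P₀))
  have one1 : Θ (fun _ : I => gv (ζ ^ 2) 1) = 1 := by
    simp only [gv_one]; exact map_one Θ
  have one2 : ((fun _ : J => gv (ζ ^ 2) 1 : J → L) : Germ (U : Filter J) L) = 1 := by
    simp only [gv_one]; rfl
  rw [one1, one2] at k'
  have Ym : Θ (fun i => gv (ζ ^ 2) (y i)) ∈ O' := h1 _ fun i => gv_mem _ _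
  have k2 := nu_sub (nu_mul_left Ym k') k
  have two : (2 : Germ (U : Filter J) L) ∉ O'.nonunits := by
    intro h
    have e1 : Θ (fun i => (q i : L)) - 2 * Θ (fun i => (((q i / 2 : ℕ) : ℤ) : L)) = 1 := by
      rw [← map_ofNat Θ 2, ← map_mul, ← map_sub, ← map_one Θ]
      congr 1
      funext i
      have h1 : q i = 2 * (q i / 2) + 1 := by have := (hq i).2; omega
      have h2 : (q i : L) = 2 * ((q i / 2 : ℕ) : L) + 1 := by exact_mod_cast h1
      simp only [Pi.sub_apply, Pi.mul_apply, Pi.one_apply, Pi.ofNat_apply, Int.cast_natCast]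
      linear_combination h2
    have := nu_sub hn (nu_mul_right h (h0 fun i => ((q i / 2 : ℕ) : ℤ)))
    rw [e1] at this
    exact one_not_nu this
  refine (nu_prime (x := 2) ?_).resolve_left two
  convert k2 using 1
  ring

end

end Vale.Agent.P027Z
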