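import Vale.Agent.P027Z.LemB

/-! Integers congruent to the images of integer sequences. -/

set_option linter.all false

namespace Vale.Agent.P027Z

open WeierstrassCurve WeierstrassCurve.Affine Filter

section Rat
variable {F : Type*} [Field F] [CharZero F] {O : ValuationSubring F} {p : ℕ} (hp : p.Prime)
  (hO : (p : F) ∈ O.nonunits)
include hp hO

lemma int_nu_iff (n : ℤ) : (n : F) ∈ O.nonunits ↔ (p : ℤ) ∣ n := by
  constructor
  · intro h
    by_contra hn
    have hc : IsCoprime (p : ℤ) n :=
      (Nat.prime_iff_prime_int.1 hp).irreducible.coprime_iff_not_dvd.2 hn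
    obtain ⟨a, b, e⟩ := hc
    have e' : (a : F) * p + b * n = 1 := by exact_mod_cast congrArg (Int.cast (R := F)) e
    exact one_not_nu (e' ▸ nu_add (nu_mul_left (intCast_mem O a) hO)
      (nu_mul_left (intCast_mem O b) h))
  · rintro ⟨k, rfl⟩
    push_cast
    exact nu_mul_right hO (intCast_mem O k)

lemma rat_nu_iff (x : ℚ) : (x : F) ∈ O.nonunits ↔ (p : ℤ) ∣ x.num := by
  have hd : (x.den : F) ≠ 0 := by exact_mod_cast x.den_ne_zero
  have e : (x : F) = x.num / x.den := by rw [Rat.cast_def]
  constructor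
  · intro h
    rw [← int_nu_iff hp hO]
    have : (x.num : F) = x * x.den := by rw [e]; field_simp
    rw [this]
    exact nu_mul_right h (natCast_mem O _)
  · intro h
    have h1 : ((x.den : ℤ) : F) ∉ O.nonunits := by
      rw [int_nu_iff hp hO]
      intro h2
      have h3 : p ∣ x.num.natAbs := Int.natCast_dvd.1 h
      have h4 : p ∣ x.den := Int.natCast_dvd_natCast.1 h2
      have := Nat.dvd_gcd h3 h4
      rw [x.reduced] at this
      exact hp.one_lt.ne' (Nat.dvd_one.1 this)
    rw [e, div_eq_mul_inv]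
    refine nu_mul_right ((int_nu_iff hp hO _).2 h) ?_
    simpa using (inv_mem_of_not_nu h1).2

/-- a rational unit has valuation zero -/
lemma val_zero_of_unit {x : ℚ} (h1 : (x : F) ∈ O) (h2 : (x : F)⁻¹ ∈ O) : padicValRat p x = 0 := by
  by_cases h0 : x = 0
  · simp [h0]
  have h0' : (x : F) ≠ 0 := by exact_mod_cast h0
  have n1 : ¬ (p : ℤ) ∣ x.num := by
    rw [← rat_nu_iff hp hO, ValuationSubring.mem_nonunits_iff_or]
    push_neg
    exact ⟨h0', h2⟩
  have n2 : ¬ p ∣ x.den := by
    intro h
    have h3 : ((x.den : ℤ) : F) ∈ O.nonunits :=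
      (int_nu_iff hp hO _).2 (Int.natCast_dvd_natCast.2 h)
    have h4 : (x.num : F) = x * ((x.den : ℤ) : F) := by
      have hd : (x.den : F) ≠ 0 := by exact_mod_cast x.den_ne_zero
      rw [Rat.cast_def]; push_cast; field_simp
    exact n1 ((int_nu_iff hp hO _).1 (h4 ▸ nu_mul_left h1 h3))
  rw [padicValRat, padicValInt.eq_zero_of_not_dvd n1, padicValNat.eq_zero_of_not_dvd n2]
  simp

end Rat

lemma nu_comap {F : Type*} [Field F] (O : ValuationSubring F) (τ : F →+* F) (x : F) :
    x ∈ (O.comap τ).nonunits ↔ τ x ∈ O.nonunits := by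
  simp only [ValuationSubring.mem_nonunits_iff_or, ValuationSubring.mem_comap, map_inv₀,
    map_eq_zero]

section
variable {I J : Type} {U : Ultrafilter J} (θ : (I → ℚ) →+* Germ (U : Filter J) ℚ)

/-- a representative of the image -/
noncomputable def rep (a : I → ℚ) : J → ℚ := Quotient.out (θ a)

lemma rep_spec (a : I → ℚ) : (rep θ a : Germ (U : Filter J) ℚ) = θ a := Quotient.out_eq (θ a)

/-- the homomorphism with values in the ultrapower of the cyclotomic field -/
noncomputable def thL : (I → ℚ) →+* Germ (U : Filter J) L := (gmap U (algebraMap ℚ L)).comp θ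

lemma thL_eq (a : I → ℚ) :
    thL θ a = ((fun w => (rep θ a w : L) : J → L) : Germ (U : Filter J) L) := by
  rw [thL, RingHom.comp_apply, ← rep_spec, gmap_coe]; rfl

/-- integer sequences as rational sequences -/
def intSeq (I : Type) : (I → ℤ) →+* (I → ℚ) where
  toFun t := fun i => (t i : ℚ)
  map_one' := by funext i; simp
  map_mul' a b := by funext i; simp
  map_zero' := by funext i; simp
  map_add' a b := by funext i; simp

/-- the sequence of primes `p` lies above the integer sequence `q` -/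
def Over (p : J → ℕ) (q : I → ℤ) : Prop :=
  ∀ t : I → ℤ, ∀ᶠ w in U, (p w : ℤ) ∣ (rep θ (fun i => (q i : ℚ) * t i) w).num

lemma over_iff {p : J → ℕ} (hp : ∀ w, (p w).Prime) {O : J → ValuationSubring L}
    (hO : ∀ w, (p w : L) ∈ (O w).nonunits) (q : I → ℤ) : Over θ p q ↔
    ∀ t : I → ℤ, thL θ (fun i => (q i : ℚ) * t i) ∈ (gval U O).nonunits := by
  refine forall_congr' fun t => ?_
  rw [thL_eq, mem_nonunits_gval]
  exact eventually_congr (Eventually.of_forall fun w => (rat_nu_iff (hp w) (hO w) _).symm)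

theorem exists_index (a1 : A1) (a2 : A2) (a3 : A3) (a4 : A4) :
    ∃ (C : ℝ) (m : (I → ℤ) → J → ℤ),
    (∀ x, ∃ ξ : Fin 4 → I → ℚ, ∀ᶠ w in U,
      ((m x w : ℝ)) ^ 2 ≤ C * (1 + ∑ j, Height.logHeight₁ (rep θ (ξ j) w))) ∧
    ∀ p : J → ℕ, (∀ w, (p w).Prime ∧ p w ≠ 2) → ∀ q : I → ℕ, (∀ i, (q i).Prime ∧ q i % 24 = 17) →
      Over θ p (fun i => q i) → ∀ x : I → ℤ, ∀ᶠ w in U,
        (p w : ℤ) ∣ ((m x w : ℚ) - rep θ (fun i => x i) w).num := by
  obtain ⟨P₀, m, C, hall, hP, hC⟩ := a1
  obtain ⟨-, -, b3, ⟨σ, hσ⟩, ⟨τ, hτ⟩, ⟨bas, hbas⟩, C', hC'⟩ := id a4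
  let Θ := ext bas (thL θ) (gconst U L)
  obtain ⟨V, hV⟩ := exists_isU Θ
  have hc : ∀ c : L, Θ (fun _ => c) = gconst U L c := ext_const bas _ _
  have hr : ∀ r : I → ℚ, Θ (fun i => (r i : L)) = thL θ r := ext_rat bas _ _
  have hΘ : ∀ a : I → L, Θ (fun i => σ (a i)) = gmap U σ (Θ a) := by
    refine ext_comm bas _ _ σ (gmap U σ) (fun r => ?_) (fun c => rfl)
    rw [thL_eq, gmap_coe]
    simp
  choose B hB using fun x : I → ℤ => idx_exists hV hc hall (fun i => (x i : GaussianInt))
  have C0 : 0 ≤ C := by simpa [gs_zero_left] using hC 0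
  have C0' : 0 ≤ C' := by simpa using hC' 0
  refine ⟨C * (1 + C'), fun x w => (B x w).re, fun x => ?_, fun p hp q hq hov x => ?_⟩
  · refine ⟨fun j i => bas.repr (xc (gs hi (x i : GaussianInt) (m • P₀))) j, ?_⟩
    have e := congrArg xc (hB x)
    rw [xc_ps, xc_pt] at e
    have e2 : Θ (fun i => xc (gs hi (x i : GaussianInt) (m • P₀))) =
        ((fun w => ∑ j : Fin 4, (rep θ (fun i => bas.repr (xc (gs hi (x i : GaussianInt)
          (m • P₀))) j) w : L) * ζ ^ (j : ℕ) : J → L) : Germ (U : Filter J) L) := by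
      show extFun bas (thL θ) (gconst U L) _ = _
      unfold extFun
      simp only [thL_eq, hbas, gconst_eq, ← Germ.coe_mul]
      rw [← Germ.coe_coeRingHom, ← map_sum]
      congr 1
    rw [e2, Germ.coe_eq] at e
    filter_upwards [e] with w hw
    have h1 := hC (B x w)
    have h2 := hC' (fun j => rep θ (fun i => bas.repr (xc (gs hi (x i : GaussianInt)
          (m • P₀))) j) w)
    rw [hw] at h2
    have h3 : (((B x w).re : ℝ)) ^ 2 ≤ ((B x w).norm : ℝ) := by
      rw [Zsqrtd.norm_def]; push_cast; nlinarith [sq_nonneg ((B x w).im : ℝ)]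
    set S := ∑ j, Height.logHeight₁ (rep θ (fun i => bas.repr (xc (gs hi (x i : GaussianInt)
          (m • P₀))) j) w)
    have hS : 0 ≤ S := Finset.sum_nonneg fun j _ => Height.zero_le_logHeight₁ _
    calc _ ≤ C * (1 + C' * (1 + S)) := h3.trans (h1.trans (by gcongr))
      _ ≤ _ := by rw [mul_assoc]; gcongr; nlinarith
  · have main : ∀ O : J → ValuationSubring L, (∀ w, (p w : L) ∈ (O w).nonunits) →
        ∀ᶠ w in U, gv (ζ ^ 2) (B x w) - (rep θ (fun i => x i) w : L) ∈ (O w).nonunits := by
      intro O hO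
      let g : (I → ℤ) →+* Germ (U : Filter J) L := (thL θ).comp (intSeq I)
      have hg : ∀ t : I → ℤ, Θ (fun i => (t i : L)) = g t := fun t => by
        have := hr (fun i => (t i : ℚ))
        simp only [Rat.cast_intCast] at this
        exact this
      have h0 : ∀ t : I → ℤ, Θ (fun i => (t i : L)) ∈ coarse g (gval U O) := fun t => by
        rw [hg]; exact map_mem_coarse _ _ _
      have hz : gconst U L ζ ∈ coarse g (gval U O) :=
        le_coarse _ _ ((mem_gval U O _).2 (Eventually.of_forall fun w => ζ_mem _))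
      have hn : Θ (fun i => (q i : L)) ∈ (coarse g (gval U O)).nonunits := by
        apply mem_nonunits_coarse
        intro t
        have h1 := (over_iff θ (fun w => (hp w).1) hO _).1 hov t
        have h2 := hg (fun i => (q i : ℤ))
        simp only [Int.cast_natCast] at h2
        rw [h2, ← map_mul]
        convert h1 using 1
        show thL θ _ = thL θ _
        congr 1
        funext i
        simp [intSeq]
      have h := coarse_nonunits_le _ _
        (lemA hV hc h0 hz a2 a3 a4 σ hσ hΘ hall hP (le_coarse _ _) hq hn (hB x))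
      simp only [gv_int] at h
      have h2 := hr (fun i => (x i : ℚ))
      simp only [Rat.cast_intCast] at h2
      rw [h2, thL_eq, ← Germ.coe_sub, mem_nonunits_gval] at h
      exact h
    choose O hO using fun w => b3 (p w) (hp w).1
    have m1 := main O hO
    have m2 := main (fun w => (O w).comap τ) (fun w => by rw [nu_comap, map_natCast]; exact hO w)
    filter_upwards [m1, m2] with w e1 e2
    rw [nu_comap] at e2
    rw [← rat_nu_iff (hp w).1 (hO w)]
    have two : (2 : L) ∉ (O w).nonunits := by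
      have := (int_nu_iff (hp w).1 (hO w) 2).not.2 (fun h => (hp w).2
        ((Nat.prime_dvd_prime_iff_eq (hp w).1 Nat.prime_two).1 (by exact_mod_cast h)))
      simpa using this
    refine (nu_prime (x := 2) ?_).resolve_left two
    convert nu_add e1 e2 using 1
    simp only [gv, map_sub, map_add, map_mul, map_pow, map_intCast, map_ratCast, hτ]
    push_cast
    linear_combination (-((B x w).im : L) * ζ ^ 2) * ζ_four

end

end Vale.Agent.P027Z
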