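import Vale.Agent.P027Z.Hts
import Vale.Agent.P027Z.Crit

/-! The images of integer sequences are integers. -/

set_option linter.all false

namespace Vale.Agent.P027Z

open Filter Height

lemma pell_exists (u : ℕ) : ∃ X Y : ℕ, ∃ t : ℤ,
    (X : ℤ) * X + Y * Y = 1 + (u + 3) * (u + 3) * Y * Y ∧ (Y : ℤ) = u + 1 + (u + 2) * t := by
  have a1 : 1 < u + 3 := by omega
  have h1 := Pell.pell_eqz a1 (u + 1)
  obtain ⟨t, ht⟩ := (Pell.yn_modEq_a_sub_one a1 (u + 1)).symm.dvd
  refine ⟨Pell.xn a1 (u + 1), Pell.yn a1 (u + 1), t, ?_, ?_⟩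
  · rw [Pell.dz_val] at h1
    simp only [Pell.xz, Pell.yz, Pell.az] at h1
    push_cast at h1
    linear_combination h1
  · have : ((u + 3 - 1 : ℕ) : ℤ) = u + 2 := by omega
    rw [this] at ht
    push_cast at ht
    linear_combination ht

lemma pell_large {u X Y t : ℤ} (hu : 0 ≤ u) (hX : 0 ≤ X) (hY : 0 ≤ Y)
    (h1 : X * X + Y * Y = 1 + (u + 3) * (u + 3) * Y * Y) (h2 : Y = u + 1 + (u + 2) * t) :
    Real.exp u ≤ X := by
  lift u to ℕ using hu
  lift X to ℕ using hX
  lift Y to ℕ using hY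
  have a1 : 1 < u + 3 := by omega
  obtain ⟨k, e1, e2⟩ := Pell.eq_pell a1 (x := X) (y := Y) (by
    show X * X - ((u + 3) * (u + 3) - 1) * Y * Y = 1
    have h3 : X * X + Y * Y = 1 + (u + 3) * (u + 3) * Y * Y := by exact_mod_cast h1
    obtain ⟨D, hD⟩ : ∃ D, (u + 3) * (u + 3) = D + 1 := ⟨(u + 3) * (u + 3) - 1, by
      have : 0 < (u + 3) * (u + 3) := by positivity
      omega⟩
    rw [hD] at h3 ⊢
    have : X * X = 1 + D * Y * Y := by nlinarith
    rw [this]; simp)
  have h4 := (Pell.yn_modEq_a_sub_one a1 k).dvd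
  rw [← e2] at h4
  have h5 : ((u + 3 - 1 : ℕ) : ℤ) = u + 2 := by omega
  rw [h5] at h4
  have h6 : (u + 2 : ℤ) ∣ k + 1 := by
    have : (k + 1 : ℤ) = (k - Y) + (u + 2) * (t + 1) := by rw [h2]; ring
    rw [this]; exact dvd_add h4 (dvd_mul_right _ _)
  have h7 : (u + 2 : ℤ) ≤ k + 1 := Int.le_of_dvd (by positivity) h6
  have h8 : 3 ^ u ≤ X := by
    rw [e1]
    exact le_trans ((Nat.pow_le_pow_left (by omega) _).trans
      (Nat.pow_le_pow_right (by omega) (by omega))) (Pell.xn_ge_a_pow a1 k)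
  have h9 : Real.exp ((u : ℤ) : ℝ) ≤ 3 ^ u := by
    rw [Int.cast_natCast, ← Real.exp_one_pow]
    exact pow_le_pow_left₀ (by positivity) (Real.exp_one_lt_three.le) _
  exact h9.trans (by exact_mod_cast h8)

section
variable {I J : Type} {U : Ultrafilter J} {θ : (I → ℚ) →+* Germ (U : Filter J) ℚ}
  (ps : ParStar) {j : ℕ} (hc : ∀ c : ℝ, Dom θ (2 ^ j) (fun _ => c)) {m : (I → ℤ) → J → ℤ}
  (dm : ∀ x, Dom θ (2 ^ j) (fun w => (m x w : ℝ)))
  (cg : ∀ (x : I → ℤ) (q : I → ℕ), GS 0 q → ∀ᶠ w in U, ∀ p ∈ Vs (2 ^ j) (hat θ q w),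
    Dv p ((m x w : ℚ) - rep θ (fun i => x i) w))
include ps hc dm cg

lemma m_add (x y : I → ℤ) : ∀ᶠ w in U, m (x + y) w = m x w + m y w := by
  have := Dom.eq_zero ps hc (z := fun w => m (x + y) w - (m x w + m y w))
    (by simpa using (dm (x + y)).sub ps hc ((dm x).add ps hc (dm y))) fun q hq => by
      filter_upwards [cg (x + y) q hq, cg x q hq, cg y q hq,
        rep_add θ (fun i => (x i : ℚ)) (fun i => (y i : ℚ))] with w a b c d p hp
      have pp := (mem_Vs.1 hp).1
      have := (a p hp).sub pp ((b p hp).add pp (c p hp))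
      simp only [Pi.add_apply, Int.cast_add] at this
      rw [d] at this
      rw [← dv_int]
      convert this using 1
      push_cast; ring
  exact this.mono fun w h => sub_eq_zero.1 h

lemma m_mul (x y : I → ℤ) : ∀ᶠ w in U, m (x * y) w = m x w * m y w := by
  have := Dom.eq_zero ps hc (z := fun w => m (x * y) w - (m x w * m y w))
    (by simpa using (dm (x * y)).sub ps hc ((dm x).mul ps (dm y))) fun q hq => by
      filter_upwards [cg (x * y) q hq, cg x q hq, cg y q hq,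
        rep_mul θ (fun i => (x i : ℚ)) (fun i => (y i : ℚ))] with w a b c d p hp
      have pp := (mem_Vs.1 hp).1
      have := ((a p hp).add pp ((b p hp).mul pp (c p hp))).sub pp
        (((b p hp).mul_int pp (m y w)).add pp ((c p hp).mul_int pp (m x w)))
      simp only [Pi.mul_apply, Int.cast_mul] at this
      rw [d] at this
      rw [← dv_int]
      convert this using 1
      push_cast; ring
  exact this.mono fun w h => sub_eq_zero.1 h

lemma m_one : ∀ᶠ w in U, m 1 w = 1 := by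
  have := Dom.eq_zero ps hc (z := fun w => m 1 w - 1)
    (by simpa using (dm 1).sub ps hc (hc 1)) fun q hq => by
      filter_upwards [cg 1 q hq, rep_const θ 1] with w a d p hp
      have := a p hp
      simp only [Pi.one_apply, Int.cast_one] at this
      rw [d] at this
      rw [← dv_int]
      convert this using 1
      push_cast; ring
  exact this.mono fun w h => sub_eq_zero.1 h

lemma exists_mu : ∃ μ : (I → ℤ) →+* Germ (U : Filter J) ℤ, ∀ x, μ x = (m x : J → ℤ) :=
  ⟨RingHom.mk' ⟨⟨fun x => (m x : J → ℤ), Germ.coe_eq.2 (m_one ps hc dm cg)⟩,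
    fun x y => Germ.coe_eq.2 (m_mul ps hc dm cg x y)⟩
    fun x y => Germ.coe_eq.2 (m_add ps hc dm cg x y), fun x => rfl⟩

lemma m_nonneg (x : I → ℕ) : ∀ᶠ w in U, 0 ≤ m (fun i => x i) w := by
  obtain ⟨μ, hμ⟩ := exists_mu ps hc dm cg
  choose a b c d h using fun i => Nat.sum_four_squares (x i)
  have e : (fun i => (x i : ℤ)) = (fun i => (a i : ℤ)) ^ 2 + (fun i => (b i : ℤ)) ^ 2 +
      (fun i => (c i : ℤ)) ^ 2 + (fun i => (d i : ℤ)) ^ 2 := by
    funext i; simp only [Pi.add_apply, Pi.pow_apply]; exact_mod_cast (h i).symm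
  have := congrArg μ e
  simp only [map_add, map_pow] at this
  simp only [hμ, ← Germ.coe_pow, ← Germ.coe_add] at this
  filter_upwards [Germ.coe_eq.1 this] with w hw
  rw [hw]
  simp only [Pi.add_apply, Pi.pow_apply]
  positivity

lemma m_bound {f : J → ℝ} (hf : Dom θ (2 ^ j) f) :
    ∃ Q : I → ℕ, ∀ᶠ w in U, |f w| ≤ m (fun i => Q i) w := by
  classical
  obtain ⟨μ, hμ⟩ := exists_mu ps hc dm cg
  obtain ⟨F, h1, h2⟩ := hf 0
  let Q : I → ℕ := fun i => ∏ q ∈ F, q i
  refine ⟨Q, ?_⟩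
  have e : (fun i => (Q i : ℤ)) = (fun i => ((Q i - 1 : ℕ) : ℤ)) + 1 := by
    funext i
    have : 0 < Q i := Finset.prod_pos fun q hq => (h1 q hq i).1.pos
    simp only [Pi.add_apply, Pi.one_apply]; omega
  have e1 := congrArg μ e
  simp only [map_add, map_one] at e1
  simp only [hμ, ← Germ.coe_one, ← Germ.coe_add] at e1
  have dv : ∀ᶠ w in U, ∀ q ∈ F, ∀ p ∈ Vs (2 ^ j) (hat θ q w),
      (p : ℤ) ∣ m (fun i => Q i) w := by
    rw [eventually_all_finset]
    intro q hq
    have a := vis_over θ ps j (fun i => q i) (fun i => ((∏ r ∈ F.erase q, r i : ℕ) : ℤ))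
    have e2 : (fun i => (((q i : ℤ) : ℚ)) * (((∏ r ∈ F.erase q, r i : ℕ) : ℤ) : ℚ)) =
        fun i => ((Q i : ℤ) : ℚ) := by
      funext i
      have := Finset.mul_prod_erase F (fun r : I → ℕ => r i) hq
      exact_mod_cast this
    rw [e2] at a
    filter_upwards [a, cg (fun i => Q i) q (h1 q hq)] with w b c p hp
    have := (c p hp).add (mem_Vs.1 hp).1 (b p hp)
    rwa [sub_add_cancel, dv_int] at this
  filter_upwards [h2, dv, Germ.coe_eq.1 e1, m_nonneg ps hc dm cg (fun i => Q i - 1)]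
    with w a b c d
  simp only [Pi.add_apply, Pi.one_apply] at c
  have := Int.le_of_dvd (by omega) (Mo_dvd θ b)
  exact a.trans (by exact_mod_cast this)

lemma m_exp (u : I → ℕ) : ∃ X : I → ℕ, ∀ᶠ w in U,
    Real.exp (m (fun i => u i) w) ≤ m (fun i => X i) w := by
  obtain ⟨μ, hμ⟩ := exists_mu ps hc dm cg
  choose X Y t h1 h2 using fun i => pell_exists (u i)
  refine ⟨X, ?_⟩
  have e1 : (fun i => (X i : ℤ)) * (fun i => (X i : ℤ)) + (fun i => (Y i : ℤ)) * (fun i => (Y i : ℤ))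
      = 1 + ((fun i => (u i : ℤ)) + 1 + 1 + 1) * ((fun i => (u i : ℤ)) + 1 + 1 + 1) *
        (fun i => (Y i : ℤ)) * (fun i => (Y i : ℤ)) := by
    funext i; simp only [Pi.add_apply, Pi.mul_apply, Pi.one_apply]; linear_combination h1 i
  have e2 : (fun i => (Y i : ℤ)) = (fun i => (u i : ℤ)) + 1 + ((fun i => (u i : ℤ)) + 1 + 1) * t := by
    funext i; simp only [Pi.add_apply, Pi.mul_apply, Pi.one_apply]; linear_combination h2 i
  have f1 := congrArg μ e1
  have f2 := congrArg μ e2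
  simp only [map_add, map_mul, map_one] at f1 f2
  simp only [hμ, ← Germ.coe_one, ← Germ.coe_add, ← Germ.coe_mul] at f1 f2
  filter_upwards [Germ.coe_eq.1 f1, Germ.coe_eq.1 f2, m_nonneg ps hc dm cg u,
    m_nonneg ps hc dm cg X, m_nonneg ps hc dm cg Y] with w a b c d e
  simp only [Pi.add_apply, Pi.mul_apply, Pi.one_apply] at a b
  exact pell_large (t := m t w) c d e (by linear_combination a) (by linear_combination b)

lemma rep_eq (ht : ∀ ξ : I → ℚ, Dom θ (2 ^ j) (fun w => logHeight₁ (rep θ ξ w))) (x : I → ℤ) :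
    ∀ᶠ w in U, rep θ (fun i => x i) w = m x w := by
  obtain ⟨u, hu⟩ := m_bound ps hc dm cg (ht fun i => x i)
  obtain ⟨X, hX⟩ := m_exp ps hc dm cg u
  have key : ∀ᶠ w in U, ((max (rep θ (fun i => x i) w).num.natAbs
      (rep θ (fun i => x i) w).den : ℕ) : ℝ) ≤ |(m (fun i => X i) w : ℝ)| := by
    filter_upwards [hu, hX] with w a b
    rw [abs_of_nonneg (zero_le_logHeight₁ _), Rat.logHeight₁_eq_log_max,
      Real.log_le_iff_le_exp (by
        exact_mod_cast lt_max_of_lt_right (rep θ (fun i => x i) w).den_pos)] at a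
    exact a.trans (b.trans (le_abs_self _))
  have d1 : Dom θ (2 ^ j) (fun w => ((rep θ (fun i => x i) w).num : ℝ)) := by
    refine (dm _).mono (key.mono fun w h => le_trans ?_ h)
    rw [← Int.cast_abs, ← Int.natCast_natAbs, Int.cast_natCast]
    exact_mod_cast le_max_left _ _
  have d2 : Dom θ (2 ^ j) (fun w => ((rep θ (fun i => x i) w).den : ℝ)) := by
    refine (dm _).mono (key.mono fun w h => le_trans ?_ h)
    rw [Nat.abs_cast]
    exact_mod_cast le_max_right _ _
  have := Dom.eq_zero ps hc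
    (z := fun w => m x w * (rep θ (fun i => x i) w).den - (rep θ (fun i => x i) w).num)
    (by simpa using ((dm x).mul ps d2).sub ps hc d1) fun q hq => by
      filter_upwards [cg x q hq] with w a p hp
      have := (a p hp).mul_int (mem_Vs.1 hp).1 (rep θ (fun i => x i) w).den
      rw [← dv_int]
      convert this using 1
      push_cast
      rw [sub_mul, Rat.mul_den_eq_num]
  filter_upwards [this] with w h
  have h1 : ((m x w * (rep θ (fun i => x i) w).den : ℤ) : ℚ) = (rep θ (fun i => x i) w).num := by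
    exact_mod_cast sub_eq_zero.1 h
  have hd : ((rep θ (fun i => x i) w).den : ℚ) ≠ 0 := by
    exact_mod_cast (rep θ (fun i => x i) w).den_nz
  push_cast at h1
  rw [← Rat.mul_den_eq_num] at h1
  exact (mul_right_cancel₀ hd h1).symm

end

theorem rep_int (a1 : A1) (a2 : A2) (a3 : A3) (a4 : A4) (ps : ParStar) (p2 : P4)
    {I J : Type} {U : Ultrafilter J} {θ : (I → ℚ) →+* Germ (U : Filter J) ℚ} {j κ : ℕ} {C : ℝ}
    (hG : Pres θ (2 ^ j) κ C) (x : I → ℤ) :
    ∀ᶠ w in U, ∃ n : ℤ, rep θ (fun i => x i) w = n := by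
  obtain ⟨C', m, h1, h2⟩ := exists_index θ a1 a2 a3 a4
  have hc := dom_const ps p2 hG
  have ht := dom_ht ps p2 hG
  refine (rep_eq ps hc (m := m) (fun x => ?_) (fun x q hq => ?_) ht x).mono fun w h => ⟨_, h⟩
  · obtain ⟨ξ, hξ⟩ := h1 x
    have d := ((hc C').mul ps ((hc 1).add ps hc ((((ht (ξ 0)).add ps hc (ht (ξ 1))).add ps hc
      (ht (ξ 2))).add ps hc (ht (ξ 3))))).add ps hc (hc 1)
    refine d.mono (hξ.mono fun w h => le_trans ?_ (le_abs_self _))
    rw [Fin.sum_univ_four] at h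
    have := sq_abs (m x w : ℝ)
    nlinarith [sq_nonneg (|(m x w : ℝ)| - 1), abs_nonneg (m x w : ℝ)]
  · exact vis θ ps j (fun i => q i) (fun w p => Dv p ((m x w : ℚ) - rep θ (fun i => x i) w))
      fun p hp ho => h2 p hp q (fun i => ⟨(hq i).1, (hq i).2.1⟩) ho x

/-- the integers are existentially definable from a predicate for the height bound -/
theorem thmB (a1 : A1) (a2 : A2) (a3 : A3) (a4 : A4) (ps : ParStar) (p2 : P4) (j κ : ℕ) (C : ℝ)
    (G : Set ℚ) (h1 : ∀ x d : ℕ, 0 < d → x.Prime → (x + d).Prime → (x + 2 * d).Prime →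
      (x + 3 * d).Prime → (d : ℚ) / x ∈ G) (h2 : ∀ s ∈ G, Good (2 ^ j) κ C s) :
    ∃ (m : ℕ) (S : Finset (Fin m)) (g : MvPolynomial (Option (Fin m)) ℤ), ∀ x : ℚ,
      (∃ n : ℤ, x = n) ↔ ∃ y : Fin m → ℚ, (∀ i ∈ S, y i ∈ G) ∧
        MvPolynomial.aeval (fun o : Option (Fin m) => o.elim x y) g = 0 := by
  obtain ⟨m, S, g, b1, b2⟩ := crit G {x | ∃ n : ℤ, x = n} (by
    intro J U θ hθ
    rw [← rep_spec, Germ.liftPred_coe]
    refine rep_int a1 a2 a3 a4 ps p2 (j := j) (κ := κ) (C := C) (fun x d h => ?_) id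
    have := hθ (fun i => (d i : ℚ) / x i) fun i =>
      h1 _ _ (h i).1 (by simpa using (h i).2 0 (by norm_num))
        (by simpa using (h i).2 1 (by norm_num)) ((h i).2 2 (by norm_num))
        ((h i).2 3 (by norm_num))
    rw [← rep_spec, Germ.liftPred_coe] at this
    exact this.mono fun w hw => h2 _ hw)
  refine ⟨m, S, g, fun x => ⟨?_, fun ⟨y, c1, c2⟩ => b2 x y c1 c2⟩⟩
  rintro ⟨n, rfl⟩
  exact b1 n

end Vale.Agent.P027Z
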