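import Vale.Agent.P027Z.Iface

/-! Parity of negative values, from the two-prime theorem and the six primes. -/

set_option linter.all false

namespace Vale.Agent.P027Z

section
variable {I F : Type} [Field F] (θ : (I → ℚ) →+* F) (O : ValuationSubring F)

lemma th_inv (y : I → ℚ) : θ y⁻¹ = (θ y)⁻¹ := by
  by_cases h : θ y = 0
  · have e : y⁻¹ = y⁻¹ * y⁻¹ * y := by
      funext i
      by_cases hi : y i = 0
      · simp [hi]
      · simp only [Pi.mul_apply, Pi.inv_apply]; field_simp
    rw [e, map_mul, h]; simp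
  · have e : y * y⁻¹ * y = y := by
      funext i
      by_cases hi : y i = 0
      · simp [hi]
      · simp only [Pi.mul_apply, Pi.inv_apply]; field_simp
    have := congrArg θ e
    rw [map_mul, map_mul] at this
    field_simp
    have h2 : θ y * (θ y * θ y⁻¹) = θ y * 1 := by linear_combination this
    rw [mul_comm]
    exact mul_left_cancel₀ h h2

lemma th_ne (y : I → ℚ) (h : ∀ i, y i ≠ 0) : θ y ≠ 0 := by
  have e : y * y⁻¹ = 1 := by funext i; simp [h i]
  have := congrArg θ e
  rw [map_mul, map_one] at this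
  exact left_ne_zero_of_mul_eq_one this

/-- the value is twice the value of an element of the image -/
def Ev (x : F) : Prop := ∃ y : I → ℚ, θ y ≠ 0 ∧ O.valuation x = O.valuation (θ y) ^ 2

variable {θ O}

lemma Ev.congr {x x' : F} (h : Ev θ O x) (e : O.valuation x' = O.valuation x) : Ev θ O x' := by
  obtain ⟨y, h1, h2⟩ := h
  exact ⟨y, h1, e.trans h2⟩

lemma Ev.ne {x : F} (h : Ev θ O x) : x ≠ 0 := by
  obtain ⟨y, h1, h2⟩ := h
  intro hx
  rw [hx, map_zero] at h2
  exact pow_ne_zero 2 ((Valuation.ne_zero_iff _).2 h1) h2.symm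

lemma Ev.mul {x x' : F} (h : Ev θ O x) (h' : Ev θ O x') : Ev θ O (x * x') := by
  obtain ⟨y, h1, h2⟩ := h
  obtain ⟨y', h1', h2'⟩ := h'
  exact ⟨y * y', by rw [map_mul]; exact mul_ne_zero h1 h1', by
    rw [map_mul, map_mul, map_mul, h2, h2', mul_pow]⟩

lemma Ev.inv {x : F} (h : Ev θ O x) : Ev θ O x⁻¹ := by
  obtain ⟨y, h1, h2⟩ := h
  exact ⟨y⁻¹, by rw [th_inv]; exact inv_ne_zero h1, by
    rw [th_inv, map_inv₀, map_inv₀, h2, inv_pow]⟩

lemma Ev.of_mul {x u : F} (h : Ev θ O (x * u)) (hu : Ev θ O u) : Ev θ O x := by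
  have := h.mul hu.inv
  rwa [mul_assoc, mul_inv_cancel₀ hu.ne, mul_one] at this

lemma ev_sq (y : I → ℚ) (h : θ y ≠ 0) : Ev θ O (θ y ^ 2) := ⟨y, h, by rw [map_pow]⟩

lemma ev_one : Ev θ O 1 := ⟨1, by simp, by simp⟩

lemma val_two (h2 : (2 : F) ∉ O.nonunits) : O.valuation 2 = 1 := by
  rw [ValuationSubring.mem_nonunits_iff, not_lt] at h2
  refine le_antisymm ((O.valuation_le_one_iff _).2 ?_) h2
  exact_mod_cast natCast_mem O 2

/-- the certificate of the two-prime theorem -/
lemma ev_or (h2 : (2 : F) ∉ O.nonunits) {s t : F} (u v w z : I → ℚ) (hw : θ w ≠ 0) (hz : θ z ≠ 0)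
    (ht : t ≠ 0) (e1 : θ u ^ 2 + θ v ^ 2 = t * θ w ^ 2) (e2 : θ u ^ 2 - θ v ^ 2 = s * θ z ^ 2) :
    Ev θ O s ∨ Ev θ O t := by
  have v2 := val_two h2
  have main : ∀ c : I → ℚ, θ c ≠ 0 → O.valuation (θ u) ≤ O.valuation (θ c) →
      O.valuation (θ v) ≤ O.valuation (θ c) →
      (2 * θ c ^ 2 = t * θ w ^ 2 + s * θ z ^ 2 ∨ 2 * θ c ^ 2 = t * θ w ^ 2 - s * θ z ^ 2) →
      Ev θ O s ∨ Ev θ O t := by
    intro c hc hu hv h
    have a1 : O.valuation (θ u ^ 2) ≤ O.valuation (θ c ^ 2) := by
      rw [map_pow, map_pow]; exact pow_le_pow_left' hu 2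
    have a2 : O.valuation (θ v ^ 2) ≤ O.valuation (θ c ^ 2) := by
      rw [map_pow, map_pow]; exact pow_le_pow_left' hv 2
    have b1 : O.valuation (t * θ w ^ 2) ≤ O.valuation (θ c ^ 2) := by
      rw [← e1]; exact Valuation.map_add_le _ a1 a2
    have b2 : O.valuation (s * θ z ^ 2) ≤ O.valuation (θ c ^ 2) := by
      rw [← e2]; exact Valuation.map_sub_le _ a1 a2
    rcases b1.eq_or_lt with b1 | b1
    · exact Or.inr (((ev_sq c hc).congr b1).of_mul (ev_sq w hw))
    rcases b2.eq_or_lt with b2 | b2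
    · exact Or.inl (((ev_sq c hc).congr b2).of_mul (ev_sq z hz))
    exfalso
    have : O.valuation (2 * θ c ^ 2) < O.valuation (θ c ^ 2) := by
      rcases h with h | h
      · rw [h]; exact Valuation.map_add_lt _ b1 b2
      · rw [h]; exact Valuation.map_sub_lt _ b1 b2
    rw [map_mul, v2, one_mul] at this
    exact lt_irrefl _ this
  have hne : ¬ (θ u = 0 ∧ θ v = 0) := by
    rintro ⟨a, b⟩
    rw [a, b] at e1
    exact mul_ne_zero ht (pow_ne_zero 2 hw) (by rw [← e1]; ring)
  rcases le_total (O.valuation (θ v)) (O.valuation (θ u)) with h | h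
  · refine main u (fun a => hne ⟨a, ?_⟩) le_rfl h (Or.inl (by linear_combination e1 + e2))
    rw [a, map_zero, le_zero_iff] at h
    exact (Valuation.zero_iff _).1 h
  · refine main v (fun a => hne ⟨?_, a⟩) h le_rfl (Or.inr (by linear_combination e1 - e2))
    rw [a, map_zero, le_zero_iff] at h
    exact (Valuation.zero_iff _).1 h

/-- one edge of the triangle -/
lemma edge {a x y : F} (ha : 1 < O.valuation a) (hna : ¬ Ev θ O a) (hx : Ev θ O x)
    (hy : Ev θ O y) (hs : Ev θ O (a * x + (a + 1) * y)) :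
    O.valuation x = O.valuation y ∧ O.valuation (x + y) < O.valuation x := by
  have ha0 : O.valuation a ≠ 0 := (zero_lt_one.trans ha).ne'
  have ha1 : O.valuation (a + 1) = O.valuation a :=
    Valuation.map_add_eq_of_lt_left _ (by rw [map_one]; exact ha)
  have n1 : ¬ Ev θ O (a * x) := fun h => hna (h.of_mul hx)
  have n2 : ¬ Ev θ O ((a + 1) * y) := fun h => hna ((h.of_mul hy).congr ha1.symm)
  have e : O.valuation (a * x) = O.valuation ((a + 1) * y) := by
    by_contra hne
    rcases lt_or_gt_of_ne hne with h | h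
    · exact n2 (hs.congr (Valuation.map_add_eq_of_lt_right _ h).symm)
    · exact n1 (hs.congr (Valuation.map_add_eq_of_lt_left _ h).symm)
  have e' : O.valuation x = O.valuation y := by
    rw [map_mul, map_mul, ha1] at e
    exact mul_left_cancel₀ ha0 e
  refine ⟨e', ?_⟩
  have le : O.valuation (a * x + (a + 1) * y) ≤ O.valuation (a * x) :=
    Valuation.map_add_le _ le_rfl e.ge
  have lt : O.valuation (a * x + (a + 1) * y) < O.valuation (a * x) :=
    lt_of_le_of_ne le (fun h => n1 (hs.congr h.symm))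
  have hy0 : O.valuation y ≠ 0 := (Valuation.ne_zero_iff _).2 hy.ne
  have lt2 : O.valuation y < O.valuation (a * x) := by
    rw [map_mul, e']
    exact lt_mul_of_one_lt_left (zero_lt_iff.2 hy0) ha
  have : O.valuation (a * (x + y)) < O.valuation (a * x) := by
    rw [show a * (x + y) = (a * x + (a + 1) * y) - y by ring]
    exact Valuation.map_sub_lt _ lt lt2
  rw [map_mul, map_mul] at this
  exact lt_of_mul_lt_mul_left this zero_le'

lemma triangle (h2 : (2 : F) ∉ O.nonunits) {a : F} (u : Fin 3 → F) (ha : 1 < O.valuation a)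
    (hu : ∀ i, Ev θ O (u i)) (hs : ∀ i j, i < j → Ev θ O (a * u i + (a + 1) * u j)) :
    Ev θ O a := by
  by_contra hna
  obtain ⟨a1, b1⟩ := edge ha hna (hu 0) (hu 1) (hs 0 1 (by decide))
  obtain ⟨a2, b2⟩ := edge ha hna (hu 0) (hu 2) (hs 0 2 (by decide))
  obtain ⟨a3, b3⟩ := edge ha hna (hu 1) (hu 2) (hs 1 2 (by decide))
  rw [← a1] at b3
  have : O.valuation (2 * u 0) < O.valuation (u 0) := by
    rw [show 2 * u 0 = (u 0 + u 1) + (u 0 + u 2) - (u 1 + u 2) by ring]
    exact Valuation.map_sub_lt _ (Valuation.map_add_lt _ b1 b2) b3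
  rw [map_mul, val_two h2, one_mul] at this
  exact lt_irrefl _ this

end

/-- the six numbers of a system -/
def six (a : ℕ) (u : Fin 3 → ℕ) : Fin 3 ⊕ {p : Fin 3 × Fin 3 // p.1 < p.2} → ℕ
  | .inl i => u i
  | .inr p => a * u p.1.1 + (a + 1) * u p.1.2

lemma six_mod {a m r : ℕ} {u : Fin 3 → ℕ} (h : ∀ i, u i ≡ r [MOD m]) (k) :
    six a u k ≡ r [MOD m] ∨ six a u k ≡ (2 * a + 1) * r [MOD m] := by
  rcases k with i | p
  · exact Or.inl (h i)
  · right
    have := ((h p.1.1).mul_left a).add ((h p.1.2).mul_left (a + 1))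
    rwa [show a * r + (a + 1) * r = (2 * a + 1) * r by ring] at this

lemma not_square {s t g : ℕ} (hs : s.Prime) (ht : t.Prime) (s8 : s % 8 = 3) (t8 : t % 8 = 5)
    (g4 : g % 4 = 1) (sg : s ≡ 1 [MOD g])
    (h : (t : ℤ) ≡ -1 [ZMOD s] ∨ (t : ℤ) ≡ g * -1 [ZMOD s]) : ¬ IsSquare (s : ZMod t) := by
  haveI := Fact.mk ht
  have so : Odd s := by rw [Nat.odd_iff]; omega
  have go : Odd g := by rw [Nat.odd_iff]; omega
  have j1 : jacobiSym (-1) s = -1 := by
    rw [jacobiSym.at_neg_one so, ZMod.χ₄_nat_three_mod_four (by omega)]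
  have j2 : jacobiSym g s = 1 := by
    rw [jacobiSym.quadratic_reciprocity_one_mod_four g4 so,
      jacobiSym.mod_left' (a₂ := 1) (by exact_mod_cast (Int.natCast_modEq_iff.2 sg))]
    simp
  have j3 : jacobiSym t s = -1 := by
    rcases h with h | h
    · rw [jacobiSym.mod_left' h, j1]
    · rw [jacobiSym.mod_left' h, jacobiSym.mul_left, j1, j2]; simp
  have j4 : jacobiSym s t = -1 := by
    rw [← jacobiSym.quadratic_reciprocity_one_mod_four (by omega : t % 4 = 1) so, j3]
  have := ZMod.nonsquare_of_jacobiSym_eq_neg_one j4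
  simpa using this

/-- two systems of six primes with all cross pairs certified -/
lemma systems (c1 : C1) (p1 : P1) (a : ℕ) (ha : 0 < a) (h24 : 24 ∣ a) :
    ∃ u u' : Fin 3 → ℕ, (∀ k, six (a * (2 * a + 1) ^ 2) u k ≠ 0) ∧ (∀ k, six a u' k ≠ 0) ∧
      ∀ k l, ∃ x : Fin 4 → ℚ, x 2 ≠ 0 ∧ x 3 ≠ 0 ∧
        x 0 ^ 2 + x 1 ^ 2 = six a u' l * x 2 ^ 2 ∧
        x 0 ^ 2 - x 1 ^ 2 = six (a * (2 * a + 1) ^ 2) u k * x 3 ^ 2 := by
  set g := 2 * a + 1 with hg
  have g8 : g % 8 = 1 := by omega
  have cg : Nat.Coprime 8 g := by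
    rw [show 8 = 2 ^ 3 by norm_num]
    exact Nat.Coprime.pow_left 3 ((Nat.coprime_two_left).2 (by rw [Nat.odd_iff]; omega))
  obtain ⟨r, r1, r2⟩ := Nat.chineseRemainder cg 3 1
  have odd8 : ∀ n : ℕ, n % 2 = 1 → n.Coprime 8 := fun n hn => by
    rw [show 8 = 2 ^ 3 by norm_num]
    exact Nat.Coprime.pow_right 3 ((Nat.coprime_two_right).2 (by rw [Nat.odd_iff]; omega))
  have one_cop : ∀ n m : ℕ, n ≡ 1 [MOD m] → n.Coprime m := fun n m h => by
    rw [Nat.Coprime, h.gcd_eq]; simp
  have hA : 2 * (a * g ^ 2) + 1 ≡ 1 [MOD g] := by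
    have : 2 * (a * g ^ 2) ≡ 0 [MOD g] :=
      (Nat.modEq_zero_iff_dvd).2 (Dvd.intro_left (2 * a * g) (by ring))
    simpa using this.add_right 1
  have hA8 : (2 * (a * g ^ 2) + 1) % 8 = 1 := by
    obtain ⟨b, hb⟩ := h24
    rw [show 2 * (a * g ^ 2) + 1 = 8 * (6 * b * g ^ 2) + 1 by rw [hb]; ring]
    omega
  have r8 : r % 8 = 3 := r1
  obtain ⟨u, hu, hu'⟩ := p1 (a * g ^ 2) (8 * g) r (by positivity) (h24.mul_right _)
    (by positivity) (Nat.Coprime.mul_right (odd8 r (by omega)) (one_cop _ _ r2))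
    (Nat.Coprime.mul_right (odd8 _ (by omega)) (one_cop _ _ hA))
  have sp : ∀ k, (six (a * g ^ 2) u k).Prime := by
    rintro (i | p)
    · exact (hu i).1
    · exact hu' _ _ p.2
  have sm := six_mod (a := a * g ^ 2) (fun i => (hu i).2)
  have s8 : ∀ k, six (a * g ^ 2) u k % 8 = 3 := by
    intro k
    rcases sm k with h | h
    · have := h.of_mul_right g
      unfold Nat.ModEq at this; omega
    · have := h.of_mul_right g
      unfold Nat.ModEq at this
      rw [this, Nat.mul_mod, hA8, r8]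
  have sg : ∀ k, six (a * g ^ 2) u k ≡ 1 [MOD g] := by
    intro k
    rcases sm k with h | h
    · exact (h.of_mul_left 8).trans r2
    · simpa using (h.of_mul_left 8).trans (hA.mul r2)
  set N := ∏ k, six (a * g ^ 2) u k with hN
  have N0 : 0 < N := Finset.prod_pos fun k _ => (sp k).pos
  have cN : Nat.Coprime 8 N := Nat.Coprime.prod_right fun k _ =>
    (odd8 _ (by have := s8 k; omega)).symm
  obtain ⟨r', r1', r2'⟩ := Nat.chineseRemainder cN 5 (N - 1)
  have r8' : r' % 8 = 5 := r1'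
  have cr : r'.Coprime N := by
    rw [Nat.Coprime, r2'.gcd_eq]
    have : N = (N - 1) + 1 := by omega
    conv_lhs => rw [this]
    simp
  obtain ⟨u', hv, hv'⟩ := p1 a (8 * N) r' ha h24 (by positivity)
    (Nat.Coprime.mul_right (odd8 r' (by omega)) cr)
    (Nat.Coprime.mul_right (odd8 _ (by omega))
      (Nat.Coprime.prod_right fun k _ => (one_cop _ _ (sg k)).symm))
  have tp : ∀ k, (six a u' k).Prime := by
    rintro (i | p)
    · exact (hv i).1
    · exact hv' _ _ p.2
  have tm := six_mod (a := a) (fun i => (hv i).2)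
  refine ⟨u, u', fun k => (sp k).ne_zero, fun k => (tp k).ne_zero, fun k l => ?_⟩
  have t8 : six a u' l % 8 = 5 := by
    rcases tm l with h | h
    · have := h.of_mul_right N
      unfold Nat.ModEq at this; omega
    · have := h.of_mul_right N
      unfold Nat.ModEq at this
      rw [this, Nat.mul_mod, ← hg, g8, r8']
  have dv : six (a * g ^ 2) u k ∣ N := Finset.dvd_prod_of_mem _ (Finset.mem_univ k)
  have rr : (r' : ℤ) ≡ -1 [ZMOD (six (a * g ^ 2) u k)] := by
    have h1 : (r' : ℤ) ≡ ((N - 1 : ℕ) : ℤ) [ZMOD N] := Int.natCast_modEq_iff.2 r2'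
    have h2 : ((N - 1 : ℕ) : ℤ) ≡ -1 [ZMOD N] := by
      rw [Nat.cast_sub N0]
      simpa using (Int.modEq_zero_iff_dvd.2 (dvd_refl (N : ℤ))).sub_right 1
    exact (h1.trans h2).of_dvd (by exact_mod_cast dv)
  have hns := not_square (sp k) (tp l) (s8 k) t8 (by omega) (sg k) (by
    rcases tm l with h | h
    · left
      exact (Int.natCast_modEq_iff.2 ((h.of_mul_left 8).of_dvd dv)).trans rr
    · right
      have h1 := Int.natCast_modEq_iff.2 ((h.of_mul_left 8).of_dvd dv)
      rw [← hg, Nat.cast_mul] at h1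
      exact h1.trans (rr.mul_left _))
  obtain ⟨x0, x1, x2, x3, h⟩ := c1 _ _ (sp k) (tp l) (s8 k) t8 hns
  exact ⟨![x0, x1, x2, x3], h⟩

lemma ev_nat (c1 : C1) (p1 : P1) {I F : Type} [Field F] (θ : (I → ℚ) →+* F)
    (O : ValuationSubring F) (h2 : (2 : F) ∉ O.nonunits) (a : I → ℕ) (ha : ∀ i, 0 < a i)
    (h24 : ∀ i, 24 ∣ a i) (hv : 1 < O.valuation (θ (fun i => a i))) : Ev θ O (θ (fun i => a i)) := by
  choose u u' n1 n2 x x2 x3 e1 e2 using fun i => systems c1 p1 (a i) (ha i) (h24 i)
  set A := θ (fun i => a i) with hA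
  set g : I → ℚ := fun i => 2 * a i + 1 with hg
  have hg0 : θ g ≠ 0 := th_ne θ g fun i => by simp only [hg]; positivity
  have hgA : θ g = 2 * A + 1 := by
    rw [show g = 2 * (fun i => (a i : ℚ)) + 1 by funext i; simp [hg], map_add, map_mul, map_one,
      map_ofNat]
  have vg : O.valuation (θ g) = O.valuation A := by
    rw [hgA, Valuation.map_add_eq_of_lt_left, map_mul, val_two h2, one_mul]
    rw [map_mul, val_two h2, one_mul, map_one]; exact hv
  have cross : ∀ k l, Ev θ O (θ fun i => six (a i * (2 * a i + 1) ^ 2) (u i) k) ∨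
      Ev θ O (θ fun i => six (a i) (u' i) l) := by
    intro k l
    refine ev_or h2 (fun i => x i k l 0) (fun i => x i k l 1) (fun i => x i k l 2)
      (fun i => x i k l 3) (th_ne θ _ fun i => x2 i k l) (th_ne θ _ fun i => x3 i k l)
      (th_ne θ _ fun i => by exact_mod_cast n2 i l) ?_ ?_
    · rw [← map_pow, ← map_pow, ← map_pow, ← map_add, ← map_mul]
      congr 1; funext i; exact e1 i k l
    · rw [← map_pow, ← map_pow, ← map_pow, ← map_sub, ← map_mul]
      congr 1; funext i; exact e2 i k l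
  have tri : ∀ (b : I → ℕ) (w : I → Fin 3 → ℕ), 1 < O.valuation (θ fun i => b i) →
      (∀ k, Ev θ O (θ fun i => six (b i) (w i) k)) → Ev θ O (θ fun i => b i) := by
    intro b w hb h
    refine triangle h2 (fun j => θ fun i => w i j) hb (fun j => h (.inl j)) fun j j' hj => ?_
    have := h (.inr ⟨(j, j'), hj⟩)
    have e : (fun i => (six (b i) (w i) (.inr ⟨(j, j'), hj⟩) : ℚ)) =
        (fun i => (b i : ℚ)) * (fun i => (w i j : ℚ)) +
          ((fun i => (b i : ℚ)) + 1) * (fun i => (w i j' : ℚ)) := by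
      funext i; simp [six]
    rwa [e, map_add, map_mul, map_mul, map_add, map_one] at this
  by_cases hB : ∀ l, Ev θ O (θ fun i => six (a i) (u' i) l)
  · exact tri a u' hv hB
  · obtain ⟨l, hl⟩ := not_forall.1 hB
    have e : θ (fun i => ((a i * (2 * a i + 1) ^ 2 : ℕ) : ℚ)) = A * θ g ^ 2 := by
      rw [hA, ← map_pow, ← map_mul]
      congr 1; funext i; simp [hg]
    have := tri (fun i => a i * (2 * a i + 1) ^ 2) u (by
      rw [e, map_mul, map_pow, vg]
      exact one_lt_mul_of_lt_of_le' hv (one_le_pow_of_one_le' hv.le 2))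
      (fun k => (cross k l).resolve_right hl)
    rw [e] at this
    exact this.of_mul (ev_sq g hg0)

lemma ev_int (c1 : C1) (p1 : P1) {I F : Type} [Field F] (θ : (I → ℚ) →+* F)
    (O : ValuationSubring F) (h2 : (2 : F) ∉ O.nonunits) (t : I → ℤ)
    (hv : 1 < O.valuation (θ (fun i => t i))) : Ev θ O (θ (fun i => t i)) := by
  set T := θ (fun i => t i) with hT
  set s : I → ℕ := fun i => (t i).natAbs + 2 with hs
  set S := θ (fun i => s i) with hS
  have v2 := val_two h2
  have e1 : (S - 2) ^ 2 = T ^ 2 := by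
    rw [hS, hT, ← map_ofNat θ 2, ← map_sub, ← map_pow, ← map_pow]
    congr 1; funext i
    simp [hs]
  have e2 : O.valuation (S - 2) = O.valuation T := by
    rcases sq_eq_sq_iff_eq_or_eq_neg.1 e1 with h | h
    · rw [h]
    · rw [h, Valuation.map_neg]
  have vS : O.valuation S = O.valuation T := by
    rw [← e2, show S = (S - 2) + 2 by ring, Valuation.map_add_eq_of_lt_left _ (by
      rw [v2, e2]; exact hv)]
    simp
  have S0 : S ≠ 0 := by
    intro h
    rw [h, map_zero] at vS
    rw [← vS] at hv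
    exact not_lt_zero' hv
  have e3 : θ (fun i => ((4 * ((s i - 1) * s i * (s i + 1)) : ℕ) : ℚ)) =
      2 ^ 2 * ((S - 1) * S * (S + 1)) := by
    rw [hS, ← map_ofNat θ 2, ← map_one θ, ← map_sub, ← map_add, ← map_pow, ← map_mul, ← map_mul,
      ← map_mul]
    congr 1; funext i
    have : 1 ≤ s i := by simp [hs]
    simp [Nat.cast_sub this]
    norm_num
  have v3 : O.valuation (2 ^ 2 * ((S - 1) * S * (S + 1))) = O.valuation (T * S ^ 2) := by
    rw [map_mul, map_mul, map_mul, map_pow, v2, map_mul, map_pow,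
      Valuation.map_sub_eq_of_lt_left _ (by rw [map_one, vS]; exact hv),
      Valuation.map_add_eq_of_lt_left _ (by rw [map_one, vS]; exact hv), vS, one_pow, one_mul,
      pow_two, mul_assoc]
  have := ev_nat c1 p1 θ O h2 (fun i => 4 * ((s i - 1) * s i * (s i + 1))) (fun i => by
      have : 2 ≤ s i := by simp [hs]
      have : 0 < s i - 1 := by omega
      positivity) (fun i => by
      have h1 : 1 ≤ s i := by simp [hs]
      obtain ⟨n, hn⟩ : ∃ n, s i = n + 1 := ⟨s i - 1, by omega⟩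
      rw [hn, Nat.add_sub_cancel, show 24 = 4 * 6 by norm_num]
      refine Nat.mul_dvd_mul_left 4 ?_
      have := Nat.factorial_dvd_ascFactorial n 3
      rw [show n * (n + 1) * (n + 1 + 1) = n.ascFactorial 3 by
        simp [Nat.ascFactorial]; ring]
      exact this)
    (by
      rw [e3, v3, map_mul, map_pow, vS]
      exact one_lt_mul_of_lt_of_le' hv (one_le_pow_of_one_le' hv.le 2))
  rw [e3] at this
  exact (this.congr v3.symm).of_mul (ev_sq _ S0)

lemma unit_of_val {F : Type} [Field F] (O : ValuationSubring F) {x y : F} (hy : y ≠ 0)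
    (h : O.valuation x = O.valuation y) : x / y ∈ O ∧ y / x ∈ O := by
  have h0 : O.valuation y ≠ 0 := (Valuation.ne_zero_iff _).2 hy
  constructor <;> rw [← O.valuation_le_one_iff, map_div₀, h, div_self h0]

theorem par (c1 : C1) (p1 : P1) : Par := by
  intro I F _ θ O h2 t ht
  rw [← O.valuation_le_one_iff, not_le] at ht
  obtain ⟨y, h1, h3⟩ := ev_int c1 p1 θ O h2 t ht
  exact ⟨y, h1, unit_of_val O (pow_ne_zero 2 h1) (by rw [h3, map_pow])⟩

/-- within the convex hull of the values of integer sequences -/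
def Small {I F : Type} [Field F] (θ : (I → ℚ) →+* F) (O : ValuationSubring F) (x : F) : Prop :=
  x ≠ 0 ∧ ∃ r : I → ℤ, O.valuation x ≤ O.valuation (θ fun i => r i) ∧
    1 ≤ O.valuation x * O.valuation (θ fun i => r i)

lemma ev_of_one_le (c1 : C1) (p1 : P1) {I F : Type} [Field F] (θ : (I → ℚ) →+* F)
    (O : ValuationSubring F) (h2 : (2 : F) ∉ O.nonunits) (n r : I → ℤ)
    (h : 1 ≤ O.valuation (θ fun i => n i) * O.valuation (θ fun i => r i)) :
    Ev θ O (θ (fun i => n i)) := by
  rcases le_or_gt (O.valuation (θ fun i => r i)) 1 with hr | hr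
  · have : 1 ≤ O.valuation (θ fun i => n i) := h.trans (mul_le_of_le_one_right' hr)
    rcases this.eq_or_lt with e | e
    · exact ev_one.congr (by rw [map_one, e])
    · exact ev_int c1 p1 θ O h2 n e
  · have e : θ (fun i => ((n i * r i ^ 2 : ℤ) : ℚ)) = θ (fun i => n i) * θ (fun i => r i) ^ 2 := by
      rw [← map_pow, ← map_mul]
      congr 1; funext i; simp
    have r0 : θ (fun i => r i) ≠ 0 := by
      intro h0
      rw [h0, map_zero] at hr
      exact not_lt_zero' hr
    have := ev_int c1 p1 θ O h2 (fun i => n i * r i ^ 2) (by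
      rw [e, map_mul, map_pow, pow_two, ← mul_assoc]
      exact hr.trans_le (le_mul_of_one_le_left' h))
    rw [e] at this
    exact this.of_mul (ev_sq _ r0)

lemma small_root (c1 : C1) (p1 : P1) {I F : Type} [Field F] (θ : (I → ℚ) →+* F)
    (O : ValuationSubring F) (h2 : (2 : F) ∉ O.nonunits) (x : I → ℚ) (hx : Small θ O (θ x)) :
    ∃ y : I → ℚ, Small θ O (θ y) ∧ O.valuation (θ x) = O.valuation (θ y) ^ 2 := by
  obtain ⟨x0, r, hr1, hr2⟩ := hx
  set n : I → ℤ := fun i => (x i).num with hn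
  set d : I → ℤ := fun i => (x i).den with hd
  have d0 : θ (fun i => d i) ≠ 0 := th_ne θ _ fun i => by simp [hd]
  have e : θ x * θ (fun i => d i) = θ (fun i => n i) := by
    rw [← map_mul]; congr 1; funext i; simp [hn, hd]
  have ve : O.valuation (θ x) * O.valuation (θ fun i => d i) = O.valuation (θ fun i => n i) := by
    rw [← map_mul, e]
  have cop : ∀ i, ∃ a b : ℤ, a * n i + b * d i = 1 := fun i =>
    (Int.isCoprime_iff_gcd_eq_one.2 (by simpa [hn, hd, Int.gcd] using (x i).reduced))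
  choose a b hab using cop
  have e1 : θ (fun i => n i) * θ (fun i => a i) + θ (fun i => d i) * θ (fun i => b i) = 1 := by
    rw [← map_mul, ← map_mul, ← map_add, ← map_one θ]
    congr 1; funext i
    have := congrArg (Int.cast : ℤ → ℚ) (hab i)
    push_cast at this
    simp only [Pi.add_apply, Pi.mul_apply, Pi.one_apply]
    linarith
  have pr : ∀ c : I → ℤ, θ (fun i => ((c i * r i : ℤ) : ℚ)) = θ (fun i => c i) * θ (fun i => r i) := by
    intro c
    rw [← map_mul]; congr 1; funext i; simp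
  have vx : O.valuation (θ x) ≠ 0 := (Valuation.ne_zero_iff _).2 x0
  have both : Ev θ O (θ fun i => n i) ∧ Ev θ O (θ fun i => d i) := by
    rcases le_or_gt 1 (O.valuation (θ (fun i => n i) * θ (fun i => a i))) with h | h
    · rw [map_mul] at h
      refine ⟨ev_of_one_le c1 p1 θ O h2 n a h, ev_of_one_le c1 p1 θ O h2 d (fun i => a i * r i) ?_⟩
      rw [pr, map_mul]
      refine h.trans ?_
      rw [← ve, mul_comm (O.valuation (θ x)), mul_assoc, mul_comm (O.valuation (θ x))]
      gcongr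
    · have h' : 1 ≤ O.valuation (θ (fun i => d i) * θ (fun i => b i)) := by
        by_contra h'
        have := Valuation.map_add_lt _ h (not_le.1 h')
        rw [e1, map_one] at this
        exact lt_irrefl _ this
      rw [map_mul] at h'
      refine ⟨ev_of_one_le c1 p1 θ O h2 n (fun i => b i * r i) ?_, ev_of_one_le c1 p1 θ O h2 d b h'⟩
      rw [pr, map_mul, ← ve]
      calc 1 ≤ (O.valuation (θ x) * O.valuation (θ fun i => r i)) *
          (O.valuation (θ fun i => d i) * O.valuation (θ fun i => b i)) := one_le_mul hr2 h'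
        _ = _ := by ac_rfl
  have hx : Ev θ O (θ x) := (e ▸ both.1 : Ev θ O (θ x * θ (fun i => d i))).of_mul both.2
  obtain ⟨y, y0, hy⟩ := hx
  refine ⟨y, ⟨y0, r, ?_, ?_⟩, hy⟩
  · have r1 : 1 ≤ O.valuation (θ fun i => r i) := by
      by_contra h
      have h := not_le.1 h
      exact absurd hr2 (not_le.2 ((mul_le_of_le_one_left' (hr1.trans h.le)).trans_lt h))
    rcases le_total (O.valuation (θ y)) 1 with h | h
    · exact h.trans r1
    · refine le_trans ?_ hr1
      rw [hy, pow_two]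
      exact le_mul_of_one_le_left' h
  · have r1 : 1 ≤ O.valuation (θ fun i => r i) := by
      by_contra h
      have h := not_le.1 h
      exact absurd hr2 (not_le.2 ((mul_le_of_le_one_left' (hr1.trans h.le)).trans_lt h))
    rcases le_total (O.valuation (θ y)) 1 with h | h
    · refine hr2.trans ?_
      gcongr
      rw [hy, pow_two]
      exact mul_le_of_le_one_left' h
    · exact one_le_mul h r1

theorem parStar (c1 : C1) (p1 : P1) : ParStar := by
  intro I F _ θ O h2 q t hqt j
  rw [ValuationSubring.mem_nonunits_iff, not_lt] at hqt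
  have e : θ (fun i => (q i : ℚ) * t i) = θ (fun i => q i) * θ (fun i => t i) := by
    rw [← map_mul]; rfl
  rw [e, map_mul] at hqt
  have hq : Small θ O (θ fun i => q i) := by
    refine ⟨fun h => ?_, ?_⟩
    · rw [h, map_zero, zero_mul] at hqt
      exact absurd hqt (by simp)
    rcases le_or_gt 1 (O.valuation (θ fun i => q i)) with h | h
    · exact ⟨q, le_rfl, one_le_mul h h⟩
    · refine ⟨t, ?_, hqt⟩
      by_contra h'
      have h' := (not_le.1 h').trans h
      exact absurd hqt (not_le.2 (mul_lt_one_of_lt_of_le h h'.le))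
  have main : ∀ j : ℕ, ∃ y : I → ℚ, Small θ O (θ y) ∧
      O.valuation (θ fun i => q i) = O.valuation (θ y) ^ 2 ^ j := by
    intro j
    induction j with
    | zero => exact ⟨_, hq, by simp⟩
    | succ j ih =>
      obtain ⟨y, hy, e⟩ := ih
      obtain ⟨y', hy', e'⟩ := small_root c1 p1 θ O h2 y hy
      exact ⟨y', hy', by rw [e, e', ← pow_mul, pow_succ']⟩
  obtain ⟨y, hy, e⟩ := main j
  exact ⟨y, hy.1, unit_of_val O (pow_ne_zero _ hy.1) (by rw [e, map_pow])⟩

end Vale.Agent.P027Z
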