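import Vale.Agent.P027Z.Basic

/-! Ring homomorphisms from products of fields to fields, and sequences of points. -/

set_option linter.all false

namespace Vale.Agent.P027Z

open WeierstrassCurve WeierstrassCurve.Affine Filter

section
variable {I k F : Type*} [Field k] [Field F]

/-- the kernel of `f` consists of the sequences that vanish along `U` -/
def IsU (U : Ultrafilter I) (f : (I → k) →+* F) : Prop := ∀ a, f a = 0 ↔ ∀ᶠ i in U, a i = 0

theorem exists_isU (f : (I → k) →+* F) : ∃ U : Ultrafilter I, IsU U f := by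
  classical
  let e : Set I → (I → k) := fun S => Set.indicator S 1
  have he : ∀ S, f (e S) = 0 ∨ f (e S) = 1 := by
    intro S
    have h1 : e S * e S = e S := by
      funext i; by_cases h : i ∈ S <;> simp [e, h]
    have h2 : f (e S) * (f (e S) - 1) = 0 := by rw [mul_sub, ← map_mul, h1]; ring
    rcases mul_eq_zero.1 h2 with h | h
    · exact Or.inl h
    · exact Or.inr (sub_eq_zero.1 h)
  have hc : ∀ S, f (e Sᶜ) = 1 - f (e S) := by
    intro S
    rw [← map_one f, ← map_sub]
    congr 1
    funext i; by_cases h : i ∈ S <;> simp [e, h]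
  have hm : ∀ S T, f (e (S ∩ T)) = f (e S) * f (e T) := by
    intro S T
    rw [← map_mul]
    congr 1
    funext i; by_cases h : i ∈ S <;> by_cases h' : i ∈ T <;> simp [e, h, h']
  let G : Filter I :=
    { sets := {S | f (e S) = 1}
      univ_sets := by
        show f (e Set.univ) = 1
        rw [← map_one f]; congr 1; funext i; simp [e]
      sets_of_superset := by
        intro S T hS hST
        have h1 := hm S T
        rw [Set.inter_eq_left.2 hST, show f (e S) = 1 from hS, one_mul] at h1
        exact h1.symm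
      inter_sets := by
        intro S T hS hT
        show f (e (S ∩ T)) = 1
        rw [hm, show f (e S) = 1 from hS, show f (e T) = 1 from hT, one_mul] }
  have hG : ∀ S, S ∈ G ↔ f (e S) = 1 := fun S => Iff.rfl
  refine ⟨Ultrafilter.ofComplNotMemIff G (fun S => ?_), fun a => ?_⟩
  · rw [hG, hG, hc]
    rcases he S with h | h <;> simp [h]
  · show f a = 0 ↔ {i | a i = 0} ∈ G
    rw [hG]
    constructor
    · intro h
      have h1 : e {i | a i = 0}ᶜ = a * fun i => (a i)⁻¹ := by
        funext i; by_cases h : a i = 0 <;> simp [e, h]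
      have h2 := hc {i | a i = 0}
      rw [h1, map_mul, h, zero_mul] at h2
      linear_combination h2
    · intro h
      have h1 : a * e {i | a i = 0} = 0 := by
        funext i; by_cases h : a i = 0 <;> simp [e, h]
      have h2 := congrArg f h1
      rwa [map_mul, h, mul_one, map_zero] at h2

theorem isU_germ (U : Ultrafilter I) : IsU U (Germ.coeRingHom (U : Filter I) : (I → k) →+* _) :=
  fun a => Germ.coe_eq (f := a) (g := 0)

variable {U : Ultrafilter I} {f : (I → k) →+* F}

lemma IsU.eq_iff (hf : IsU U f) (a b : I → k) : f a = f b ↔ ∀ᶠ i in U, a i = b i := by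
  rw [← sub_eq_zero, ← map_sub, hf]
  simp only [Pi.sub_apply, sub_eq_zero]

lemma IsU.congr (hf : IsU U f) {a b : I → k} (h : ∀ᶠ i in U, a i = b i) : f a = f b :=
  (hf.eq_iff a b).2 h

lemma IsU.ne_iff (hf : IsU U f) (a b : I → k) : f a ≠ f b ↔ ∀ᶠ i in U, a i ≠ b i := by
  rw [Ne, hf.eq_iff, ← Ultrafilter.eventually_not]

lemma IsU.map_inv (hf : IsU U f) (a : I → k) : f (fun i => (a i)⁻¹) = (f a)⁻¹ := by
  by_cases h : f a = 0
  · rw [h, inv_zero, hf]
    filter_upwards [(hf a).1 h] with i hi
    simp [hi]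
  · have h1 : ∀ᶠ i in U, a i ≠ 0 := by
      rw [hf, ← Ultrafilter.eventually_not] at h
      exact h
    refine eq_inv_of_mul_eq_one_left ?_
    rw [← map_mul, ← map_one f]
    apply hf.congr
    filter_upwards [h1] with i hi
    simp [hi]

lemma IsU.map_div (hf : IsU U f) (a b : I → k) : f (fun i => a i / b i) = f a / f b := by
  rw [div_eq_mul_inv, ← hf.map_inv, ← map_mul]
  congr 1
  funext i
  simp [div_eq_mul_inv]

end

/-- in a ring homomorphism out of a product nowhere vanishing sequences have non zero image -/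
lemma map_ne_zero_of_forall {I k F : Type*} [Field k] [Field F] (f : (I → k) →+* F) {a : I → k}
    (h : ∀ i, a i ≠ 0) : f a ≠ 0 := by
  obtain ⟨U, hU⟩ := exists_isU f
  rw [Ne, hU, ← Ultrafilter.eventually_not]
  exact Eventually.of_forall h

lemma map_inv_seq {I k F : Type*} [Field k] [Field F] (f : (I → k) →+* F) (a : I → k) :
    f (fun i => (a i)⁻¹) = (f a)⁻¹ := by
  obtain ⟨U, hU⟩ := exists_isU f
  exact hU.map_inv a

lemma map_div_seq {I k F : Type*} [Field k] [Field F] (f : (I → k) →+* F) (a b : I → k) :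
    f (fun i => a i / b i) = f a / f b := by
  obtain ⟨U, hU⟩ := exists_isU f
  exact hU.map_div a b

section Points
variable {I k F : Type*} [Field k] [Field F] [DecidableEq k] [DecidableEq F]
  {U : Ultrafilter I} {f : (I → k) →+* F} (hf : IsU U f) {d : k} {d' : F}
  (hd : f (fun _ => d) = d')
include hf hd

lemma psi_nonsingular (S : I → (W d).Point) (h : ¬ ∀ᶠ i in U, S i = 0) :
    (W d').Nonsingular (f fun i => xc (S i)) (f fun i => yc (S i)) := by
  rw [← Ultrafilter.eventually_not] at h
  have h1 : ∀ᶠ i in U, (W d).Nonsingular (xc (S i)) (yc (S i)) := by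
    filter_upwards [h] with i hi
    rcases hS : S i with _ | ⟨x, y, hxy⟩
    · exact absurd hS hi
    · exact hxy
  simp only [W_nonsingular] at h1 ⊢
  constructor
  · rw [← hd, ← map_pow, ← map_pow, ← map_mul, ← map_sub]
    apply hf.congr
    filter_upwards [h1] with i hi
    exact hi.1
  · have h2 : ∀ᶠ i in U, 3 * xc (S i) ^ 2 - d ≠ 0 ∨ 2 * yc (S i) ≠ 0 := by
      filter_upwards [h1] with i hi using hi.2
    rcases Ultrafilter.eventually_or.1 h2 with h3 | h3
    · left
      rw [← hd, ← map_pow, ← map_ofNat f 3, ← map_mul, ← map_sub, ← map_zero f, hf.ne_iff]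
      exact h3
    · right
      rw [← map_ofNat f 2, ← map_mul, ← map_zero f, hf.ne_iff]
      exact h3

open Classical in
/-- the point that belongs to a sequence of points -/
noncomputable def psiFun (S : I → (W d).Point) : (W d').Point :=
  if h : ∀ᶠ i in U, S i = 0 then 0 else .some _ _ (psi_nonsingular hf hd S h)

lemma psiFun_eq_zero (S : I → (W d).Point) : psiFun hf hd S = 0 ↔ ∀ᶠ i in U, S i = 0 := by
  unfold psiFun
  split_ifs with h
  · simp [h]
  · simp [h, Point.some_ne_zero]

lemma xc_psiFun (S : I → (W d).Point) : xc (psiFun hf hd S) = f fun i => xc (S i) := by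
  unfold psiFun
  split_ifs with h
  · rw [xc_zero, eq_comm, hf]
    filter_upwards [h] with i hi
    simp [hi]
  · rfl

lemma yc_psiFun (S : I → (W d).Point) : yc (psiFun hf hd S) = f fun i => yc (S i) := by
  unfold psiFun
  split_ifs with h
  · rw [yc_zero, eq_comm, hf]
    filter_upwards [h] with i hi
    simp [hi]
  · rfl

lemma psiFun_congr {S T : I → (W d).Point} (h : ∀ᶠ i in U, S i = T i) :
    psiFun hf hd S = psiFun hf hd T := by
  refine point_ext ?_ ?_ ?_
  · rw [psiFun_eq_zero, psiFun_eq_zero]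
    constructor <;> intro h' <;> filter_upwards [h, h'] with i h1 h2
    · rw [← h1, h2]
    · rw [h1, h2]
  · rw [xc_psiFun, xc_psiFun]
    apply hf.congr
    filter_upwards [h] with i hi
    rw [hi]
  · rw [yc_psiFun, yc_psiFun]
    apply hf.congr
    filter_upwards [h] with i hi
    rw [hi]

lemma map_slope_seq (x₁ x₂ y₁ y₂ : I → k) :
    f (fun i => (W d).slope (x₁ i) (x₂ i) (y₁ i) (y₂ i)) =
      (W d').slope (f x₁) (f x₂) (f y₁) (f y₂) := by
  rcases U.em (fun i => x₁ i = x₂ i) with hx | hx
  · have ex := hf.congr hx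
    rcases U.em (fun i => y₁ i = -y₂ i) with hy | hy
    · have ey : f y₁ = -f y₂ := by rw [← map_neg]; exact hf.congr hy
      rw [slope_of_Y_eq ex (by simp [ey]), hf]
      filter_upwards [hx, hy] with i h1 h2
      exact slope_of_Y_eq h1 (by simp [h2])
    · have ey : f y₁ ≠ -f y₂ := by rw [← map_neg, hf.ne_iff]; exact hy
      rw [slope_of_Y_ne ex (by simpa using ey)]
      have : f (fun i => (W d).slope (x₁ i) (x₂ i) (y₁ i) (y₂ i)) =
          f (fun i => (3 * x₁ i ^ 2 - d) / (y₁ i + y₁ i)) := by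
        apply hf.congr
        filter_upwards [hx, hy] with i h1 h2
        rw [slope_of_Y_ne h1 (by simpa using h2)]
        simp only [W_a₁, W_a₂, W_a₄, W_negY]
        congr 1 <;> ring
      rw [this, hf.map_div]
      simp only [W_a₁, W_a₂, W_a₄, W_negY]
      congr 1
      · have : (fun i => 3 * x₁ i ^ 2 - d) = 3 * x₁ ^ 2 - fun _ => d := by funext i; simp
        rw [this, map_sub, map_mul, map_pow, map_ofNat, hd]; ring
      · have : (fun i => y₁ i + y₁ i) = y₁ + y₁ := rfl
        rw [this, map_add]; ring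
  · have ex : f x₁ ≠ f x₂ := (hf.ne_iff _ _).2 hx
    rw [slope_of_X_ne ex, ← map_sub, ← map_sub, ← hf.map_div]
    apply hf.congr
    filter_upwards [hx] with i h1
    rw [slope_of_X_ne h1]; rfl

omit hf hd in
lemma eq_some_of_ne {Q : (W d).Point} (h : Q ≠ 0) :
    ∃ hn : (W d).Nonsingular (xc Q) (yc Q), Q = .some _ _ hn := by
  rcases Q with _ | ⟨x, y, hxy⟩
  · exact absurd rfl h
  · exact ⟨hxy, rfl⟩

omit hf hd in
lemma add_coords {P Q : (W d).Point} (hP : P ≠ 0) (hQ : Q ≠ 0)
    (h : ¬ (xc P = xc Q ∧ yc P = -yc Q)) : P + Q ≠ 0 ∧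
    xc (P + Q) = (W d).slope (xc P) (xc Q) (yc P) (yc Q) ^ 2 - xc P - xc Q ∧
    yc (P + Q) = -((W d).slope (xc P) (xc Q) (yc P) (yc Q) *
      ((W d).slope (xc P) (xc Q) (yc P) (yc Q) ^ 2 - xc P - xc Q - xc P) + yc P) := by
  rcases P with _ | ⟨x₁, y₁, h₁⟩
  · exact absurd rfl hP
  rcases Q with _ | ⟨x₂, y₂, h₂⟩
  · exact absurd rfl hQ
  have h' : ¬ (x₁ = x₂ ∧ y₁ = (W d).negY x₂ y₂) := by simpa using h
  rw [Point.add_some h']
  exact ⟨Point.some_ne_zero _, W_addX d _ _ _, W_addY d _ _ _ _⟩

omit hf hd in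
lemma add_eq_zero_of {P Q : (W d).Point} (hP : P ≠ 0) (hQ : Q ≠ 0)
    (h : xc P = xc Q ∧ yc P = -yc Q) : P + Q = 0 := by
  rcases P with _ | ⟨x₁, y₁, h₁⟩
  · exact absurd rfl hP
  rcases Q with _ | ⟨x₂, y₂, h₂⟩
  · exact absurd rfl hQ
  exact Point.add_of_Y_eq h.1 (by simpa using h.2)

lemma psiFun_add (S T : I → (W d).Point) :
    psiFun hf hd (S + T) = psiFun hf hd S + psiFun hf hd T := by
  rcases U.em (fun i => S i = 0) with hS | hS
  · rw [(psiFun_eq_zero hf hd S).2 hS, zero_add]
    apply psiFun_congr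
    filter_upwards [hS] with i hi
    simp [hi]
  rcases U.em (fun i => T i = 0) with hT | hT
  · rw [(psiFun_eq_zero hf hd T).2 hT, add_zero]
    apply psiFun_congr
    filter_upwards [hT] with i hi
    simp [hi]
  have hS' : psiFun hf hd S ≠ 0 := by
    rw [Ne, psiFun_eq_zero, ← Ultrafilter.eventually_not]; exact hS
  have hT' : psiFun hf hd T ≠ 0 := by
    rw [Ne, psiFun_eq_zero, ← Ultrafilter.eventually_not]; exact hT
  have key : (xc (psiFun hf hd S) = xc (psiFun hf hd T) ∧
      yc (psiFun hf hd S) = -yc (psiFun hf hd T)) ↔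
      ∀ᶠ i in U, xc (S i) = xc (T i) ∧ yc (S i) = -yc (T i) := by
    rw [xc_psiFun, xc_psiFun, yc_psiFun, yc_psiFun, ← map_neg, hf.eq_iff, hf.eq_iff,
      eventually_and]
    rfl
  rcases U.em (fun i => xc (S i) = xc (T i) ∧ yc (S i) = -yc (T i)) with h | h
  · rw [add_eq_zero_of hS' hT' (key.2 h), psiFun_eq_zero]
    filter_upwards [hS, hT, h] with i h1 h2 h3
    exact add_eq_zero_of h1 h2 h3
  · have h' : ¬ (xc (psiFun hf hd S) = xc (psiFun hf hd T) ∧
        yc (psiFun hf hd S) = -yc (psiFun hf hd T)) := by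
      rw [key, ← Ultrafilter.eventually_not]; exact h
    obtain ⟨e0, e1, e2⟩ := add_coords hS' hT' h'
    have hp := ((hS.and hT).and h).mono fun i hi => add_coords hi.1.1 hi.1.2 hi.2
    refine point_ext ?_ ?_ ?_
    · simp only [e0, iff_false]
      rw [psiFun_eq_zero, ← Ultrafilter.eventually_not]
      filter_upwards [hp] with i hi using hi.1
    · rw [e1]
      simp only [xc_psiFun, yc_psiFun]
      rw [← map_slope_seq hf hd, ← map_pow, ← map_sub, ← map_sub]
      apply hf.congr
      filter_upwards [hp] with i hi using hi.2.1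
    · rw [e2]
      simp only [xc_psiFun, yc_psiFun]
      rw [← map_slope_seq hf hd, ← map_pow, ← map_sub, ← map_sub, ← map_sub, ← map_mul, ← map_add,
        ← map_neg]
      apply hf.congr
      filter_upwards [hp] with i hi using hi.2.2

/-- sequences of points give points -/
noncomputable def psi : (I → (W d).Point) →+ (W d').Point where
  toFun := psiFun hf hd
  map_zero' := (psiFun_eq_zero hf hd 0).2 (Eventually.of_forall fun _ => rfl)
  map_add' := psiFun_add hf hd

lemma psi_eq_zero (S : I → (W d).Point) : psi hf hd S = 0 ↔ ∀ᶠ i in U, S i = 0 :=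
  psiFun_eq_zero hf hd S

lemma psi_eq_iff (S T : I → (W d).Point) : psi hf hd S = psi hf hd T ↔ ∀ᶠ i in U, S i = T i := by
  rw [← sub_eq_zero, ← map_sub, psi_eq_zero]
  simp only [Pi.sub_apply, sub_eq_zero]

lemma xc_psi (S : I → (W d).Point) : xc (psi hf hd S) = f fun i => xc (S i) := xc_psiFun hf hd S

lemma yc_psi (S : I → (W d).Point) : yc (psi hf hd S) = f fun i => yc (S i) := yc_psiFun hf hd S

lemma zc_psi (S : I → (W d).Point) : zc (psi hf hd S) = f fun i => zc (S i) := by
  rw [zc, xc_psi, yc_psi, ← map_neg, ← hf.map_div]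
  rfl

lemma psi_surjective (hs : Function.Surjective f) : Function.Surjective (psi hf hd) := by
  classical
  rintro (_ | ⟨x, y, hxy⟩)
  · exact ⟨0, map_zero _⟩
  obtain ⟨a, rfl⟩ := hs x
  obtain ⟨b, rfl⟩ := hs y
  have h1 : ∀ᶠ i in U, (W d).Nonsingular (a i) (b i) := by
    simp only [W_nonsingular] at hxy ⊢
    obtain ⟨e1, e2⟩ := hxy
    rw [← hd, ← map_pow, ← map_pow, ← map_mul, ← map_sub, hf.eq_iff] at e1
    rw [← hd, ← map_pow, ← map_ofNat f 3, ← map_mul, ← map_sub, ← map_ofNat f 2, ← map_mul,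
      ← map_zero f, hf.ne_iff, hf.ne_iff, ← Ultrafilter.eventually_or] at e2
    filter_upwards [e1, e2] with i h1 h2 using ⟨h1, h2⟩
  let S : I → (W d).Point := fun i =>
    if h : (W d).Nonsingular (a i) (b i) then .some _ _ h else 0
  have h2 : ∀ᶠ i in U, S i ≠ 0 ∧ xc (S i) = a i ∧ yc (S i) = b i := by
    filter_upwards [h1] with i hi
    simp only [S, dif_pos hi]
    exact ⟨Point.some_ne_zero _, rfl, rfl⟩
  refine ⟨S, point_ext ?_ ?_ ?_⟩
  · simp only [Point.some_ne_zero, iff_false]
    rw [psi_eq_zero, ← Ultrafilter.eventually_not]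
    filter_upwards [h2] with i hi using hi.1
  · rw [xc_psi, xc_some]
    apply hf.congr
    filter_upwards [h2] with i hi using hi.2.1
  · rw [yc_psi, yc_some]
    apply hf.congr
    filter_upwards [h2] with i hi using hi.2.2

end Points

end Vale.Agent.P027Z
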