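import Vale.Agent.P027Z.Iface
import Vale.Agent.P027Z.Ultra

/-! Extension of a homomorphism of rational sequences to sequences in a finite extension. -/

set_option linter.all false

namespace Vale.Agent.P027Z

open Filter

section
variable {I F K ι : Type*} [Field F] [Field K] [Algebra ℚ K] [Fintype ι] [DecidableEq ι]
  (bas : Module.Basis ι ℚ K) (θ : (I → ℚ) →+* F) (e : K →+* F)

/-- the extension, as a function -/
noncomputable def extFun (a : I → K) : F := ∑ j, θ (fun i => bas.repr (a i) j) * e (bas j)

lemma theta_const (c : ℚ) : θ (fun _ => c) = e (algebraMap ℚ K c) := by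
  have h1 : (θ.comp (Pi.constRingHom I ℚ)) = e.comp (algebraMap ℚ K) := Subsingleton.elim _ _
  exact congrArg (fun g : ℚ →+* F => g c) h1

lemma extFun_add (a b : I → K) : extFun bas θ e (a + b) = extFun bas θ e a + extFun bas θ e b := by
  unfold extFun
  rw [← Finset.sum_add_distrib]
  refine Finset.sum_congr rfl fun j _ => ?_
  rw [← add_mul, ← map_add]
  congr 2
  funext i
  simp

lemma extFun_sum {α : Type*} (s : Finset α) (a : α → I → K) :
    extFun bas θ e (∑ x ∈ s, a x) = ∑ x ∈ s, extFun bas θ e (a x) := by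
  classical
  induction s using Finset.induction_on with
  | empty =>
    simp only [Finset.sum_empty, extFun, Pi.zero_apply, map_zero, Finsupp.coe_zero]
    refine Finset.sum_eq_zero fun j _ => ?_
    have : (fun _ : I => (0 : ℚ)) = 0 := rfl
    rw [this, map_zero, zero_mul]
  | insert x s hx ih => rw [Finset.sum_insert hx, Finset.sum_insert hx, extFun_add, ih]

lemma extFun_smul (r : I → ℚ) (c : K) :
    extFun bas θ e (fun i => algebraMap ℚ K (r i) * c) = θ r * e c := by
  unfold extFun
  conv_rhs => rw [← bas.sum_repr c, map_sum, Finset.mul_sum]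
  refine Finset.sum_congr rfl fun j _ => ?_
  rw [Algebra.smul_def, map_mul, ← theta_const θ e, ← mul_assoc, ← map_mul]
  congr 2
  funext i
  show bas.repr (algebraMap ℚ K (r i) * c) j = r i * bas.repr c j
  rw [← Algebra.smul_def, map_smul]
  simp

lemma seq_expand (a : I → K) :
    a = ∑ j, fun i => algebraMap ℚ K (bas.repr (a i) j) * bas j := by
  funext i
  rw [Finset.sum_apply]
  conv_lhs => rw [← bas.sum_repr (a i)]
  simp only [Algebra.smul_def]

lemma extFun_mul (a b : I → K) : extFun bas θ e (a * b) = extFun bas θ e a * extFun bas θ e b := by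
  have h : a * b = ∑ j, ∑ l, fun i =>
      algebraMap ℚ K (bas.repr (a i) j * bas.repr (b i) l) * (bas j * bas l) := by
    conv_lhs => rw [seq_expand bas a, seq_expand bas b, Finset.sum_mul_sum]
    refine Finset.sum_congr rfl fun j _ => Finset.sum_congr rfl fun l _ => ?_
    funext i
    simp only [Pi.mul_apply, map_mul]
    ring
  rw [h, extFun_sum]
  conv_rhs => rw [extFun, extFun, Finset.sum_mul_sum]
  refine Finset.sum_congr rfl fun j _ => ?_
  rw [extFun_sum]
  refine Finset.sum_congr rfl fun l _ => ?_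
  rw [extFun_smul bas θ e (fun i => bas.repr (a i) j * bas.repr (b i) l), map_mul]
  have : (fun i => bas.repr (a i) j * bas.repr (b i) l) =
      (fun i => bas.repr (a i) j) * fun i => bas.repr (b i) l := rfl
  rw [this, map_mul]
  ring

/-- the extension -/
noncomputable def ext : (I → K) →+* F where
  toFun := extFun bas θ e
  map_one' := by
    have := extFun_smul bas θ e 1 1
    simp only [Pi.one_apply, map_one, mul_one] at this
    exact this
  map_mul' := extFun_mul bas θ e
  map_zero' := extFun_sum bas θ e (∅ : Finset ℕ) (fun _ => 0)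
  map_add' := extFun_add bas θ e

lemma ext_smul (r : I → ℚ) (c : K) :
    ext bas θ e (fun i => algebraMap ℚ K (r i) * c) = θ r * e c := extFun_smul bas θ e r c

lemma ext_rat (r : I → ℚ) : ext bas θ e (fun i => algebraMap ℚ K (r i)) = θ r := by
  have := ext_smul bas θ e r 1
  simpa using this

lemma ext_const (c : K) : ext bas θ e (fun _ => c) = e c := by
  have := ext_smul bas θ e 1 c
  simpa using this

/-- the extension commutes with endomorphisms -/
lemma ext_comm (σ : K →+* K) (s : F →+* F) (h1 : ∀ r, s (θ r) = θ r) (h2 : ∀ c, s (e c) = e (σ c))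
    (a : I → K) : ext bas θ e (fun i => σ (a i)) = s (ext bas θ e a) := by
  have h : (fun i => σ (a i)) = ∑ j, fun i => algebraMap ℚ K (bas.repr (a i) j) * σ (bas j) := by
    funext i
    rw [Finset.sum_apply]
    conv_lhs => rw [← bas.sum_repr (a i), map_sum]
    refine Finset.sum_congr rfl fun j _ => ?_
    rw [Algebra.smul_def, map_mul]
    congr 1
    have h1 : σ.comp (algebraMap ℚ K) = algebraMap ℚ K := Subsingleton.elim _ _
    exact congrArg (fun g : ℚ →+* K => g _) h1
  rw [h, map_sum]
  conv_rhs => rw [seq_expand bas a, map_sum, map_sum]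
  refine Finset.sum_congr rfl fun j _ => ?_
  rw [ext_smul, ext_smul, map_mul, h1, h2]

end

section
variable {J K K' : Type*} [Field K] [Field K'] (U : Ultrafilter J)

/-- a ring homomorphism acts on germs -/
def gmap (σ : K →+* K') : Germ (U : Filter J) K →+* Germ (U : Filter J) K' where
  toFun := Germ.map σ
  map_one' := by
    show Germ.map σ ((1 : J → K) : Germ (U : Filter J) K) = ((1 : J → K') : Germ _ K')
    rw [Germ.map_coe]; congr 1; funext w; simp
  map_mul' x y := by
    induction x using Germ.inductionOn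
    induction y using Germ.inductionOn
    rw [← Germ.coe_mul, Germ.map_coe, Germ.map_coe, Germ.map_coe, ← Germ.coe_mul]
    congr 1; funext w; simp
  map_zero' := by
    show Germ.map σ ((0 : J → K) : Germ (U : Filter J) K) = ((0 : J → K') : Germ _ K')
    rw [Germ.map_coe]; congr 1; funext w; simp
  map_add' x y := by
    induction x using Germ.inductionOn
    induction y using Germ.inductionOn
    rw [← Germ.coe_add, Germ.map_coe, Germ.map_coe, Germ.map_coe, ← Germ.coe_add]
    congr 1; funext w; simp

lemma gmap_coe (σ : K →+* K') (a : J → K) :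
    gmap U σ (a : Germ (U : Filter J) K) = ((fun w => σ (a w)) : Germ (U : Filter J) K') := rfl

/-- constant germs -/
def gconst (K : Type*) [Field K] : K →+* Germ (U : Filter J) K :=
  (Germ.coeRingHom (U : Filter J)).comp (Pi.constRingHom J K)

lemma gconst_eq (c : K) : gconst U K c = ((fun _ => c : J → K) : Germ (U : Filter J) K) := rfl

/-- the valuation subring of the ultrapower that belongs to a sequence of valuation subrings -/
def gval (O : J → ValuationSubring K) : ValuationSubring (Germ (U : Filter J) K) where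
  carrier := {x | ∃ a : J → K, x = a ∧ ∀ᶠ w in U, a w ∈ O w}
  mul_mem' := by
    rintro _ _ ⟨a, rfl, ha⟩ ⟨b, rfl, hb⟩
    refine ⟨a * b, rfl, ?_⟩
    filter_upwards [ha, hb] with w h1 h2 using mul_mem h1 h2
  one_mem' := ⟨1, rfl, Eventually.of_forall fun w => one_mem _⟩
  add_mem' := by
    rintro _ _ ⟨a, rfl, ha⟩ ⟨b, rfl, hb⟩
    refine ⟨a + b, rfl, ?_⟩
    filter_upwards [ha, hb] with w h1 h2 using add_mem h1 h2
  zero_mem' := ⟨0, rfl, Eventually.of_forall fun w => zero_mem _⟩
  neg_mem' := by
    rintro _ ⟨a, rfl, ha⟩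
    refine ⟨-a, rfl, ?_⟩
    filter_upwards [ha] with w h1 using neg_mem h1
  mem_or_inv_mem' := by
    intro x
    induction x using Germ.inductionOn with
    | h a =>
      rcases Ultrafilter.eventually_or.1
        (Eventually.of_forall fun w => (O w).mem_or_inv_mem (a w) :
          ∀ᶠ w in U, a w ∈ O w ∨ (a w)⁻¹ ∈ O w) with h | h
      · exact Or.inl ⟨a, rfl, h⟩
      · exact Or.inr ⟨a⁻¹, rfl, h⟩

lemma mem_gval (O : J → ValuationSubring K) (a : J → K) :
    (a : Germ (U : Filter J) K) ∈ gval U O ↔ ∀ᶠ w in U, a w ∈ O w := by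
  constructor
  · rintro ⟨b, hb, h⟩
    filter_upwards [Germ.coe_eq.1 hb, h] with w h1 h2
    rwa [h1]
  · exact fun h => ⟨a, rfl, h⟩

lemma mem_nonunits_gval (O : J → ValuationSubring K) (a : J → K) :
    (a : Germ (U : Filter J) K) ∈ (gval U O).nonunits ↔ ∀ᶠ w in U, a w ∈ (O w).nonunits := by
  simp only [ValuationSubring.mem_nonunits_iff_or]
  rw [Ultrafilter.eventually_or, Ultrafilter.eventually_not, ← Germ.coe_inv, mem_gval]
  exact or_congr (Germ.coe_eq (f := a) (g := 0)) Iff.rfl

end

section
variable {R F : Type*} [CommRing R] [Field F] (g : R →+* F) (O : ValuationSubring F)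

/-- the coarse valuation subring: the smallest one that contains `O` and the image of `g` -/
def coarse : ValuationSubring F where
  carrier := {x | ∃ t : R, ∃ o ∈ O, x = g t * o}
  mul_mem' := by
    rintro _ _ ⟨t, o, ho, rfl⟩ ⟨t', o', ho', rfl⟩
    exact ⟨t * t', o * o', mul_mem ho ho', by rw [map_mul]; ring⟩
  one_mem' := ⟨1, 1, one_mem _, by simp⟩
  add_mem' := by
    rintro _ _ ⟨t, o, ho, rfl⟩ ⟨t', o', ho', rfl⟩
    by_cases h0 : g t = 0
    · exact ⟨t', o', ho', by rw [h0]; ring⟩
    by_cases h1 : g t' = 0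
    · exact ⟨t, o, ho, by rw [h1]; ring⟩
    rcases O.mem_or_inv_mem (g t / g t') with h | h
    · exact ⟨t', g t / g t' * o + o', add_mem (mul_mem h ho) ho', by field_simp⟩
    · exact ⟨t, o + (g t / g t')⁻¹ * o', add_mem ho (mul_mem h ho'), by field_simp⟩
  zero_mem' := ⟨1, 0, zero_mem _, by simp⟩
  neg_mem' := by
    rintro _ ⟨t, o, ho, rfl⟩
    exact ⟨t, -o, neg_mem ho, by ring⟩
  mem_or_inv_mem' := by
    intro x
    rcases O.mem_or_inv_mem x with h | h
    · exact Or.inl ⟨1, x, h, by simp⟩
    · exact Or.inr ⟨1, x⁻¹, h, by simp⟩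

lemma le_coarse : O ≤ coarse g O := fun x hx => ⟨1, x, hx, by simp⟩

lemma map_mem_coarse (t : R) : g t ∈ coarse g O := ⟨t, 1, one_mem _, by simp⟩

lemma coarse_nonunits_le {x : F} (h : x ∈ (coarse g O).nonunits) : x ∈ O.nonunits :=
  (ValuationSubring.nonunits_le_nonunits.2 (le_coarse g O)) h

lemma mem_nonunits_coarse {x : F} (h : ∀ t : R, x * g t ∈ O.nonunits) :
    x ∈ (coarse g O).nonunits := by
  rw [ValuationSubring.mem_nonunits_iff_or]
  by_cases h0 : x = 0
  · exact Or.inl h0
  right
  rintro ⟨t, o, ho, e⟩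
  have h1 := h t
  rw [ValuationSubring.mem_nonunits_iff] at h1
  have h2 := (O.valuation_le_one_iff o).2 ho
  have h3 : x * g t * o = 1 := by rw [mul_assoc, ← e, mul_inv_cancel₀ h0]
  have h4 := congrArg O.valuation h3
  rw [map_mul, map_one] at h4
  exact absurd h4 (ne_of_lt (mul_lt_one_of_lt_of_le h1 h2))

end

end Vale.Agent.P027Z
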