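import Vale.Agent.P027Z.LemC
import Vale.Agent.P027Z.Defs

/-! Visible primes. -/

set_option linter.all false

namespace Vale.Agent.P027Z

open Filter

lemma exists_O {p : ℕ} (hp : p.Prime) : ∃ O : ValuationSubring ℚ, (p : ℚ) ∈ O.nonunits := by
  haveI := Fact.mk hp
  refine ⟨(Rat.padicValuation p).valuationSubring, ?_⟩
  rw [ValuationSubring.mem_nonunits_iff_or]
  right
  rw [Valuation.mem_valuationSubring_iff, map_inv₀, Rat.padicValuation_self, not_le,
    ← WithZero.exp_neg, ← WithZero.exp_zero, WithZero.exp_lt_exp]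
  norm_num

/-- `p` divides the numerator -/
def Dv (p : ℕ) (x : ℚ) : Prop := (p : ℤ) ∣ x.num

section
variable {p : ℕ} (hp : p.Prime)
include hp

lemma Dv.add {x y : ℚ} (hx : Dv p x) (hy : Dv p y) : Dv p (x + y) := by
  obtain ⟨O, hO⟩ := exists_O hp
  exact (rat_nu_iff hp hO _).1 (nu_add ((rat_nu_iff hp hO _).2 hx) ((rat_nu_iff hp hO _).2 hy))

lemma Dv.sub {x y : ℚ} (hx : Dv p x) (hy : Dv p y) : Dv p (x - y) := by
  obtain ⟨O, hO⟩ := exists_O hp
  exact (rat_nu_iff hp hO _).1 (nu_sub ((rat_nu_iff hp hO _).2 hx) ((rat_nu_iff hp hO _).2 hy))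

lemma Dv.mul {x y : ℚ} (hx : Dv p x) (hy : Dv p y) : Dv p (x * y) := by
  obtain ⟨O, hO⟩ := exists_O hp
  exact (rat_nu_iff hp hO _).1
    (nu_mul_right ((rat_nu_iff hp hO _).2 hx) (nu_mem ((rat_nu_iff hp hO _).2 hy)))

lemma Dv.mul_int {x : ℚ} (hx : Dv p x) (z : ℤ) : Dv p (x * z) := by
  obtain ⟨O, hO⟩ := exists_O hp
  exact (rat_nu_iff hp hO _).1 (nu_mul_right ((rat_nu_iff hp hO _).2 hx) (intCast_mem O z))

lemma not_dv_one : ¬ Dv p 1 := fun h =>
  hp.one_lt.ne' (Nat.dvd_one.1 (Int.natCast_dvd_natCast.1 h))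

end

lemma dv_int {p : ℕ} {z : ℤ} : Dv p z ↔ (p : ℤ) ∣ z := by simp [Dv]

/-- the odd primes whose exponent in `x` is not a multiple of `n` -/
def Vs (n : ℕ) (x : ℚ) : Finset ℕ :=
  (x.num.natAbs * x.den).primeFactors.filter (fun p => p ≠ 2 ∧ ¬ (n : ℤ) ∣ padicValRat p x)

lemma mem_Vs {n p : ℕ} {x : ℚ} :
    p ∈ Vs n x ↔ p.Prime ∧ p ≠ 2 ∧ ¬ (n : ℤ) ∣ padicValRat p x := by
  rw [Vs, Finset.mem_filter, Nat.mem_primeFactors]
  refine ⟨fun h => ⟨h.1.1, h.2⟩, fun ⟨h1, h2, h3⟩ => ⟨⟨h1, ?_, ?_⟩, h2, h3⟩⟩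
  · by_contra h
    rw [h1.dvd_mul, not_or] at h
    apply h3
    rw [padicValRat, padicValInt, padicValNat.eq_zero_of_not_dvd h.1,
      padicValNat.eq_zero_of_not_dvd h.2]
    simp
  · rintro h
    rcases mul_eq_zero.1 h with h | h
    · have : x = 0 := by simpa using h
      simp [this] at h3
    · exact x.den_nz h

lemma dvd_val_den {n p : ℕ} (hp : p.Prime) {s : ℚ} (h : (n : ℤ) ∣ padicValRat p s) :
    (n : ℤ) ∣ padicValNat p s.den := by
  by_cases hd : p ∣ s.den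
  · have h1 : ¬ (p : ℤ) ∣ s.num := fun h2 => by
      have := Nat.dvd_gcd (Int.natCast_dvd.1 h2) hd
      rw [s.reduced] at this
      exact hp.one_lt.ne' (Nat.dvd_one.1 this)
    rw [padicValRat_def, padicValInt.eq_zero_of_not_dvd h1] at h
    simpa using h
  · rw [padicValNat.eq_zero_of_not_dvd hd]; simp

lemma dvd_fact {n p : ℕ} (hp : p.Prime) {s : ℚ} (h1 : 1 + s ≠ 0) (h2 : 1 + 2 * s ≠ 0)
    (h3 : 1 + 3 * s ≠ 0) (a : (n : ℤ) ∣ padicValRat p (1 + s))
    (b : (n : ℤ) ∣ padicValRat p (1 + 2 * s)) (c : (n : ℤ) ∣ padicValRat p (1 + 3 * s)) :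
    n ∣ ((s.den : ℤ) * (s.den + s.num) * (s.den + 2 * s.num) *
      (s.den + 3 * s.num)).natAbs.factorization p := by
  haveI := Fact.mk hp
  have hd : (s.den : ℚ) ≠ 0 := by exact_mod_cast s.den_nz
  have e : ((s.den * (s.den + s.num) * (s.den + 2 * s.num) * (s.den + 3 * s.num) : ℤ) : ℚ) =
      (1 + s) * (1 + 2 * s) * (1 + 3 * s) * (s.den : ℚ) ^ 4 := by
    have : (s.num : ℚ) = s * s.den := (Rat.mul_den_eq_num s).symm
    push_cast
    rw [this]; ring
  have e2 : padicValRat p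
      ((s.den * (s.den + s.num) * (s.den + 2 * s.num) * (s.den + 3 * s.num) : ℤ) : ℚ) =
      padicValRat p (1 + s) + padicValRat p (1 + 2 * s) + padicValRat p (1 + 3 * s) +
        4 * padicValNat p s.den := by
    rw [e, padicValRat.mul (mul_ne_zero (mul_ne_zero h1 h2) h3) (pow_ne_zero _ hd),
      padicValRat.mul (mul_ne_zero h1 h2) h3, padicValRat.mul h1 h2,
      padicValRat.pow, padicValRat.of_nat]
    rfl
  rw [padicValRat.of_int, padicValInt] at e2
  rw [Nat.factorization_def _ hp, ← Int.natCast_dvd_natCast, e2]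
  have e3 : (1 + s).den = s.den := by simpa using Rat.intCast_add_den 1 s
  exact dvd_add (dvd_add (dvd_add a b) c) (dvd_mul_of_dvd_right (e3 ▸ dvd_val_den hp a) _)

/-- the bound for the part of the radical that the height bound uses -/
lemma radN_le {n : ℕ} {s x : ℚ} (h0 : x ≠ 0) (h1 : x * (1 + s) ≠ 0) (h2 : x * (1 + 2 * s) ≠ 0)
    (h3 : x * (1 + 3 * s) ≠ 0) {T : Finset ℕ} (hT : ∀ p ∈ T, p.Prime) (t0 : Vs n x ⊆ T)
    (t1 : Vs n (x * (1 + s)) ⊆ T) (t2 : Vs n (x * (1 + 2 * s)) ⊆ T)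
    (t3 : Vs n (x * (1 + 3 * s)) ⊆ T) :
    radN n ((s.den : ℤ) * (s.den + s.num) * (s.den + 2 * s.num) * (s.den + 3 * s.num)).natAbs ≤
      2 * ∏ p ∈ T, p := by
  have hs : (((s.den : ℤ) * (s.den + s.num) * (s.den + 2 * s.num) *
      (s.den + 3 * s.num)).natAbs.primeFactors.filter fun p => ¬ n ∣ ((s.den : ℤ) *
        (s.den + s.num) * (s.den + 2 * s.num) * (s.den + 3 * s.num)).natAbs.factorization p) ⊆
      {2} ∪ T := by
    intro p hp
    rw [Finset.mem_filter] at hp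
    have pp := Nat.prime_of_mem_primeFactors hp.1
    haveI := Fact.mk pp
    by_contra hn
    simp only [Finset.mem_union, Finset.mem_singleton, not_or] at hn
    have key : ∀ x : ℚ, Vs n x ⊆ T → (n : ℤ) ∣ padicValRat p x := fun x hx => by
      by_contra h
      exact hn.2 (hx (mem_Vs.2 ⟨pp, hn.1, h⟩))
    have k2 : ∀ y : ℚ, x * y ≠ 0 → Vs n (x * y) ⊆ T → (n : ℤ) ∣ padicValRat p y := fun y a b => by
      have := key _ b
      rw [padicValRat.mul h0 (right_ne_zero_of_mul a)] at this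
      exact (dvd_add_right (key _ t0)).1 this
    exact hp.2 (dvd_fact pp (right_ne_zero_of_mul h1) (right_ne_zero_of_mul h2)
      (right_ne_zero_of_mul h3) (k2 _ h1 t1) (k2 _ h2 t2) (k2 _ h3 t3))
  have hpos : ∀ p ∈ ({2} : Finset ℕ) ∪ T, 1 ≤ p := by
    intro p hp
    simp only [Finset.mem_union, Finset.mem_singleton] at hp
    rcases hp with rfl | h
    · norm_num
    · exact (hT p h).one_le
  calc _ ≤ ∏ p ∈ ({2} : Finset ℕ) ∪ T, p :=
        Finset.prod_le_prod_of_subset_of_one_le' hs (fun p h _ => hpos p h)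
    _ ≤ (∏ p ∈ ({2} : Finset ℕ), p) * ∏ p ∈ T, p := by
        rw [← Finset.prod_union_inter]
        exact Nat.le_mul_of_pos_right _ (Finset.prod_pos fun p hp =>
          hpos p (Finset.mem_union_left _ (Finset.mem_inter.1 hp).1))
    _ = _ := by rw [Finset.prod_singleton]

section
variable {I J : Type} {U : Ultrafilter J} (θ : (I → ℚ) →+* Germ (U : Filter J) ℚ)

lemma rep_add (a b : I → ℚ) :
    ∀ᶠ w in U, rep θ (fun i => a i + b i) w = rep θ a w + rep θ b w := by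
  refine (Germ.coe_eq (f := rep θ fun i => a i + b i) (g := rep θ a + rep θ b)).1 ?_
  rw [Germ.coe_add, rep_spec, rep_spec, rep_spec, ← map_add]; rfl

lemma rep_mul (a b : I → ℚ) :
    ∀ᶠ w in U, rep θ (fun i => a i * b i) w = rep θ a w * rep θ b w := by
  refine (Germ.coe_eq (f := rep θ fun i => a i * b i) (g := rep θ a * rep θ b)).1 ?_
  rw [Germ.coe_mul, rep_spec, rep_spec, rep_spec, ← map_mul]; rfl

lemma rep_const (c : ℚ) : ∀ᶠ w in U, rep θ (fun _ => c) w = c := by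
  refine (Germ.coe_eq (f := rep θ fun _ => c) (g := fun _ => c)).1 ?_
  rw [rep_spec]
  exact (theta_const θ (gconst U ℚ) c).trans rfl

lemma rep_ne (a : I → ℚ) (h : ∀ i, a i ≠ 0) : ∀ᶠ w in U, rep θ a w ≠ 0 := by
  refine Ultrafilter.eventually_not.2 fun h0 => map_ne_zero_of_forall θ h ?_
  rw [← rep_spec]
  exact Germ.coe_eq.2 h0

/-- either the primes lie above the sequence, or the exponents are divisible -/
lemma dichotomy (ps : ParStar) (j : ℕ) {p : J → ℕ} (hp : ∀ w, (p w).Prime ∧ p w ≠ 2)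
    (q : I → ℤ) (h : ¬ Over θ p q) :
    ∀ᶠ w in U, ((2 ^ j : ℕ) : ℤ) ∣ padicValRat (p w) (rep θ (fun i => q i) w) := by
  choose O hO using fun w => exists_O (hp w).1
  obtain ⟨t, ht⟩ := not_forall.1 h
  have h2 : (2 : Germ (U : Filter J) ℚ) ∉ (gval U O).nonunits := by
    have : (2 : Germ (U : Filter J) ℚ) = ((fun _ => 2 : J → ℚ) : Germ (U : Filter J) ℚ) := rfl
    rw [this, mem_nonunits_gval]
    intro h3
    obtain ⟨w, hw⟩ := h3.exists
    have := (int_nu_iff (hp w).1 (hO w) 2).1 (by simpa using hw)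
    exact (hp w).2 ((Nat.prime_dvd_prime_iff_eq (hp w).1 Nat.prime_two).1 (by exact_mod_cast this))
  have h1 : θ (fun i => (q i : ℚ) * t i) ∉ (gval U O).nonunits := by
    rw [← rep_spec, mem_nonunits_gval]
    intro h3
    exact ht (h3.mono fun w hw => (rat_nu_iff (hp w).1 (hO w) _).1 hw)
  obtain ⟨y, y0, a1, a2⟩ := ps I _ θ (gval U O) h2 q t h1 j
  have q0 : ∀ᶠ w in U, rep θ (fun i => (q i : ℚ)) w ≠ 0 := by
    refine Ultrafilter.eventually_not.2 fun h0 => h1 ?_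
    have e : θ (fun i => (q i : ℚ)) = 0 := by rw [← rep_spec]; exact Germ.coe_eq.2 h0
    have : θ (fun i => (q i : ℚ) * t i) = θ (fun i => (q i : ℚ)) * θ (fun i => (t i : ℚ)) :=
      map_mul θ _ _
    rw [this, e, zero_mul]
    exact zero_mem _
  have g0 : ∀ᶠ w in U, rep θ y w ≠ 0 := by
    refine Ultrafilter.eventually_not.2 fun h0 => y0 ?_
    rw [← rep_spec]; exact Germ.coe_eq.2 h0
  rw [← rep_spec θ y, ← rep_spec θ (fun i => (q i : ℚ)), ← Germ.coe_pow, ← Germ.coe_div,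
    mem_gval] at a1 a2
  filter_upwards [a1, a2, q0, g0] with w b1 b2 b3 b4
  haveI := Fact.mk (hp w).1
  simp only [Pi.div_apply, Pi.pow_apply] at b1 b2
  have := val_zero_of_unit (hp w).1 (hO w) (x := rep θ (fun i => (q i : ℚ)) w / rep θ y w ^ 2 ^ j)
    b1 (by simpa using b2)
  rw [padicValRat.div b3 (pow_ne_zero _ b4), padicValRat.pow] at this
  exact ⟨padicValRat (p w) (rep θ y w), by omega⟩

/-- a property that holds along all sequences of primes above `q` holds for all visible primes -/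
lemma vis (ps : ParStar) (j : ℕ) (q : I → ℤ) (Φ : J → ℕ → Prop)
    (h : ∀ p : J → ℕ, (∀ w, (p w).Prime ∧ p w ≠ 2) → Over θ p q → ∀ᶠ w in U, Φ w (p w)) :
    ∀ᶠ w in U, ∀ p ∈ Vs (2 ^ j) (rep θ (fun i => q i) w), Φ w p := by
  by_contra hno
  have hno := Ultrafilter.eventually_not.2 hno
  have ex : ∀ w, ∃ p : ℕ, (p.Prime ∧ p ≠ 2) ∧
      ((¬ ∀ p ∈ Vs (2 ^ j) (rep θ (fun i => q i) w), Φ w p) →
        ¬ ((2 ^ j : ℕ) : ℤ) ∣ padicValRat p (rep θ (fun i => q i) w) ∧ ¬ Φ w p) := by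
    intro w
    by_cases hw : ∀ p ∈ Vs (2 ^ j) (rep θ (fun i => q i) w), Φ w p
    · exact ⟨3, ⟨by norm_num, by norm_num⟩, fun h' => absurd hw h'⟩
    · push Not at hw
      obtain ⟨p, h1, h2⟩ := hw
      rw [mem_Vs] at h1
      exact ⟨p, ⟨h1.1, h1.2.1⟩, fun _ => ⟨h1.2.2, h2⟩⟩
  choose p hp hv using ex
  by_cases ho : Over θ p q
  · obtain ⟨w, h1, h2⟩ := (hno.and (h p hp ho)).exists
    exact (hv w h1).2 h2
  · obtain ⟨w, h1, h2⟩ := (hno.and (dichotomy θ ps j hp q ho)).exists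
    exact (hv w h1).1 h2

lemma vis_over (ps : ParStar) (j : ℕ) (q t : I → ℤ) :
    ∀ᶠ w in U, ∀ p ∈ Vs (2 ^ j) (rep θ (fun i => q i) w),
      Dv p (rep θ (fun i => (q i : ℚ) * t i) w) :=
  vis θ ps j q _ fun p _ ho => ho t

lemma vis_disjoint (ps : ParStar) (j : ℕ) (q r : I → ℤ) (h : ∀ i, IsCoprime (q i) (r i)) :
    ∀ᶠ w in U, Disjoint (Vs (2 ^ j) (rep θ (fun i => q i) w))
      (Vs (2 ^ j) (rep θ (fun i => r i) w)) := by
  choose a b e using h
  have e' : (fun i => (q i : ℚ) * a i + (r i : ℚ) * b i) = fun _ => 1 := by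
    funext i
    have := congrArg (Int.cast (R := ℚ)) (e i)
    push_cast at this
    linear_combination this
  have h1 := rep_add θ (fun i => (q i : ℚ) * a i) (fun i => (r i : ℚ) * b i)
  rw [e'] at h1
  filter_upwards [vis_over θ ps j q a, vis_over θ ps j r b, h1, rep_const θ 1] with w b1 b2 b3 b4
  rw [Finset.disjoint_left]
  intro p h2 h3
  have pp := (mem_Vs.1 h2).1
  have := (b1 p h2).add pp (b2 p h3)
  rw [← b3, b4] at this
  exact not_dv_one pp this

end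

end Vale.Agent.P027Z
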